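import Vale.Agent.P214.FM.Field
import Vale.Agent.P214.Skel.Defs

/-!
# P214, block LOCF: from the flat to the curved rate lemma, exact propositions

Statements only.  `ν, P` are ambient; `fmeas T w h₁ ν`, `fP T w h₁ P` are the same objects in Fermi
coordinates `Y` of the graph of `w` (`T.starProjection Y` = foot point, `co T Y` = height).
-/

open Set Filter Topology MeasureTheory Metric
open scoped RealInnerProductSpace ENNReal ContDiff

set_option linter.all false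

namespace Vale.Agent.P214.LOCF

open FV Skel FM

variable {E : Type*} [NormedAddCommGroup E] [InnerProductSpace ℝ E] [FiniteDimensional ℝ E]
  [MeasurableSpace E] [BorelSpace E]

/-- curved excess over the base ball `ball z R`; `ν, P` in Fermi coordinates -/
noncomputable def excF (T : Submodule ℝ E) (w : E → E) (ν : Measure E) (P : E → E →L[ℝ] E)
    (z : E) (R : ℝ) : ℝ :=
  ∫ Y in cylSet T z R, eS T w Y (P Y) ∂ν

/-- square of the height over the base ball `ball z R`; `ν` in Fermi coordinates -/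
noncomputable def hgt2 (T : Submodule ℝ E) (ν : Measure E) (z : E) (R : ℝ) : ℝ :=
  ∫ Y in cylSet T z R, ‖co T Y‖ ^ 2 ∂ν

/-- `C^{1,1}` test functions of the base variable at scale `R` (no sign) -/
structure Test2 (T : Submodule ℝ E) (z : E) (R : ℝ) (φ : E → ℝ) : Prop where
  smooth : ContDiff ℝ 1 φ
  base : ∀ x, φ (T.starProjection x) = φ x
  bd0 : ∀ x, |φ x| ≤ 1
  bd1 : ∀ x, ‖fderiv ℝ φ x‖ ≤ R⁻¹
  bd2 : ∀ x y, ‖fderiv ℝ φ x - fderiv ℝ φ y‖ ≤ (R ^ 2)⁻¹ * ‖x - y‖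
  supp : ∀ x, R ≤ ‖T.starProjection x - z‖ → φ x = 0

/-- the projection of the point of the graph over `a` to the tangent plane over `a` -/
noncomputable def za (T : Submodule ℝ E) (w : E → E) (a : E) : E :=
  (planeOf T w a).starProjection (a + w a)

/-- the test function `f` of the base `T`, seen from the tangent plane over `a` -/
noncomputable def psi (T : Submodule ℝ E) (w : E → E) (a : E) (f : E → ℝ) (ξ : E) : ℝ :=
  f (a + T.starProjection (ξ - za T w a))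

/-- **[CMP] one cell**: comparison of the curved functional with the flat functional of the tangent
plane over the centre `a` of the cell. -/
def Cmp (E : Type*) [NormedAddCommGroup E] [InnerProductSpace ℝ E] [FiniteDimensional ℝ E]
    [MeasurableSpace E] [BorelSpace E] (m Q : ℕ) : Prop :=
  ∃ C δ : ℝ, 0 < C ∧ 0 < δ ∧ ∀ (T : Submodule ℝ E) (w : E → E) (ε κ h₁ : ℝ) (a : E)
    (R U h : ℝ) (ν : Measure E) (P : E → E →L[ℝ] E) (f : E → ℝ),
    Adm T w ε κ h₁ → a ∈ T → 0 < R → 0 ≤ U → ε ≤ δ → κ * (R + U) ≤ δ →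
    MinimalOver T w (ball a (16 * R)) →
    IntCyl m Q (planeOf T w a) (za T w a) (8 * R) h δ ν P →
    exc (planeOf T w a) ν P (za T w a) (8 * R) ≤ δ * R ^ m →
    (∀ᵐ Y ∂(fmeas T w h₁ ν), κ * (‖T.starProjection Y - a‖ + ‖co T Y‖) ≤ δ ∧ ‖co T Y‖ < h₁) →
    (∀ᵐ Y ∂(fmeas T w h₁ ν), T.starProjection Y ∈ ball a (16 * R) → ‖co T Y‖ ≤ U) →
    Test2 T a R f →
    |FSig m Q T w (fmeas T w h₁ ν) (fP T w h₁ P) f
        - Ffl m Q (planeOf T w a) ν P (psi T w a f)|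
      ≤ C * (κ * (R + U) * excF T w (fmeas T w h₁ ν) (fP T w h₁ P) a (16 * R)
        + κ * R * √(excF T w (fmeas T w h₁ ν) (fP T w h₁ P) a (16 * R) * R ^ m)
        + κ ^ 2 * (R ^ 2 * R ^ m + hgt2 T (fmeas T w h₁ ν) a (16 * R)))

/-- **[AREA] one cell**: the flat functional is bounded by the excess (INT-M (iv)). -/
def AreaFlat (E : Type*) [NormedAddCommGroup E] [InnerProductSpace ℝ E] [FiniteDimensional ℝ E]
    [MeasurableSpace E] [BorelSpace E] (m Q : ℕ) : Prop :=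
  ∃ C δ : ℝ, 0 < C ∧ 0 < δ ∧ ∀ (T : Submodule ℝ E) (z : E) (R h : ℝ) (ν : Measure E)
    (P : E → E →L[ℝ] E) (φ : E → ℝ), IntCyl m Q T z (2 * R) h δ ν P →
    exc T ν P z (2 * R) ≤ δ * R ^ m → BaseTest T z R φ →
    |Ffl m Q T ν P φ| ≤ C * exc T ν P z (2 * R)

/-- **[SUM] cells.**  `σ` is the excess measure on the base. Conclusion: a finite Whitney family of
cells with stopping rule `σ (ball a s) ≤ s^(m+1)/r` for `s ≥ C R a`. -/
def CellSum (E : Type*) [NormedAddCommGroup E] [InnerProductSpace ℝ E] [FiniteDimensional ℝ E]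
    [MeasurableSpace E] [BorelSpace E] (m : ℕ) : Prop :=
  ∃ C : ℝ, 1 ≤ C ∧ ∀ (T : Submodule ℝ E) (z : E) (r d Eb : ℝ) (σ : Measure E)
    [IsFiniteMeasure σ], 1 ≤ m → Module.finrank ℝ T = m → z ∈ T → 0 < r → 0 < Eb → Eb ≤ 1 → d ≤ 1 →
    C * Eb ^ (1 / ((m : ℝ) + 1)) ≤ d → σ.real (ball z ((1 + d) * r)) ≤ Eb * r ^ m →
    ∃ (N : Finset E) (R : E → ℝ) (χ : E → E → ℝ),
      (∀ a ∈ N, a ∈ T ∧ ‖a - z‖ ≤ r) ∧
      (∀ a ∈ N, Eb ^ 2 * r ≤ R a ∧ 16 * R a ≤ C * Eb ^ (1 / ((m : ℝ) + 1)) * r) ∧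
      (∀ a ∈ N, ∀ s, C * R a ≤ s → ‖a - z‖ + s ≤ (1 + d) * r →
        σ.real (ball a s) ≤ s ^ m * (s / r)) ∧
      (∀ a ∈ N, ContDiff ℝ 2 (χ a)) ∧
      (∀ a ∈ N, ∀ x, χ a (T.starProjection x) = χ a x) ∧
      (∀ a ∈ N, ∀ x, 0 ≤ χ a x ∧ χ a x ≤ 1) ∧
      (∀ a ∈ N, ∀ x, R a ≤ ‖T.starProjection x - a‖ → χ a x = 0) ∧
      (∀ a ∈ N, ∀ x, ‖fderiv ℝ (χ a) x‖ ≤ C / R a) ∧
      (∀ a ∈ N, ∀ x, ‖fderiv ℝ (fderiv ℝ (χ a)) x‖ ≤ C / R a ^ 2) ∧
      (∀ x, ‖T.starProjection x - z‖ ≤ r → ∑ a ∈ N, χ a x = 1) ∧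
      (∀ μ : Measure E, IsFiniteMeasure μ → ∀ g : E → ℝ, Integrable g μ → (∀ y, 0 ≤ g y) →
        ∑ a ∈ N, ∫ y in cylSet T a (16 * R a), g y ∂μ
          ≤ C * ∫ y in cylSet T z ((1 + d) * r), g y ∂μ) ∧
      ∑ a ∈ N, R a ^ m * (R a / r) ≤ C * Eb * r ^ m

/-- the configuration at scale `r`: coarse information only -/
structure Conf (m Q : ℕ) (T : Submodule ℝ E) (w : E → E) (ε κ h₁ : ℝ) (z : E) (r h δ : ℝ)
    (ν : Measure E) (P : E → E →L[ℝ] E) : Prop where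
  adm : Adm T w ε κ h₁
  pos : 0 < r
  cyl : IntCyl m Q T z (4 * r) h δ ν P
  exc : exc T ν P z (4 * r) ≤ δ * r ^ m
  slope : ε ≤ δ
  curv : κ * r ≤ δ
  slab : ∀ᵐ y ∂ν, T.starProjection y ∈ ball z (4 * r) → ‖co T y - w y‖ ≤ δ * r

/-- the adapted ball of the base: extrinsic distance on the graph of `w` -/
def adB (T : Submodule ℝ E) (w : E → E) (z : E) (R : ℝ) : Set E := {Y | ‖XX T w z Y‖ < R}

/-- the fine information over the adapted ball of radius `(1 + d) r` -/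
structure Fine (m : ℕ) (T : Submodule ℝ E) (w : E → E) (h₁ : ℝ) (z : E) (r d Eb : ℝ)
    (ν : Measure E) (P : E → E →L[ℝ] E) : Prop where
  pos : 0 < Eb
  le : d ≤ 1
  min : MinimalOver T w (ball z ((1 + d) * r))
  exc : ∫ Y in adB T w z ((1 + d) * r), eS T w Y (fP T w h₁ P Y) ∂(fmeas T w h₁ ν) ≤ Eb * r ^ m
  sup : ∀ᵐ Y ∂(fmeas T w h₁ ν), Y ∈ adB T w z ((1 + d) * r) → ‖co T Y‖ ^ 2 ≤ Eb * r ^ 2
  rad : √Eb * r < h₁

/-- test functions of the curved lemmas: `C^{1,1}`, nonnegative, supported in the adapted ball -/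
structure Test3 (T : Submodule ℝ E) (w : E → E) (z : E) (r : ℝ) (φ : E → ℝ) : Prop where
  test : Test2 T z r φ
  nonneg : ∀ x, 0 ≤ φ x
  supp : ∀ x, r ≤ ‖XX T w z x‖ → φ x = 0

/-- **The curved rate lemma.** -/
def RateCurved (E : Type*) [NormedAddCommGroup E] [InnerProductSpace ℝ E] [FiniteDimensional ℝ E]
    [MeasurableSpace E] [BorelSpace E] (m Q : ℕ) : Prop :=
  ∀ A : ℝ, 0 < A → ∃ C c δ : ℝ, 0 < C ∧ 0 < c ∧ 0 < δ ∧ ∀ (T : Submodule ℝ E) (w : E → E)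
    (ε κ h₁ : ℝ) (z : E) (r h d Eb : ℝ) (ν : Measure E) (P : E → E →L[ℝ] E) (φ : E → ℝ),
    Conf m Q T w ε κ h₁ z r h δ ν P → Fine m T w h₁ z r d Eb ν P → Eb ≤ δ → Eb ^ c ≤ d →
    Test3 T w z r φ →
    FSig m Q T w (fmeas T w h₁ ν) (fP T w h₁ P) φ ≤
      C * (Real.log Eb⁻¹) ^ (-A) * Eb * r ^ m
      + C * κ ^ 2 * ∫ Y, φ (T.starProjection Y) * ‖co T Y‖ ^ 2 ∂(fmeas T w h₁ ν)

/-- **The curved area lemma** (two-sided, no rate). -/
def AreaCurved (E : Type*) [NormedAddCommGroup E] [InnerProductSpace ℝ E] [FiniteDimensional ℝ E]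
    [MeasurableSpace E] [BorelSpace E] (m Q : ℕ) : Prop :=
  ∃ C c δ : ℝ, 0 < C ∧ 0 < c ∧ 0 < δ ∧ ∀ (T : Submodule ℝ E) (w : E → E)
    (ε κ h₁ : ℝ) (z : E) (r h d Eb : ℝ) (ν : Measure E) (P : E → E →L[ℝ] E) (φ : E → ℝ),
    Conf m Q T w ε κ h₁ z r h δ ν P → Fine m T w h₁ z r d Eb ν P → Eb ≤ δ → Eb ^ c ≤ d →
    Test3 T w z r φ →
    |FSig m Q T w (fmeas T w h₁ ν) (fP T w h₁ P) φ| ≤ C * Eb * r ^ m
      + C * κ ^ 2 * ∫ Y, φ (T.starProjection Y) * ‖co T Y‖ ^ 2 ∂(fmeas T w h₁ ν)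

end Vale.Agent.P214.LOCF
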