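import Vale.Agent.P214.LOCF.AsmC

/-!
# P214, block LOCF/Asm: summation over the cells

`asm`: the Prop `Asm E m Q` from `Cmp E m Q`, `CellInt E m Q` and the Whitney cells `cells`.
-/

open Set Filter Topology MeasureTheory Metric
open scoped RealInnerProductSpace ContDiff

set_option linter.all false

namespace Vale.Agent.P214.LOCF

open FV FM Skel ODE

variable {E : Type*} [NormedAddCommGroup E] [InnerProductSpace ℝ E] [FiniteDimensional ℝ E]
  [MeasurableSpace E] [BorelSpace E]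

section

variable {m Q : ℕ} {T : Submodule ℝ E} {w : E → E} {ε κ h₁ : ℝ} {z : E} {r d Eb h δ : ℝ}
  {μ : Measure E} {P : E → E →L[ℝ] E}

lemma fmeas_univ (H : Dat m Q T w ε κ h₁ z r d Eb h δ μ P) :
    (fmeas T w h₁ μ).real univ = μ.real univ := by
  unfold fmeas Measure.real
  rw [Measure.map_apply H.adm.aem MeasurableSet.univ, preimage_univ]

lemma integrable_co (H : Dat m Q T w ε κ h₁ z r d Eb h δ μ P) :
    Integrable (fun Y => ‖co T Y‖ ^ 2) (fmeas T w h₁ μ) ∧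
      ∫ Y, ‖co T Y‖ ^ 2 ∂(fmeas T w h₁ μ) ≤ Eb * r ^ 2 * (4 ^ m * (Q * om m + 1) * r ^ m) := by
  haveI := isFiniteMeasure_fmeas (T := T) (w := w) (h₁ := h₁) H.cyl.fin
  have hr := H.pos
  have hb : ∀ᵐ Y ∂(fmeas T w h₁ μ), ‖co T Y‖ ^ 2 ≤ Eb * r ^ 2 := by
    filter_upwards [H.all] with Y hY
    calc ‖co T Y‖ ^ 2 ≤ (√Eb * r) ^ 2 := by gcongr; exact hY.2.1
      _ = Eb * r ^ 2 := by rw [mul_pow, Real.sq_sqrt H.epos.le]
  have hc : Continuous fun Y : E => ‖co T Y‖ ^ 2 := (co T).continuous.norm.pow 2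
  have hi : Integrable (fun Y => ‖co T Y‖ ^ 2) (fmeas T w h₁ μ) := by
    refine Integrable.mono' (integrable_const (Eb * r ^ 2)) hc.aestronglyMeasurable ?_
    filter_upwards [hb] with Y hY
    rw [Real.norm_of_nonneg (by positivity)]
    exact hY
  refine ⟨hi, ?_⟩
  calc ∫ Y, ‖co T Y‖ ^ 2 ∂(fmeas T w h₁ μ) ≤ ∫ Y, Eb * r ^ 2 ∂(fmeas T w h₁ μ) :=
        integral_mono_ae hi (integrable_const _) hb
    _ = Eb * r ^ 2 * μ.real univ := by
        rw [integral_const, smul_eq_mul, fmeas_univ H]; ring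
    _ ≤ _ := by
        have := H.epos
        gcongr
        exact H.mass

/-- the height terms of the cells -/
lemma hgt_sum {C b : ℝ} (hC : 0 ≤ C) (hb : 0 ≤ b) (H : Dat m Q T w ε κ h₁ z r d Eb h δ μ P)
    {φ : E → ℝ} (hφ : Test2 T z r φ) (h0 : ∀ x, 0 ≤ φ x) (N : Finset E) (R : E → ℝ)
    (hN : ∀ a ∈ N, a ∈ T) (hR0 : ∀ a, 0 < R a) (hRb : ∀ a, R a / r ≤ b)
    (hov : ∀ g : E → ℝ, Integrable g (fmeas T w h₁ μ) → (∀ y, 0 ≤ g y) →
      ∑ a ∈ N, ∫ y in cylSet T a (16 * R a), g y ∂(fmeas T w h₁ μ)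
        ≤ C * ∫ y, g y ∂(fmeas T w h₁ μ)) :
    ∑ a ∈ N, (φ a + R a / r) * hgt2 T (fmeas T w h₁ μ) a (16 * R a) ≤
      C * (∫ Y, φ (T.starProjection Y) * ‖co T Y‖ ^ 2 ∂(fmeas T w h₁ μ)
        + 17 * b * (Eb * r ^ 2 * (4 ^ m * (Q * om m + 1) * r ^ m))) := by
  haveI := isFiniteMeasure_fmeas (T := T) (w := w) (h₁ := h₁) H.cyl.fin
  obtain ⟨hi, hI⟩ := integrable_co H
  have hr := H.pos
  have hi2 : Integrable (fun Y => φ (T.starProjection Y) * ‖co T Y‖ ^ 2) (fmeas T w h₁ μ) := by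
    refine Integrable.bdd_mul (c := 1) hi
      (hφ.smooth.continuous.comp T.starProjection.continuous).aestronglyMeasurable
      (Eventually.of_forall fun Y => ?_)
    rw [Real.norm_eq_abs]
    exact hφ.bd0 _
  set g : E → ℝ := fun Y => φ (T.starProjection Y) * ‖co T Y‖ ^ 2 + 17 * b * ‖co T Y‖ ^ 2 with hg
  have hgi : Integrable g (fmeas T w h₁ μ) := hi2.add (hi.const_mul _)
  have hg0 : ∀ Y, 0 ≤ g Y := fun Y => by
    have := h0 (T.starProjection Y)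
    simp only [hg]
    positivity
  have h1 : ∀ a ∈ N, (φ a + R a / r) * hgt2 T (fmeas T w h₁ μ) a (16 * R a)
      ≤ ∫ Y in cylSet T a (16 * R a), g Y ∂(fmeas T w h₁ μ) := by
    intro a ha
    unfold hgt2
    rw [← integral_const_mul]
    refine setIntegral_mono_on (hi.const_mul _).integrableOn hgi.integrableOn (cylSet_meas T a _)
      fun Y hY => ?_
    have hY' : ‖T.starProjection Y - a‖ < 16 * R a := by
      have : T.starProjection Y ∈ ball a (16 * R a) := hY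
      rwa [mem_ball, dist_eq_norm] at this
    have h2 := hφ.ge_near (hN a ha) Y
    have h3 : r⁻¹ * ‖T.starProjection Y - a‖ ≤ 16 * (R a / r) := by
      calc r⁻¹ * ‖T.starProjection Y - a‖ ≤ r⁻¹ * (16 * R a) := by gcongr
        _ = _ := by ring
    have h4 : φ a + R a / r ≤ φ (T.starProjection Y) + 17 * b := by
      rw [hφ.base]
      have := hRb a
      linarith
    calc (φ a + R a / r) * ‖co T Y‖ ^ 2 ≤ (φ (T.starProjection Y) + 17 * b) * ‖co T Y‖ ^ 2 := by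
          gcongr
      _ = g Y := by simp only [hg]; ring
  calc _ ≤ ∑ a ∈ N, ∫ Y in cylSet T a (16 * R a), g Y ∂(fmeas T w h₁ μ) := Finset.sum_le_sum h1
    _ ≤ C * ∫ Y, g Y ∂(fmeas T w h₁ μ) := hov g hgi hg0
    _ ≤ _ := by
        simp only [hg]
        rw [integral_add hi2 (hi.const_mul _), integral_const_mul]
        gcongr

end

/-- the final numbers -/
lemma asm_num {S K L₀ L Km β θ κ r rm Eb sX sV sH I : ℝ} (hL₀ : 1 ≤ L₀) (hL : 1 ≤ L)
    (hK : 0 ≤ K) (hKm : 0 ≤ Km) (hβ : 0 ≤ β) (hθ : 0 ≤ θ) (hθ1 : θ ≤ 1) (hκ : 0 ≤ κ) (hr : 0 < r)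
    (hκr : κ * r ≤ 1) (hrm : 0 ≤ rm) (hE : 0 ≤ Eb) (hI : 0 ≤ I)
    (hS : S ≤ 8 * L₀ * K * ((β + θ) * (sX + sV)) + 4 * L₀ * K * (κ ^ 2 * sH))
    (hX : sX ≤ L₀ * (Eb * rm)) (hV : sV ≤ L₀ * Eb * rm)
    (hH : sH ≤ L₀ * (I + 17 * (L * θ ^ 2) * (Eb * r ^ 2 * (Km * rm)))) :
    S ≤ (16 * L₀ ^ 2 * K + 68 * L₀ ^ 2 * K * L * Km + 4 * L₀ ^ 2 * K) * (β + θ) * Eb * rm
      + (16 * L₀ ^ 2 * K + 68 * L₀ ^ 2 * K * L * Km + 4 * L₀ ^ 2 * K) * κ ^ 2 * I := by
  have h1 : 8 * L₀ * K * ((β + θ) * (sX + sV)) ≤ 16 * L₀ ^ 2 * K * (β + θ) * Eb * rm := by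
    calc 8 * L₀ * K * ((β + θ) * (sX + sV))
        ≤ 8 * L₀ * K * ((β + θ) * (L₀ * (Eb * rm) + L₀ * Eb * rm)) := by gcongr
      _ = _ := by ring
  have h2 : (κ * r) ^ 2 ≤ 1 := pow_le_one₀ (by positivity) hκr
  have h3 : θ ^ 2 ≤ θ := by nlinarith
  have h4 : 4 * L₀ * K * (κ ^ 2 * sH) ≤ 4 * L₀ ^ 2 * K * κ ^ 2 * I
      + 68 * L₀ ^ 2 * K * L * Km * θ * Eb * rm := by
    calc 4 * L₀ * K * (κ ^ 2 * sH)
        ≤ 4 * L₀ * K * (κ ^ 2 * (L₀ * (I + 17 * (L * θ ^ 2) * (Eb * r ^ 2 * (Km * rm))))) := by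
          gcongr
      _ = 4 * L₀ ^ 2 * K * κ ^ 2 * I
          + 68 * L₀ ^ 2 * K * L * Km * θ ^ 2 * Eb * rm * (κ * r) ^ 2 := by ring
      _ ≤ 4 * L₀ ^ 2 * K * κ ^ 2 * I
          + 68 * L₀ ^ 2 * K * L * Km * θ * Eb * rm * 1 := by gcongr
      _ = _ := by ring
  have h5 : 0 ≤ (68 * L₀ ^ 2 * K * L * Km) * (β * Eb * rm) := by positivity
  have h6 : 0 ≤ (4 * L₀ ^ 2 * K) * ((β + θ) * Eb * rm) := by positivity
  have h7 : 0 ≤ (16 * L₀ ^ 2 * K + 68 * L₀ ^ 2 * K * L * Km) * (κ ^ 2 * I) := by positivity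
  nlinarith

/-- **[D]** summation over the cells -/
theorem asm {m Q : ℕ} (hCmp : Cmp E m Q) (hCI : CellInt E m Q) : Asm E m Q := by
  intro η hη
  obtain ⟨L₀, hL₀1, hcells⟩ := cells E m
  obtain ⟨K, c, δ₀, hK, hc, hcm, hδ₀, hδ₀1, hEL, HCE⟩ :=
    cell_est hCmp hCI hη (L := L₀ + 16) (by linarith)
  set L : ℝ := L₀ + 16 with hL
  have hom : 0 ≤ Skel.om m := by unfold Skel.om; positivity
  set Km : ℝ := 4 ^ m * (Q * Skel.om m + 1) with hKm
  have hKm0 : 0 ≤ Km := by positivity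
  refine ⟨16 * L₀ ^ 2 * K + 68 * L₀ ^ 2 * K * L * Km + 4 * L₀ ^ 2 * K, c, δ₀, by positivity, hc,
    hδ₀, ?_⟩
  intro T w ε κ h₁ z r d Eb h δ μ P φ hδ hEb hEd H hφ s β hs hβ hflat
  have hE0 := H.epos
  have hr := H.pos
  have hw := H.adm.ref
  have hfin := H.cyl.fin
  have hEb1 : Eb ≤ 1 := hEb.trans hδ₀1
  have hΘL := hEL Eb hE0 hEb
  have hθ0 : 0 < Eb ^ c := Real.rpow_pos_of_pos hE0 _
  have hθ1 : Eb ^ c ≤ 1 := Real.rpow_le_one hE0.le hEb1 hc.le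
  have hb : Eb ^ (1 / ((m : ℝ) + 1)) ≤ (Eb ^ c) ^ 2 := by
    rw [← Real.rpow_natCast, ← Real.rpow_mul hE0.le]
    refine Real.rpow_le_rpow_of_exponent_ge hE0 hEb1 ?_
    push_cast
    calc c * 2 ≤ 1 / (2 * ((m : ℝ) + 1)) * 2 := by gcongr
      _ = _ := by field_simp
  have hgi := integrable_eSF (m := m) H.adm hfin H.cyl.meas H.cyl.proj
  have hgb := eS_bounds (m := m) (ν := μ) (P := P) H.adm H.cyl.proj
  have hg0 : ∀ᵐ Y ∂(fmeas T w h₁ μ), 0 ≤ eS T w Y (fP T w h₁ P Y) := by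
    filter_upwards [hgb] with Y hY using hY.1
  haveI := isFiniteMeasure_fmeas (T := T) (w := w) (h₁ := h₁) hfin
  haveI := isFiniteMeasure_bsig T hgi
  obtain ⟨N, R, χ, hNA, hRfl, hR16, -, -, hstop, hχ2, hχb, hχ01, hχs, hχ1, hχd2, -, hsum1, hov,
    hRsum⟩ := hcells T z r Eb {a | a ∈ T ∧ ‖XX T w z a‖ ≤ r} (adB T w z ((1 + d) * r))
      (bsig T (fmeas T w h₁ μ) fun Y => eS T w Y (fP T w h₁ P Y)) H.cyl.dimT hr hE0 hEb1
      (fun a ha => ha.1)
      (fun a ha => by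
        have h1 := norm_sub_le_XX hw H.mem a
        rw [star_mem_eq ha.1] at h1
        exact h1.trans ha.2)
      (by
        rw [bsig_real T hgi hg0 (measurableSet_adB hw z _)]
        exact (setIntegral_le_integral hgi hg0).trans H.exc)
  have hR0 : ∀ a, 0 < R a := fun a => lt_of_lt_of_le (by positivity) (hRfl a)
  have hRL : ∀ a, 16 * (R a / r) ≤ L * (Eb ^ c) ^ 2 := by
    intro a
    have h1 : 16 * R a ≤ L * (Eb ^ c) ^ 2 * r := by
      refine (hR16 a).trans ?_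
      have : L₀ ≤ L := by linarith
      gcongr
    rw [← mul_div_assoc, div_le_iff₀ hr]
    exact h1
  have hLθ : L * (Eb ^ c) ^ 2 ≤ 16 := by
    have h1 : (16:ℝ) ≤ L := by linarith
    have h2 : 0 < L * Eb ^ c := by positivity
    calc L * (Eb ^ c) ^ 2 = (L * Eb ^ c) * Eb ^ c := by ring
      _ ≤ (L * Eb ^ c) * 1 := by gcongr
      _ ≤ L ^ 2 * Eb ^ c := by nlinarith
      _ ≤ 16 := by linarith
  have hRr : ∀ a, R a ≤ r := by
    intro a
    have h1 := (hRL a).trans hLθ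
    have h2 : R a / r ≤ 1 := by linarith
    rwa [div_le_one hr] at h2
  have hcut : ∀ a ∈ N, Cut T a (R a) L₀ (χ a) := fun a ha =>
    ⟨hχ2 a ha, hχb a ha, fun x => (hχ01 a ha x).1, fun x => (hχ01 a ha x).2, hχs a ha, hχ1 a ha,
      hχd2 a ha⟩
  have hNT : ∀ a ∈ N, a ∈ T := fun a ha => (hNA a ha).1
  set ca : E → ℝ := fun a => 4 * L₀ * (φ a + R a / r) with hca
  have hca0 : ∀ a, 0 < ca a := by
    intro a
    have h1 := hφ.nonneg a
    have h2 : 0 < R a / r := div_pos (hR0 a) hr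
    simp only [hca]
    positivity
  set f : E → E → ℝ := fun a x => (ca a)⁻¹ * (φ x * χ a x) with hf
  have hf2 : ∀ a ∈ N, Test2 T a (R a) (f a) := fun a ha =>
    hφ.test.cell hφ.nonneg (hcut a ha) (hNT a ha) (hR0 a) (hRr a) hL₀1
  have hf0 : ∀ a ∈ N, ∀ x, 0 ≤ f a x := fun a ha x =>
    mul_nonneg (inv_pos.2 (hca0 a)).le (mul_nonneg (hφ.nonneg x) (hχ01 a ha x).1)
  have hsumφ : ∀ x, φ x = ∑ a ∈ N, ca a * f a x := by
    intro x
    have h1 : ∀ a ∈ N, ca a * f a x = φ x * χ a x := by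
      intro a ha
      simp only [hf]
      rw [mul_inv_cancel_left₀ (hca0 a).ne']
    rw [Finset.sum_congr rfl h1, ← Finset.mul_sum]
    by_cases hx : ‖XX T w z (T.starProjection x)‖ ≤ r
    · rw [hsum1 x ⟨T.starProjection_apply_mem x, hx⟩, mul_one]
    · rw [not_le] at hx
      have h2 : φ x = 0 := by
        rw [← hφ.test.base x]
        exact hφ.supp _ hx.le
      rw [h2, zero_mul]
  have hlin := FSig_sum H.adm hfin H.cyl.meas H.cyl.proj H.cyl.dimT Q N ca hf2 hsumφ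
  -- the estimate of one cell
  set Xa : E → ℝ := fun a => excF T w (fmeas T w h₁ μ) (fP T w h₁ P) a (16 * R a) with hXa
  set Ha : E → ℝ := fun a => hgt2 T (fmeas T w h₁ μ) a (16 * R a) with hHa
  have hcell : ∀ a ∈ N, s * FSig m Q T w (fmeas T w h₁ μ) (fP T w h₁ P) (f a) ≤
      K * ((β + Eb ^ c) * (Xa a + R a ^ m * (R a / r)) + κ ^ 2 * Ha a) := by
    intro a ha
    refine HCE T w ε κ h₁ z r d Eb h δ μ P hδ hEb hEd H s β hs hβ hflat a (R a) (f a) (hNT a ha)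
      (hNA a ha).2 (hR0 a) ?_ ?_ (hf2 a ha) (hf0 a ha)
    · refine (hR16 a).trans ?_
      have : L₀ ≤ L := by linarith
      have h1 : 0 ≤ Eb ^ (1 / ((m : ℝ) + 1)) := Real.rpow_nonneg hE0.le _
      gcongr
    · intro s' hs' hsub
      have h1 : L₀ * R a ≤ s' := by
        refine le_trans ?_ hs'
        have : L₀ ≤ L := by linarith
        have := hR0 a
        gcongr
      have h2 := hstop a (hNT a ha) s' h1 hsub
      rw [bsig_real T hgi hg0 measurableSet_ball] at h2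
      exact h2
  have hX0 : ∀ a, 0 ≤ Xa a := fun a => excF_nonneg (ν := μ) (P := P) H.adm H.cyl.proj a _
  have hH0 : ∀ a, 0 ≤ Ha a := fun a => hgt2_nonneg _ _ _ _
  have hterm : ∀ a ∈ N, ca a * (s * FSig m Q T w (fmeas T w h₁ μ) (fP T w h₁ P) (f a)) ≤
      8 * L₀ * K * ((β + Eb ^ c) * (Xa a + R a ^ m * (R a / r)))
        + 4 * L₀ * K * (κ ^ 2 * ((φ a + R a / r) * Ha a)) := by
    intro a ha
    have h1 := mul_le_mul_of_nonneg_left (hcell a ha) (hca0 a).le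
    refine h1.trans ?_
    have h2 : φ a + R a / r ≤ 2 := by
      have h3 := hφ.test.le_one a
      have h4 : R a / r ≤ 1 := (div_le_one hr).2 (hRr a)
      linarith
    have h5 : 0 ≤ (β + Eb ^ c) * (Xa a + R a ^ m * (R a / r)) := by
      have := hX0 a
      have := (hR0 a).le
      positivity
    have e : ca a * (K * ((β + Eb ^ c) * (Xa a + R a ^ m * (R a / r)) + κ ^ 2 * Ha a))
        = 4 * L₀ * K * (φ a + R a / r) * ((β + Eb ^ c) * (Xa a + R a ^ m * (R a / r)))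
          + 4 * L₀ * K * (κ ^ 2 * ((φ a + R a / r) * Ha a)) := by
      simp only [hca]; ring
    rw [e]
    gcongr ?_ + _
    calc _ ≤ 4 * L₀ * K * 2 * ((β + Eb ^ c) * (Xa a + R a ^ m * (R a / r))) := by gcongr
      _ = _ := by ring
  have hsum : s * FSig m Q T w (fmeas T w h₁ μ) (fP T w h₁ P) φ ≤
      8 * L₀ * K * ((β + Eb ^ c) * (∑ a ∈ N, Xa a + ∑ a ∈ N, R a ^ m * (R a / r)))
        + 4 * L₀ * K * (κ ^ 2 * ∑ a ∈ N, (φ a + R a / r) * Ha a) := by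
    rw [hlin, Finset.mul_sum]
    calc ∑ a ∈ N, s * (ca a * FSig m Q T w (fmeas T w h₁ μ) (fP T w h₁ P) (f a))
        = ∑ a ∈ N, ca a * (s * FSig m Q T w (fmeas T w h₁ μ) (fP T w h₁ P) (f a)) :=
          Finset.sum_congr rfl fun a _ => by ring
      _ ≤ ∑ a ∈ N, (8 * L₀ * K * ((β + Eb ^ c) * (Xa a + R a ^ m * (R a / r)))
        + 4 * L₀ * K * (κ ^ 2 * ((φ a + R a / r) * Ha a))) := Finset.sum_le_sum hterm
      _ = _ := by
          rw [Finset.sum_add_distrib, ← Finset.mul_sum, ← Finset.mul_sum, ← Finset.mul_sum,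
            ← Finset.mul_sum, Finset.sum_add_distrib]
  have hov' : ∀ g : E → ℝ, Integrable g (fmeas T w h₁ μ) → (∀ y, 0 ≤ g y) →
      ∑ a ∈ N, ∫ y in cylSet T a (16 * R a), g y ∂(fmeas T w h₁ μ)
        ≤ L₀ * ∫ y, g y ∂(fmeas T w h₁ μ) := by
    intro g hg hg0
    have := hov (fmeas T w h₁ μ) g hg hg0 univ MeasurableSet.univ (fun a _ => subset_univ _)
    rwa [Measure.restrict_univ] at this
  have hXsum : ∑ a ∈ N, Xa a ≤ L₀ * (Eb * r ^ m) := by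
    have h1 := hov' (fun Y => |eS T w Y (fP T w h₁ P Y)|) hgi.abs (fun y => abs_nonneg _)
    have h2 : ∫ y, |eS T w y (fP T w h₁ P y)| ∂(fmeas T w h₁ μ) ≤ Eb * r ^ m := by
      refine (le_of_eq (integral_congr_ae ?_)).trans H.exc
      filter_upwards [hg0] with Y hY
      exact abs_of_nonneg hY
    have h3 : ∀ a ∈ N, Xa a ≤ ∫ y in cylSet T a (16 * R a), |eS T w y (fP T w h₁ P y)|
        ∂(fmeas T w h₁ μ) := fun a _ =>
      integral_mono hgi.integrableOn hgi.abs.integrableOn fun y => le_abs_self _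
    exact ((Finset.sum_le_sum h3).trans h1).trans (by gcongr)
  have hHsum := hgt_sum (b := L * (Eb ^ c) ^ 2) (by linarith : (0:ℝ) ≤ L₀) (by positivity) H
    hφ.test hφ.nonneg N R hNT hR0 (fun a => by
      have h1 := hRL a
      have h2 : 0 < R a / r := div_pos (hR0 a) hr
      linarith) hov'
  have hI : 0 ≤ ∫ Y, φ (T.starProjection Y) * ‖co T Y‖ ^ 2 ∂(fmeas T w h₁ μ) :=
    integral_nonneg fun Y => mul_nonneg (hφ.nonneg _) (by positivity)
  exact asm_num hL₀1 (by linarith) hK.le hKm0 hβ hθ0.le hθ1 hw.knn hr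
    (H.curv.trans (hδ.trans hδ₀1)) (by positivity) hE0.le hI hsum hXsum hRsum hHsum

end Vale.Agent.P214.LOCF
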