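import Vale.Agent.P214.LOCF.Final
import Vale.Agent.P214.LOCF.Asm

/-!
# P214, block LOCF: closure

`rateCurved`: the curved rate lemma from the flat one, `areaCurved`: the curved area lemma.
-/

set_option linter.all false

namespace Vale.Agent.P214.LOCF

open Skel

variable (E : Type*) [NormedAddCommGroup E] [InnerProductSpace ℝ E] [FiniteDimensional ℝ E]
  [MeasurableSpace E] [BorelSpace E]

theorem asm_all (m Q : ℕ) (hm : 1 ≤ m) : Asm E m Q := asm (cmp E m Q hm) (cellInt E m Q hm)

/-- **The curved rate lemma.** -/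
theorem rateCurved {m Q : ℕ} (hm : 1 ≤ m) (hR : RateFlat E m Q) : RateCurved E m Q :=
  rateCurved_of E (asm_all E m Q hm) (datOf E m Q hm) hR

/-- **The curved area lemma.** -/
theorem areaCurved {m Q : ℕ} (hm : 1 ≤ m) : AreaCurved E m Q :=
  areaCurved_of E (asm_all E m Q hm) (datOf E m Q hm) (areaFlat E m Q hm)

end Vale.Agent.P214.LOCF
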