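import Vale.Agent.P214.R2.Iv
import Vale.Agent.P214.LOCF.Props

/-!
# P214, block LOCF: the flat functional is bounded by the excess
-/

open Set Filter Topology MeasureTheory Metric
open scoped RealInnerProductSpace ENNReal

set_option linter.all false

namespace Vale.Agent.P214.LOCF

open Skel

/-- **[AREA] one cell** -/
theorem areaFlat (E : Type*) [NormedAddCommGroup E] [InnerProductSpace ℝ E]
    [FiniteDimensional ℝ E] [MeasurableSpace E] [BorelSpace E] (m Q : ℕ) (hm : 1 ≤ m) :
    AreaFlat E m Q := by
  obtain ⟨δ, C, hδ, hC, H⟩ := R2.ffl_top E m Q hm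
  refine ⟨C, δ, hC, hδ, ?_⟩
  intro T z R h ν P φ hI hexc hφ
  have hR : 0 < R := by have := hI.pos; linarith
  have hm' : Measurable φ := by
    have : Continuous φ := by
      refine LipschitzWith.continuous (K := Real.toNNReal R⁻¹)
        (LipschitzWith.of_dist_le_mul fun x y => ?_)
      rw [Real.dist_eq, dist_eq_norm]
      refine (hφ.lip x y).trans ?_
      gcongr
      exact Real.le_coe_toNNReal _
    exact this.measurable
  have h1 : exc T ν P z (2 * R) ≤ δ * (2 * R) ^ m := by
    refine hexc.trans ?_
    gcongr
    linarith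
  have k := H T z (2 * R) h ν P hI h1 φ 1 hm' (fun y => by
    rw [abs_of_nonneg (hφ.nonneg y)]; exact hφ.le_one y) (fun y hy => hφ.supp y (by linarith))
  rwa [mul_one] at k

end Vale.Agent.P214.LOCF
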