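import Vale.Agent.P214.FM.Field
import Vale.Agent.P214.TCH.Near
import Vale.Agent.P214.LOCF.Props

/-!
# P214, block LOCF: geometry of one cell

Comparison of the Fermi coordinates of the graph of `w` with the affine Fermi coordinates of the
tangent plane over `a`.
-/

open Set Filter Topology MeasureTheory Metric
open scoped RealInnerProductSpace ContDiff

set_option linter.all false

namespace Vale.Agent.P214.LOCF

open FV FM Skel TCH

variable {E : Type*} [NormedAddCommGroup E] [InnerProductSpace ℝ E] [FiniteDimensional ℝ E]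
variable {T : Submodule ℝ E} {w : E → E} {ε κ h₁ : ℝ} {a : E}

lemma star_mem_eq {a : E} (ha : a ∈ T) : T.starProjection a = a :=
  Submodule.starProjection_eq_self_iff.2 ha

/-- first order Taylor expansion of `w` -/
lemma taylor_w (hw : Ref T w ε κ) (a x : E) :
    ‖w x - w a - fderiv ℝ w a (x - a)‖ ≤ κ * ‖x - a‖ ^ 2 := by
  have h1 : ∀ z ∈ segment ℝ a x, ‖fderiv ℝ w z - fderiv ℝ w a‖ ≤ κ * ‖x - a‖ := by
    intro z hz
    have h2 := (convex_univ (𝕜 := ℝ) (E := E)).norm_image_sub_le_of_norm_hasFDerivWithin_le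
      (f := fderiv ℝ w) (f' := D2 w) (C := κ)
      (fun z _ => (hw.diff1 z).hasFDerivAt.hasFDerivWithinAt)
      (fun z _ => hw.norm_D2_le z) (mem_univ a) (mem_univ z)
    refine h2.trans ?_
    have hk := hw.knn
    gcongr
    obtain ⟨t, s, ht, hs, hts, rfl⟩ := hz
    have e : t • a + s • x - a = s • (x - a) := by
      have : t = 1 - s := by linarith
      rw [this]; module
    rw [e, norm_smul, Real.norm_of_nonneg hs]
    have : s ≤ 1 := by linarith
    calc s * ‖x - a‖ ≤ 1 * ‖x - a‖ := by gcongr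
      _ = _ := one_mul _
  have h3 := (convex_segment (𝕜 := ℝ) a x).norm_image_sub_le_of_norm_hasFDerivWithin_le'
    (f := w) (f' := fderiv ℝ w) (φ := fderiv ℝ w a) (C := κ * ‖x - a‖)
    (fun z _ => (hw.diff z).hasFDerivAt.hasFDerivWithinAt) h1 (left_mem_segment ℝ a x)
    (right_mem_segment ℝ a x)
  calc _ ≤ κ * ‖x - a‖ * ‖x - a‖ := h3
    _ = _ := by ring

lemma norm_fderiv_sub_le (hw : Ref T w ε κ) (x a : E) :
    ‖fderiv ℝ w x - fderiv ℝ w a‖ ≤ κ * ‖x - a‖ :=
  (convex_univ (𝕜 := ℝ) (E := E)).norm_image_sub_le_of_norm_hasFDerivWithin_le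
      (f := fderiv ℝ w) (f' := D2 w) (C := κ)
      (fun z _ => (hw.diff1 z).hasFDerivAt.hasFDerivWithinAt)
      (fun z _ => hw.norm_D2_le z) (mem_univ a) (mem_univ x)

/-- **Affine Fermi coordinates.** -/
lemma aff (hw : Ref T w ε κ) (h0 : 0 < h₁) (ha : a ∈ T) {Y : E} (hY : ‖co T Y‖ ≤ h₁) :
    ‖J0 w a (Psi T w h₁ Y - (a + w a)) - (Y - a)‖ ≤
      κ * ‖T.starProjection Y - a‖ * (‖T.starProjection Y - a‖ + ‖co T Y‖) := by
  set x := T.starProjection Y with hx
  have e1 : Psi T w h₁ Y - (a + w a) = D0 w a (Y - a) +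
      ((w x - w a - fderiv ℝ w a (x - a)) - adj (fderiv ℝ w x - fderiv ℝ w a) (co T Y)) := by
    rw [Psi, ret_eq h0 hY, D0_apply]
    have a1 : w x = w Y := hw.base Y
    have a2 : fderiv ℝ w x = fderiv ℝ w Y := hw.fderiv_base Y
    have a3 : fderiv ℝ w a (Y - a) = fderiv ℝ w a (x - a) := by
      have : x - a = T.starProjection (Y - a) := by rw [map_sub, star_mem_eq ha]
      rw [this, hw.fderiv_star]
    have a4 : adj (fderiv ℝ w a) (Y - a) = adj (fderiv ℝ w a) (co T Y) := by
      have : co T Y = co T (Y - a) := by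
        rw [map_sub, co_apply T a, star_mem_eq ha, sub_self, sub_zero]
      rw [this, hw.adj_fderiv_co]
    have a5 : adj (fderiv ℝ w Y - fderiv ℝ w a) (co T Y)
        = adj (fderiv ℝ w Y) (co T Y) - adj (fderiv ℝ w a) (co T Y) := by
      rw [map_sub]; rfl
    rw [a1, a2, a3, a4, a5]
    abel
  rw [e1, map_add, J0_D0, add_sub_cancel_left]
  refine (norm_J0_apply_le w a _).trans ?_
  have hk := hw.knn
  calc _ ≤ ‖w x - w a - fderiv ℝ w a (x - a)‖ + ‖adj (fderiv ℝ w x - fderiv ℝ w a) (co T Y)‖ :=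
        norm_sub_le _ _
    _ ≤ κ * ‖x - a‖ ^ 2 + (κ * ‖x - a‖) * ‖co T Y‖ := by
        gcongr
        · exact taylor_w hw a x
        · refine (norm_adj_apply_le _ _).trans ?_
          gcongr
          exact norm_fderiv_sub_le hw x a
    _ = _ := by ring

lemma norm_D0_star_le (hw : Ref T w ε κ) (a v : E) :
    ‖D0 w a (T.starProjection v)‖ ≤ (1 + ε) * ‖T.starProjection v‖ := by
  rw [D0_apply, hw.adj_fderiv_star, sub_zero]
  calc _ ≤ ‖T.starProjection v‖ + ‖fderiv ℝ w a (T.starProjection v)‖ := norm_add_le _ _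
    _ ≤ ‖T.starProjection v‖ + ε * ‖T.starProjection v‖ := by
        gcongr; exact hw.norm_fderiv_apply_le _ _
    _ = _ := by ring

/-- the distance to the centre in the tangent plane is comparable with the one in the base -/
lemma norm_PS_Psi (hw : Ref T w ε κ) (h0 : 0 < h₁) (ha : a ∈ T) {Y : E} (hY : ‖co T Y‖ ≤ h₁)
    {δ : ℝ} (hδ : κ * (‖T.starProjection Y - a‖ + ‖co T Y‖) ≤ δ) :
    (1 - δ) * ‖T.starProjection Y - a‖ ≤ ‖PS T w a (Psi T w h₁ Y - (a + w a))‖ ∧
      ‖PS T w a (Psi T w h₁ Y - (a + w a))‖ ≤ (1 + ε) * ((1 + δ) * ‖T.starProjection Y - a‖) := by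
  have h1 := aff hw h0 ha hY
  have hε := hw.eps_nonneg
  set x := T.starProjection Y with hx
  set v := J0 w a (Psi T w h₁ Y - (a + w a)) with hv
  have h2 : ‖T.starProjection v - (x - a)‖ ≤ δ * ‖x - a‖ := by
    have e : T.starProjection v - (x - a) = T.starProjection (v - (Y - a)) := by
      rw [map_sub, map_sub, star_mem_eq ha]
    rw [e]
    refine (norm_star_le T _).trans (h1.trans ?_)
    calc κ * ‖x - a‖ * (‖x - a‖ + ‖co T Y‖) = (κ * (‖x - a‖ + ‖co T Y‖)) * ‖x - a‖ := by ring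
      _ ≤ δ * ‖x - a‖ := by gcongr
  have h3 : ‖T.starProjection v‖ ≤ (1 + δ) * ‖x - a‖ := by
    have := norm_sub_norm_le (T.starProjection v) (x - a)
    linarith
  have h4 : (1 - δ) * ‖x - a‖ ≤ ‖T.starProjection v‖ := by
    have := norm_sub_norm_le (x - a) (T.starProjection v)
    rw [norm_sub_rev (x - a) (T.starProjection v)] at this
    linarith
  rw [hw.PS_eq]
  constructor
  · exact h4.trans (norm_le_norm_D0 w a _)
  · refine (norm_D0_star_le hw a _).trans ?_
    gcongr

/-- the normal part relative to the tangent plane over `a` -/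
lemma norm_co_PS_Psi (hw : Ref T w ε κ) (hε1 : ε ≤ 1 / 16) (h0 : 0 < h₁) (ha : a ∈ T) {Y : E}
    (hY : ‖co T Y‖ ≤ h₁) {δ : ℝ} (hδ : κ * (‖T.starProjection Y - a‖ + ‖co T Y‖) ≤ δ) :
    ‖(Psi T w h₁ Y - (a + w a)) - PS T w a (Psi T w h₁ Y - (a + w a))‖ ≤
      2 * (‖co T Y‖ + δ * ‖T.starProjection Y - a‖) := by
  have h1 := aff hw h0 ha hY
  have hε := hw.eps_nonneg
  set x := T.starProjection Y with hx
  set y := Psi T w h₁ Y - (a + w a) with hy
  set v := J0 w a y with hv
  have e1 : y - PS T w a y = D0 w a (co T v) := by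
    have h5 : D0 w a v = y := D0_J0 w a y
    rw [hw.PS_eq, ← hv, co_apply, map_sub (D0 w a), h5]
  have h2 : ‖co T v‖ ≤ ‖co T Y‖ + δ * ‖x - a‖ := by
    have e : co T v = co T Y + co T (v - (Y - a)) := by
      rw [map_sub, map_sub, co_apply T a, star_mem_eq ha, sub_self, sub_zero]
      abel
    rw [e]
    refine (norm_add_le _ _).trans ?_
    gcongr
    refine (norm_co_le T _).trans (h1.trans ?_)
    calc κ * ‖x - a‖ * (‖x - a‖ + ‖co T Y‖) = (κ * (‖x - a‖ + ‖co T Y‖)) * ‖x - a‖ := by ring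
      _ ≤ δ * ‖x - a‖ := by gcongr
  have h3 : ‖D0 w a (co T v)‖ ≤ 2 * ‖co T v‖ := by
    rw [D0_apply]
    calc _ ≤ ‖co T v‖ + ‖fderiv ℝ w a (co T v)‖ + ‖adj (fderiv ℝ w a) (co T v)‖ :=
          (norm_sub_le _ _).trans (by gcongr; exact norm_add_le _ _)
      _ ≤ ‖co T v‖ + 1 / 16 * ‖co T v‖ + 1 / 16 * ‖co T v‖ := by
          gcongr
          · exact (hw.norm_fderiv_apply_le _ _).trans (by gcongr)
          · exact (hw.norm_adj_fderiv_apply_le _ _).trans (by gcongr)
      _ ≤ 2 * ‖co T v‖ := by linarith [norm_nonneg (co T v)]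
  rw [e1]
  exact h3.trans (by gcongr)

/-- tangent planes over two points -/
lemma norm_PS_sub_le (hw : Ref T w ε κ) (x a : E) :
    ‖PS T w x - PS T w a‖ ≤ 4 * κ * ‖x - a‖ := by
  have hk := hw.knn
  refine (convex_univ (𝕜 := ℝ) (E := E)).norm_image_sub_le_of_norm_hasFDerivWithin_le
      (f := PS T w) (f' := fderiv ℝ (PS T w)) (C := 4 * κ)
      (fun z _ => (hw.contDiff_PS.differentiable (by simp) z).hasFDerivAt.hasFDerivWithinAt)
      (fun z _ => ?_) (mem_univ a) (mem_univ x)
  refine ContinuousLinearMap.opNorm_le_bound _ (by positivity) fun v => ?_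
  refine ContinuousLinearMap.opNorm_le_bound _ (by positivity) fun u => ?_
  exact hw.norm_fderiv_PS_le z v u

/-- the tangent planes are close to the base plane -/
lemma norm_PS_sub_star_le (hw : Ref T w ε κ) (a : E) :
    ‖PS T w a - T.starProjection‖ ≤ 4 * ε := by
  have hε := hw.eps_nonneg
  refine ContinuousLinearMap.opNorm_le_bound _ (by positivity) fun v => ?_
  rw [ContinuousLinearMap.sub_apply, hw.PS_eq]
  have hD : ∀ u, ‖D0 w a u - u‖ ≤ 2 * ε * ‖u‖ := by
    intro u
    rw [D0_apply]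
    have e : u + fderiv ℝ w a u - adj (fderiv ℝ w a) u - u
        = fderiv ℝ w a u - adj (fderiv ℝ w a) u := by abel
    rw [e]
    calc _ ≤ ‖fderiv ℝ w a u‖ + ‖adj (fderiv ℝ w a) u‖ := norm_sub_le _ _
      _ ≤ ε * ‖u‖ + ε * ‖u‖ := by
          gcongr
          · exact hw.norm_fderiv_apply_le _ _
          · exact hw.norm_adj_fderiv_apply_le _ _
      _ = _ := by ring
  set v' := J0 w a v with hv'
  have e1 : D0 w a (T.starProjection v') - T.starProjection v
      = (D0 w a (T.starProjection v') - T.starProjection v')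
        - T.starProjection (D0 w a v' - v') := by
    have : D0 w a v' = v := D0_J0 w a v
    rw [this, map_sub]; abel
  have hn : ‖v'‖ ≤ ‖v‖ := norm_J0_apply_le w a v
  rw [e1]
  calc _ ≤ ‖D0 w a (T.starProjection v') - T.starProjection v'‖
        + ‖T.starProjection (D0 w a v' - v')‖ := norm_sub_le _ _
    _ ≤ 2 * ε * ‖v‖ + 2 * ε * ‖v‖ := by
        gcongr
        · exact (hD _).trans (by gcongr; exact (norm_star_le T _).trans hn)
        · exact (norm_star_le T _).trans ((hD _).trans (by gcongr))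
    _ = _ := by ring

variable [MeasurableSpace E] [BorelSpace E]

/-- tilt against the tangent plane over `a` -/
lemma tilt_planeOf_le (hw : Ref T w ε κ) {S : Submodule ℝ E}
    (hS : Module.finrank ℝ S = Module.finrank ℝ T) (a Y : E) :
    FV.tilt (planeOf T w a) S.starProjection ≤ 2 * eS T w Y S.starProjection +
      Module.finrank ℝ E * (4 * κ * ‖a - T.starProjection Y‖) ^ 2 := by
  have h1 : ‖(planeOf T w a).starProjection - (planeOf T w Y).starProjection‖
      ≤ 4 * κ * ‖a - T.starProjection Y‖ := by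
    have := norm_PS_sub_le hw a (T.starProjection Y)
    rwa [hw.PS_base] at this
  exact tilt_change (T := planeOf T w Y) (T₁ := planeOf T w a)
    (hS.trans (hw.finrank_planeOf Y).symm)
    ((hw.finrank_planeOf a).trans (hw.finrank_planeOf Y).symm) h1

/-- tilt against the base plane -/
lemma tilt_base_le (hw : Ref T w ε κ) {S : Submodule ℝ E}
    (hS : Module.finrank ℝ S = Module.finrank ℝ T) (Y : E) :
    FV.tilt T S.starProjection ≤ 2 * eS T w Y S.starProjection +
      Module.finrank ℝ E * (4 * ε) ^ 2 := by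
  have h1 : ‖T.starProjection - (planeOf T w Y).starProjection‖ ≤ 4 * ε := by
    have := norm_PS_sub_star_le hw Y
    rwa [norm_sub_rev] at this
  exact tilt_change (T := planeOf T w Y) (T₁ := T)
    (hS.trans (hw.finrank_planeOf Y).symm) (hw.finrank_planeOf Y).symm h1

end Vale.Agent.P214.LOCF
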