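import Vale.Agent.P214.LOCF.Dat
import Vale.Agent.P214.LOCF.Geo

/-!
# P214, block LOCF/Asm, part A: the test functions of the cells

`Cut`: the cutoff functions of the cells; `Test2.cell`: product of a test function with a cutoff;
`exists_baseTest`: a base test function of the tangent plane with the same flat functional as `psi f`.
-/

open Set Filter Topology MeasureTheory Metric
open scoped RealInnerProductSpace ContDiff

set_option linter.all false

namespace Vale.Agent.P214.LOCF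

open FV FM Skel

variable {E : Type*} [NormedAddCommGroup E] [InnerProductSpace ℝ E] [FiniteDimensional ℝ E]

/-- the cutoff function of a cell -/
structure Cut (T : Submodule ℝ E) (a : E) (ρ C : ℝ) (χ : E → ℝ) : Prop where
  smooth : ContDiff ℝ 2 χ
  base : ∀ x, χ (T.starProjection x) = χ x
  nonneg : ∀ x, 0 ≤ χ x
  le_one : ∀ x, χ x ≤ 1
  supp : ∀ x, ρ ≤ ‖T.starProjection x - a‖ → χ x = 0
  bd1 : ∀ x, ‖fderiv ℝ χ x‖ ≤ C / ρ
  bd2 : ∀ x, ‖fderiv ℝ (fderiv ℝ χ) x‖ ≤ C / ρ ^ 2

section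

variable {T : Submodule ℝ E} {a z : E} {r ρ C R : ℝ} {φ χ f : E → ℝ}

lemma abs_sub_le_of_fderiv {F : Type*} [NormedAddCommGroup F] [NormedSpace ℝ F] {f : E → F} {D : ℝ}
    (hf : ContDiff ℝ 1 f) (hD : ∀ x, ‖fderiv ℝ f x‖ ≤ D) (x y : E) :
    ‖f x - f y‖ ≤ D * ‖x - y‖ :=
  (convex_univ (𝕜 := ℝ) (E := E)).norm_image_sub_le_of_norm_hasFDerivWithin_le
      (f := f) (f' := fderiv ℝ f) (C := D)
      (fun z _ => (hf.differentiable (by norm_num) z).hasFDerivAt.hasFDerivWithinAt)
      (fun z _ => hD z) (mem_univ y) (mem_univ x)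

lemma Test2.lip (hf : Test2 T a R f) (x y : E) : |f x - f y| ≤ R⁻¹ * ‖x - y‖ := by
  rw [← Real.norm_eq_abs]
  exact abs_sub_le_of_fderiv hf.smooth hf.bd1 x y

lemma Test2.le_one (hf : Test2 T a R f) (x : E) : f x ≤ 1 := (le_abs_self _).trans (hf.bd0 x)

/-- near the centre of the cell -/
lemma Test2.le_near (hf : Test2 T z r f) (ha : a ∈ T) (x : E) :
    f x ≤ f a + r⁻¹ * ‖T.starProjection x - a‖ := by
  have h1 := hf.lip (T.starProjection x) a
  rw [hf.base] at h1
  have := (abs_le.1 h1).2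
  linarith

lemma Test2.ge_near (hf : Test2 T z r f) (ha : a ∈ T) (x : E) :
    f a ≤ f x + r⁻¹ * ‖T.starProjection x - a‖ := by
  have h1 := hf.lip (T.starProjection x) a
  rw [hf.base] at h1
  have := (abs_le.1 h1).1
  linarith

lemma Cut.fderiv_zero (hχ : Cut T a ρ C χ) {x : E} (hx : ρ ≤ ‖T.starProjection x - a‖) :
    fderiv ℝ χ x = 0 := by
  refine IsLocalMin.fderiv_eq_zero ?_
  refine Eventually.of_forall fun y => ?_
  rw [hχ.supp x hx]
  exact hχ.nonneg y

/-- **the test function of a cell** -/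
theorem Test2.cell (hφ : Test2 T z r φ) (h0 : ∀ x, 0 ≤ φ x) (hχ : Cut T a ρ C χ) (ha : a ∈ T)
    (hρ : 0 < ρ) (hρr : ρ ≤ r) (hC : 1 ≤ C) :
    Test2 T a ρ (fun x => (4 * C * (φ a + ρ / r))⁻¹ * (φ x * χ x)) := by
  have hr : 0 < r := hρ.trans_le hρr
  set M : ℝ := φ a + ρ / r with hM
  have hρr1 : ρ / r ≤ 1 := by rw [div_le_one hr]; exact hρr
  have hρr0 : 0 < ρ / r := by positivity
  have hMρ : ρ / r ≤ M := by have := h0 a; linarith
  have hM0 : 0 < M := by linarith
  have hC0 : 0 < C := by linarith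
  have hK : 0 < 4 * C * M := by positivity
  have hr1 : r⁻¹ = (ρ / r) / ρ := by field_simp
  have hχ1 : ContDiff ℝ 1 χ := hχ.smooth.of_le (by norm_num)
  have hχd : ContDiff ℝ 1 (fderiv ℝ χ) := hχ.smooth.fderiv_right (by norm_num)
  have hφd : ∀ x, DifferentiableAt ℝ φ x := hφ.smooth.differentiable (by norm_num)
  have hχdd : ∀ x, DifferentiableAt ℝ χ x := hχ1.differentiable (by norm_num)
  -- the size of `φ` on the cell
  have hin : ∀ x, ‖T.starProjection x - a‖ < ρ → φ x ≤ M := by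
    intro x hx
    have h1 := hφ.le_near ha x
    have h2 : r⁻¹ * ‖T.starProjection x - a‖ ≤ ρ / r := by
      rw [div_eq_inv_mul]; gcongr
    linarith
  have hfd : ∀ x, fderiv ℝ (fun x => φ x * χ x) x = φ x • fderiv ℝ χ x + χ x • fderiv ℝ φ x :=
    fun x => fderiv_fun_mul (hφd x) (hχdd x)
  have hχL : ∀ x y, |χ x - χ y| ≤ C / ρ * ‖x - y‖ := by
    intro x y
    rw [← Real.norm_eq_abs]
    exact abs_sub_le_of_fderiv hχ1 hχ.bd1 x y
  have hχL2 : ∀ x y, ‖fderiv ℝ χ x - fderiv ℝ χ y‖ ≤ C / ρ ^ 2 * ‖x - y‖ := fun x y =>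
    abs_sub_le_of_fderiv hχd hχ.bd2 x y
  have hfd' : ∀ x, fderiv ℝ (fun x => (4 * C * M)⁻¹ * (φ x * χ x)) x
      = (4 * C * M)⁻¹ • (φ x • fderiv ℝ χ x + χ x • fderiv ℝ φ x) := by
    intro x
    have h1 : HasFDerivAt (fun x => φ x * χ x) (φ x • fderiv ℝ χ x + χ x • fderiv ℝ φ x) x :=
      (hφd x).hasFDerivAt.mul (hχdd x).hasFDerivAt
    exact (h1.const_mul ((4 * C * M)⁻¹)).fderiv
  -- `φ Dχ` is Lipschitz
  have key : ∀ x y, ‖φ x • fderiv ℝ χ x - φ y • fderiv ℝ χ y‖ ≤ 2 * C * M / ρ ^ 2 * ‖x - y‖ := by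
    have aux : ∀ x y, ‖T.starProjection x - a‖ < ρ →
        ‖φ x • fderiv ℝ χ x - φ y • fderiv ℝ χ y‖ ≤ 2 * C * M / ρ ^ 2 * ‖x - y‖ := by
      intro x y hx
      have e : φ x • fderiv ℝ χ x - φ y • fderiv ℝ χ y
          = φ x • (fderiv ℝ χ x - fderiv ℝ χ y) + (φ x - φ y) • fderiv ℝ χ y := by module
      rw [e]
      calc _ ≤ ‖φ x • (fderiv ℝ χ x - fderiv ℝ χ y)‖ + ‖(φ x - φ y) • fderiv ℝ χ y‖ :=
            norm_add_le _ _
        _ ≤ M * (C / ρ ^ 2 * ‖x - y‖) + (r⁻¹ * ‖x - y‖) * (C / ρ) := by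
            rw [norm_smul, norm_smul, Real.norm_of_nonneg (h0 x), Real.norm_eq_abs]
            gcongr
            · exact hin x hx
            · exact hχL2 x y
            · exact hφ.lip x y
            · exact hχ.bd1 y
        _ = C * M / ρ ^ 2 * ‖x - y‖ + (C * (ρ / r) / ρ ^ 2) * ‖x - y‖ := by
            rw [hr1]; field_simp
        _ ≤ C * M / ρ ^ 2 * ‖x - y‖ + (C * M / ρ ^ 2) * ‖x - y‖ := by gcongr
        _ = _ := by ring
    intro x y
    rcases lt_or_ge ‖T.starProjection x - a‖ ρ with hx | hx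
    · exact aux x y hx
    · rcases lt_or_ge ‖T.starProjection y - a‖ ρ with hy | hy
      · have := aux y x hy
        rwa [norm_sub_rev, norm_sub_rev y x] at this
      · rw [hχ.fderiv_zero hx, hχ.fderiv_zero hy, smul_zero, smul_zero, sub_zero, norm_zero]
        positivity
  refine ⟨?_, ?_, ?_, ?_, ?_, ?_⟩
  · exact contDiff_const.mul (hφ.smooth.mul hχ1)
  · intro x
    simp only [hφ.base, hχ.base]
  · intro x
    rw [abs_mul, abs_of_pos (inv_pos.2 hK), inv_mul_le_iff₀ hK, mul_one, abs_mul,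
      abs_of_nonneg (h0 x), abs_of_nonneg (hχ.nonneg x)]
    rcases lt_or_ge ‖T.starProjection x - a‖ ρ with hx | hx
    · calc φ x * χ x ≤ M * 1 := mul_le_mul (hin x hx) (hχ.le_one x) (hχ.nonneg x) hM0.le
        _ ≤ 4 * C * M := by nlinarith
    · rw [hχ.supp x hx, mul_zero]; exact hK.le
  · intro x
    rw [hfd' x, norm_smul, Real.norm_of_nonneg (inv_pos.2 hK).le, inv_mul_le_iff₀ hK]
    rcases lt_or_ge ‖T.starProjection x - a‖ ρ with hx | hx
    · calc _ ≤ ‖φ x • fderiv ℝ χ x‖ + ‖χ x • fderiv ℝ φ x‖ := norm_add_le _ _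
        _ ≤ M * (C / ρ) + 1 * r⁻¹ := by
            rw [norm_smul, norm_smul, Real.norm_of_nonneg (h0 x),
              Real.norm_of_nonneg (hχ.nonneg x)]
            gcongr
            · exact hin x hx
            · exact hχ.bd1 x
            · exact hχ.le_one x
            · exact hφ.bd1 x
        _ = (M * C + ρ / r) * ρ⁻¹ := by rw [hr1]; field_simp
        _ ≤ 4 * C * M * ρ⁻¹ := by
            gcongr
            nlinarith
    · rw [hχ.supp x hx, hχ.fderiv_zero hx, smul_zero, zero_smul, add_zero, norm_zero]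
      positivity
  · intro x y
    rw [hfd' x, hfd' y, ← smul_sub, norm_smul, Real.norm_of_nonneg (inv_pos.2 hK).le,
      inv_mul_le_iff₀ hK]
    have e : φ x • fderiv ℝ χ x + χ x • fderiv ℝ φ x - (φ y • fderiv ℝ χ y + χ y • fderiv ℝ φ y)
        = (φ x • fderiv ℝ χ x - φ y • fderiv ℝ χ y)
          + ((χ x - χ y) • fderiv ℝ φ x + χ y • (fderiv ℝ φ x - fderiv ℝ φ y)) := by module
    rw [e]
    calc _ ≤ ‖φ x • fderiv ℝ χ x - φ y • fderiv ℝ χ y‖ +
          (‖(χ x - χ y) • fderiv ℝ φ x‖ + ‖χ y • (fderiv ℝ φ x - fderiv ℝ φ y)‖) :=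
          (norm_add_le _ _).trans (by gcongr; exact norm_add_le _ _)
      _ ≤ 2 * C * M / ρ ^ 2 * ‖x - y‖ + ((C / ρ * ‖x - y‖) * r⁻¹
          + 1 * ((r ^ 2)⁻¹ * ‖x - y‖)) := by
          rw [norm_smul, norm_smul, Real.norm_eq_abs, Real.norm_of_nonneg (hχ.nonneg y)]
          gcongr
          · exact key x y
          · exact hχL x y
          · exact hφ.bd1 x
          · exact hχ.le_one y
          · exact hφ.bd2 x y
      _ = (2 * C * M + C * (ρ / r) + (ρ / r) ^ 2) * ((ρ ^ 2)⁻¹ * ‖x - y‖) := by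
          field_simp
          ring
      _ ≤ (4 * C * M) * ((ρ ^ 2)⁻¹ * ‖x - y‖) := by
          gcongr
          have h1 : (ρ / r) ^ 2 ≤ M := by
            calc (ρ / r) ^ 2 = (ρ / r) * (ρ / r) := by ring
              _ ≤ 1 * M := by gcongr
              _ = M := one_mul _
          have h2 : C * (ρ / r) ≤ C * M := by gcongr
          nlinarith
      _ = _ := by ring
  · intro x hx
    show _ * (φ x * χ x) = 0
    rw [hχ.supp x hx, mul_zero, mul_zero]

end

section plane

variable [MeasurableSpace E] [BorelSpace E]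
variable {T : Submodule ℝ E} {w : E → E} {ε κ : ℝ} {a : E} {R : ℝ} {f : E → ℝ}

/-- a base test function of the tangent plane, with the same flat functional as `psi f` -/
theorem exists_baseTest (hw : Ref T w ε κ) (hε : ε ≤ 1 / 16) (ha : a ∈ T) (hR : 0 < R)
    (hf : Test2 T a R f)
    (h0 : ∀ x, 0 ≤ f x) : ∃ g : E → ℝ, BaseTest (planeOf T w a) (za T w a) (4 * R) g ∧
      ∀ (m Q : ℕ) (ν : Measure E) (P : E → E →L[ℝ] E),
        Ffl m Q (planeOf T w a) ν P (psi T w a f) = 8 * Ffl m Q (planeOf T w a) ν P g := by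
  set S := planeOf T w a with hS
  set π : E →L[ℝ] E := S.starProjection with hπ
  have hππ : ∀ x, π (π x) = π x := fun x =>
    Submodule.starProjection_eq_self_iff.2 (S.starProjection_apply_mem x)
  have hza : π (za T w a) = za T w a := by
    unfold za
    exact hππ _
  have hπn : ∀ v, ‖π v‖ ≤ ‖v‖ := fun v => Submodule.norm_starProjection_apply_le S v
  have hpn : ∀ v, ‖T.starProjection v‖ ≤ ‖v‖ := fun v => Submodule.norm_starProjection_apply_le T v
  have hqn : ∀ v, ‖v - π v‖ ≤ ‖v‖ := fun v => norm_co_le S v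
  set u : E → ℝ := psi T w a f with hu
  have huL : ∀ x y, |u x - u y| ≤ R⁻¹ * ‖x - y‖ := by
    intro x y
    have h1 := hf.lip (a + T.starProjection (x - za T w a)) (a + T.starProjection (y - za T w a))
    refine h1.trans ?_
    gcongr
    have e : a + T.starProjection (x - za T w a) - (a + T.starProjection (y - za T w a))
        = T.starProjection (x - y) := by
      rw [map_sub, map_sub, map_sub]; abel
    rw [e]
    exact hpn _
  have hu0 : ∀ x, 0 ≤ u x := fun x => h0 _
  have hu1 : ∀ x, u x ≤ 1 := fun x => hf.le_one _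
  set g : E → ℝ := fun x => max 0 (u (π x) - R⁻¹ * ‖x - π x‖) / 8 with hg
  have hgπ : ∀ x, π x = x → u x = 8 * g x := by
    intro x hx
    simp only [hg, hx, sub_self, norm_zero, mul_zero, sub_zero]
    rw [max_eq_right (hu0 x)]
    ring
  refine ⟨g, ⟨?_, ?_, ?_, ?_⟩, ?_⟩
  · intro x
    have := le_max_left 0 (u (π x) - R⁻¹ * ‖x - π x‖)
    simp only [hg]
    positivity
  · intro x
    have h1 : max 0 (u (π x) - R⁻¹ * ‖x - π x‖) ≤ 1 := by
      refine max_le zero_le_one ?_
      have h2 := hu1 (π x)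
      have h3 : 0 ≤ R⁻¹ * ‖x - π x‖ := by positivity
      linarith
    simp only [hg]
    linarith
  · intro x hx
    simp only [hg]
    rw [max_eq_left, zero_div]
    rcases le_or_gt R ‖x - π x‖ with h1 | h1
    · have h2 : 1 ≤ R⁻¹ * ‖x - π x‖ := by
        rw [inv_mul_eq_div, le_div_iff₀ hR, one_mul]; exact h1
      have h3 := hu1 (π x)
      linarith
    · have h2 : 3 * R ≤ ‖π x - za T w a‖ := by
        have h3 : x - za T w a = (x - π x) + (π x - za T w a) := by abel
        have h4 := norm_add_le (x - π x) (π x - za T w a)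
        rw [← h3] at h4
        linarith
      set v := π x - za T w a with hv
      have hvS : π v = v := by rw [hv, map_sub, hππ, hza]
      have h3 : ‖π v - T.starProjection v‖ ≤ 1 / 4 * ‖v‖ := by
        have h4 := norm_PS_sub_star_le hw a
        have h5 : ‖(PS T w a - T.starProjection) v‖ ≤ 4 * ε * ‖v‖ :=
          ((PS T w a - T.starProjection).le_opNorm v).trans (by gcongr)
        have h6 : (PS T w a - T.starProjection) v = π v - T.starProjection v := rfl
        rw [h6] at h5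
        refine h5.trans ?_
        gcongr
        linarith
      rw [hvS] at h3
      have h4 : 3 / 4 * ‖v‖ ≤ ‖T.starProjection v‖ := by
        have h5 : v = (v - T.starProjection v) + T.starProjection v := by abel
        have h6 := norm_add_le (v - T.starProjection v) (T.starProjection v)
        rw [← h5] at h6
        linarith
      have h5 : u (π x) = 0 := by
        have h6 : u (π x) = f (a + T.starProjection v) := rfl
        have h7 : T.starProjection (a + T.starProjection v) = a + T.starProjection v :=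
          star_mem_eq (T.add_mem ha (T.starProjection_apply_mem v))
        rw [h6]
        refine hf.supp _ ?_
        rw [h7, add_sub_cancel_left]
        linarith
      rw [h5]
      have : 0 ≤ R⁻¹ * ‖x - π x‖ := by positivity
      linarith
  · intro x y
    simp only [hg]
    have h1 : |max 0 (u (π x) - R⁻¹ * ‖x - π x‖) - max 0 (u (π y) - R⁻¹ * ‖y - π y‖)|
        ≤ |(u (π x) - R⁻¹ * ‖x - π x‖) - (u (π y) - R⁻¹ * ‖y - π y‖)| := by
      have := abs_max_sub_max_le_abs (u (π x) - R⁻¹ * ‖x - π x‖) (u (π y) - R⁻¹ * ‖y - π y‖) 0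
      rwa [max_comm _ 0, max_comm _ 0] at this
    have h2 : |(u (π x) - R⁻¹ * ‖x - π x‖) - (u (π y) - R⁻¹ * ‖y - π y‖)|
        ≤ R⁻¹ * ‖x - y‖ + R⁻¹ * ‖x - y‖ := by
      have e : (u (π x) - R⁻¹ * ‖x - π x‖) - (u (π y) - R⁻¹ * ‖y - π y‖)
          = (u (π x) - u (π y)) - R⁻¹ * (‖x - π x‖ - ‖y - π y‖) := by ring
      rw [e]
      refine (abs_sub _ _).trans (add_le_add ?_ ?_)
      · refine (huL _ _).trans ?_
        gcongr
        rw [← map_sub]; exact hπn _
      · rw [abs_mul, abs_of_pos (inv_pos.2 hR)]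
        gcongr
        refine (abs_norm_sub_norm_le _ _).trans ?_
        have e2 : x - π x - (y - π y) = (x - y) - π (x - y) := by rw [map_sub]; abel
        rw [e2]; exact hqn _
    have e3 : max 0 (u (π x) - R⁻¹ * ‖x - π x‖) / 8 - max 0 (u (π y) - R⁻¹ * ‖y - π y‖) / 8
        = (max 0 (u (π x) - R⁻¹ * ‖x - π x‖) - max 0 (u (π y) - R⁻¹ * ‖y - π y‖)) / 8 := by ring
    rw [e3, abs_div, abs_of_pos (by norm_num : (0:ℝ) < 8), mul_inv]
    rw [div_le_iff₀ (by norm_num)]
    refine (h1.trans h2).trans (le_of_eq ?_)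
    ring
  · intro m Q ν P
    have h1 : ∫ y, u (π y) * (1 - tilt S (P y) / 2) ∂ν
        = 8 * ∫ y, g (π y) * (1 - tilt S (P y) / 2) ∂ν := by
      rw [← integral_const_mul]
      refine integral_congr_ae (Eventually.of_forall fun y => ?_)
      show u (π y) * _ = _
      rw [hgπ (π y) (hππ y)]
      ring
    have h2 : ∫ x in (S : Set E), u x ∂μH[m] = 8 * ∫ x in (S : Set E), g x ∂μH[m] := by
      rw [← integral_const_mul]
      refine setIntegral_congr_fun S.closed_of_finiteDimensional.measurableSet fun x hx => ?_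
      exact hgπ x (Submodule.starProjection_eq_self_iff.2 hx)
    unfold Ffl
    rw [h1, h2]
    ring

end plane

end Vale.Agent.P214.LOCF
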