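import Vale.Agent.P214.LOCF.CellGen
import Vale.Agent.P214.LOCF.Props

/-!
# P214, block LOCF: the Whitney cells, `CellSum`

`cells` is the general form (arbitrary set `A` of base points and set `O` of localisation).
-/

open MeasureTheory Set Metric Module Filter
open scoped ENNReal Topology ContDiff

set_option linter.all false

namespace Vale.Agent.P214.LOCF

open Vale.Agent.P214.LOC Skel

section comp

variable {E : Type*} [NormedAddCommGroup E] [InnerProductSpace ℝ E] [FiniteDimensional ℝ E]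

/-- first derivative of a base dependent function -/
lemma norm_fderiv_comp_le {f : E → ℝ} (hf : ContDiff ℝ 2 f) {π : E →L[ℝ] E} (hπ : ‖π‖ ≤ 1)
    (x : E) : ‖fderiv ℝ (fun x => f (π x)) x‖ ≤ ‖fderiv ℝ f (π x)‖ := by
  have hd : Differentiable ℝ f := hf.differentiable (by norm_num)
  have h1 : HasFDerivAt (fun x => f (π x)) ((fderiv ℝ f (π x)).comp π) x :=
    (hd (π x)).hasFDerivAt.comp x π.hasFDerivAt
  rw [h1.fderiv]
  refine (ContinuousLinearMap.opNorm_comp_le _ _).trans ?_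
  exact mul_le_of_le_one_right (norm_nonneg _) hπ

/-- second derivative of a base dependent function -/
lemma norm_fderiv2_comp_le {f : E → ℝ} (hf : ContDiff ℝ 2 f) {π : E →L[ℝ] E} (hπ : ‖π‖ ≤ 1)
    (x : E) : ‖fderiv ℝ (fderiv ℝ (fun x => f (π x))) x‖ ≤ ‖fderiv ℝ (fderiv ℝ f) (π x)‖ := by
  have hd : Differentiable ℝ f := hf.differentiable (by norm_num)
  have hd1 : Differentiable ℝ (fderiv ℝ f) :=
    (hf.fderiv_right (m := 1) (by norm_num)).differentiable (by norm_num)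
  have e1 : fderiv ℝ (fun x => f (π x)) = fun x => (fderiv ℝ f (π x)).comp π := by
    funext x
    exact ((hd (π x)).hasFDerivAt.comp x π.hasFDerivAt).fderiv
  have h2 : HasFDerivAt (fun x => fderiv ℝ f (π x)) ((fderiv ℝ (fderiv ℝ f) (π x)).comp π) x :=
    (hd1 (π x)).hasFDerivAt.comp x π.hasFDerivAt
  have h3 := h2.clm_comp (hasFDerivAt_const π x)
  rw [e1, h3.fderiv]
  refine ContinuousLinearMap.opNorm_le_bound _ (norm_nonneg (fderiv ℝ (fderiv ℝ f) (π x))) fun v => ?_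
  have h4 : ((ContinuousLinearMap.compL ℝ E E ℝ) (fderiv ℝ f (π x))).comp (0 : E →L[ℝ] E →L[ℝ] E) +
      ((ContinuousLinearMap.compL ℝ E E ℝ).flip π).comp ((fderiv ℝ (fderiv ℝ f) (π x)).comp π) =
      ((ContinuousLinearMap.compL ℝ E E ℝ).flip π).comp ((fderiv ℝ (fderiv ℝ f) (π x)).comp π) := by
    simp
  rw [h4]
  have h5 : (((ContinuousLinearMap.compL ℝ E E ℝ).flip π).comp
      ((fderiv ℝ (fderiv ℝ f) (π x)).comp π)) v = ((fderiv ℝ (fderiv ℝ f) (π x)) (π v)).comp π := rfl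
  rw [h5]
  calc ‖((fderiv ℝ (fderiv ℝ f) (π x)) (π v)).comp π‖
      ≤ ‖(fderiv ℝ (fderiv ℝ f) (π x)) (π v)‖ * ‖π‖ := ContinuousLinearMap.opNorm_comp_le _ _
    _ ≤ ‖(fderiv ℝ (fderiv ℝ f) (π x)) (π v)‖ * 1 := by gcongr
    _ ≤ ‖fderiv ℝ (fderiv ℝ f) (π x)‖ * ‖π v‖ := by
        rw [mul_one]; exact ContinuousLinearMap.le_opNorm _ _
    _ ≤ ‖fderiv ℝ (fderiv ℝ f) (π x)‖ * ‖v‖ := by
        gcongr
        exact (π.le_opNorm v).trans (mul_le_of_le_one_left (norm_nonneg _) hπ)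

end comp

section

variable {E : Type*} [NormedAddCommGroup E] [InnerProductSpace ℝ E] [FiniteDimensional ℝ E]
  [MeasurableSpace E] [BorelSpace E]

lemma cylSet_meas (T : Submodule ℝ E) (z : E) (R : ℝ) : MeasurableSet (cylSet T z R) :=
  (isOpen_ball.preimage T.starProjection.continuous).measurableSet

/-- overlap of the enlarged balls: `R` is `1/256`-Lipschitz -/
lemma card_near16 {R : E → ℝ} (hR0 : ∀ x, 0 < R x) (hL : ∀ x y, R x ≤ R y + dist x y / 256)
    (S : Finset E) (hsep : ∀ c ∈ S, ∀ d ∈ S, c ≠ d → (R c + R d) / 8 ≤ dist c d) (x : E)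
    (hS : ∀ p ∈ S, dist x p < 16 * R p) : (S.card : ℝ) ≤ 221 ^ finrank ℝ E := by
  have hx : 0 < R x := hR0 x
  have hup : ∀ p ∈ S, R p ≤ 11 / 10 * R x := by
    intro p hp
    have h1 := hL p x
    have h2 := hS p hp
    rw [dist_comm] at h1
    linarith
  have hlo : ∀ p ∈ S, 9 / 10 * R x ≤ R p := by
    intro p hp
    have h1 := hL x p
    have h2 := hS p hp
    linarith
  have := BES.card_le_of_sep S x (t := R x / 5) (R := 110) (by positivity) (by norm_num)
    (fun p hp => by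
      have h1 := hup p hp; have h2 := hS p hp
      rw [dist_comm] at h2
      linarith)
    (fun c hc d hd hcd => by
      have h1 := hsep c hc d hd hcd
      have h2 := hlo c hc
      have h3 := hlo d hd
      linarith)
  norm_num at this
  exact this

/-- bounded overlap in integrated form -/
lemma sum_cyl16_le {T : Submodule ℝ E} {R : E → ℝ} (hR0 : ∀ x, 0 < R x)
    (hL : ∀ x y, R x ≤ R y + dist x y / 256)
    (N : Finset E) (hsep : ∀ c ∈ N, ∀ d ∈ N, c ≠ d → (R c + R d) / 8 ≤ dist c d)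
    (μ : Measure E) {g : E → ℝ} (hg : Integrable g μ) (hg0 : ∀ y, 0 ≤ g y) {O' : Set E}
    (hO' : MeasurableSet O') (hsub : ∀ a ∈ N, cylSet T a (16 * R a) ⊆ O') :
    ∑ a ∈ N, ∫ y in cylSet T a (16 * R a), g y ∂μ ≤ 221 ^ finrank ℝ E * ∫ y in O', g y ∂μ := by
  classical
  have h1 : ∀ a ∈ N, ∫ y in cylSet T a (16 * R a), g y ∂μ
      = ∫ y, (cylSet T a (16 * R a)).indicator g y ∂μ := fun a _ =>
    (integral_indicator (cylSet_meas T a _)).symm
  rw [Finset.sum_congr rfl h1, ← integral_finset_sum N fun a _ =>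
    hg.indicator (cylSet_meas T a _), ← integral_indicator hO', ← integral_const_mul]
  refine integral_mono (integrable_finset_sum N fun a _ => hg.indicator (cylSet_meas T a _))
    ((hg.indicator hO').const_mul _) fun y => ?_
  show ∑ a ∈ N, (cylSet T a (16 * R a)).indicator g y ≤ 221 ^ finrank ℝ E * O'.indicator g y
  have e1 : ∑ a ∈ N, (cylSet T a (16 * R a)).indicator g y
      = ∑ a ∈ N.filter (fun a => y ∈ cylSet T a (16 * R a)), g y := by
    rw [Finset.sum_filter]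
    exact Finset.sum_congr rfl fun a _ => by
      by_cases hy : y ∈ cylSet T a (16 * R a) <;> simp [hy]
  rw [e1, Finset.sum_const, nsmul_eq_mul]
  rcases (N.filter (fun a => y ∈ cylSet T a (16 * R a))).eq_empty_or_nonempty with h0 | ⟨a, ha⟩
  · rw [h0]
    simp only [Finset.card_empty, Nat.cast_zero, zero_mul]
    exact mul_nonneg (by positivity) (indicator_nonneg (fun y _ => hg0 y) y)
  · have hyO : y ∈ O' := hsub a (Finset.mem_filter.1 ha).1 (Finset.mem_filter.1 ha).2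
    rw [indicator_of_mem hyO]
    refine mul_le_mul_of_nonneg_right ?_ (hg0 y)
    refine card_near16 hR0 hL _ (fun c hc d hd hcd => hsep c (Finset.mem_filter.1 hc).1 d
      (Finset.mem_filter.1 hd).1 hcd) (T.starProjection y) fun p hp => ?_
    exact (Finset.mem_filter.1 hp).2

variable (E)

/-- **Whitney cells, general form.**  `A` is the set of base points to be covered, `O` the set where
`σ` is controlled. -/
theorem cells (m : ℕ) : ∃ C : ℝ, 1 ≤ C ∧ ∀ (T : Submodule ℝ E) (z : E) (r Eb : ℝ) (A O : Set E)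
    (σ : Measure E) [IsFiniteMeasure σ], finrank ℝ T = m → 0 < r → 0 < Eb → Eb ≤ 1 →
    (∀ a ∈ A, a ∈ T) → (∀ a ∈ A, ‖a - z‖ ≤ r) → σ.real O ≤ Eb * r ^ m →
    ∃ (N : Finset E) (R : E → ℝ) (χ : E → E → ℝ),
      (∀ a ∈ N, a ∈ A) ∧
      (∀ x, Eb ^ 2 * r ≤ R x) ∧
      (∀ x, 16 * R x ≤ C * Eb ^ (1 / ((m : ℝ) + 1)) * r) ∧
      (∀ x, R (T.starProjection x) = R x) ∧
      (∀ x y, R x ≤ R y + dist x y / 256) ∧
      (∀ a ∈ T, ∀ s, C * R a ≤ s → ball a s ⊆ O → σ.real (ball a s) ≤ s ^ m * (s / r)) ∧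
      (∀ a ∈ N, ContDiff ℝ 2 (χ a)) ∧
      (∀ a ∈ N, ∀ x, χ a (T.starProjection x) = χ a x) ∧
      (∀ a ∈ N, ∀ x, 0 ≤ χ a x ∧ χ a x ≤ 1) ∧
      (∀ a ∈ N, ∀ x, R a ≤ ‖T.starProjection x - a‖ → χ a x = 0) ∧
      (∀ a ∈ N, ∀ x, ‖fderiv ℝ (χ a) x‖ ≤ C / R a) ∧
      (∀ a ∈ N, ∀ x, ‖fderiv ℝ (fderiv ℝ (χ a)) x‖ ≤ C / R a ^ 2) ∧
      (∀ x, ∑ a ∈ N, χ a x ≤ 1) ∧
      (∀ x, T.starProjection x ∈ A → ∑ a ∈ N, χ a x = 1) ∧
      (∀ μ : Measure E, ∀ g : E → ℝ, Integrable g μ → (∀ y, 0 ≤ g y) →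
        ∀ O' : Set E, MeasurableSet O' → (∀ a ∈ N, cylSet T a (16 * R a) ⊆ O') →
        ∑ a ∈ N, ∫ y in cylSet T a (16 * R a), g y ∂μ ≤ C * ∫ y in O', g y ∂μ) ∧
      ∑ a ∈ N, R a ^ m * (R a / r) ≤ C * Eb * r ^ m := by
  classical
  obtain ⟨Cw, hCw1, hCw⟩ := whitney' E
  set C : ℝ := Cw + 257 + 221 ^ finrank ℝ E + 48 ^ m + 9 ^ m with hC
  have p1 : (0 : ℝ) < 221 ^ finrank ℝ E := by positivity
  have p2 : (0 : ℝ) < 48 ^ m := by positivity
  have p3 : (0 : ℝ) < 9 ^ m := by positivity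
  refine ⟨C, by linarith, ?_⟩
  intro T z r Eb A O σ _ hT hr hE hE1 hAT hAz hσ
  have hm0 : (0 : ℝ) < (m : ℝ) + 1 := by positivity
  set b : ℝ := Eb ^ (1 / ((m : ℝ) + 1)) with hb
  have hb0 : 0 ≤ b := Real.rpow_nonneg hE.le _
  have hbpow : b ^ (m + 1) = Eb := by
    rw [hb, ← Real.rpow_natCast, ← Real.rpow_mul hE.le]
    push_cast
    rw [one_div, inv_mul_cancel₀ hm0.ne', Real.rpow_one]
  have hEb : Eb ≤ b := by
    conv_lhs => rw [← Real.rpow_one Eb]
    refine Real.rpow_le_rpow_of_exponent_ge hE hE1 ?_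
    rw [div_le_one hm0]
    have : (0 : ℝ) ≤ m := Nat.cast_nonneg m
    linarith
  have hE2 : Eb ^ 2 ≤ Eb := by
    rw [pow_two]; exact mul_le_of_le_one_left hE.le hE1
  have hR₀ : 0 < Eb ^ 2 * r := by positivity
  have hbr : 0 ≤ b * r := mul_nonneg hb0 hr.le
  have hs : ∀ u ∈ stopL T σ O m r, u.2 ≤ b * r := fun u hu =>
    stopL_le hr hb0 (by rw [hbpow]; exact hσ) hu
  set R : E → ℝ := radL T σ O m r (Eb ^ 2 * r) with hR
  have hRfl : ∀ x, Eb ^ 2 * r ≤ R x := fun x => floor_le_radL x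
  have hRpos : ∀ x, 0 < R x := fun x => hR₀.trans_le (hRfl x)
  have hRle : ∀ x, R x ≤ b * r := by
    intro x
    refine (radL_le hbr hs x).trans (max_le ?_ ?_)
    · exact mul_le_mul_of_nonneg_right (hE2.trans hEb) hr.le
    · linarith
  have hL : ∀ x y, R x ≤ R y + dist x y / 256 := radL_lip hbr hs hR₀.le
  have hAbd : Bornology.IsBounded A := by
    refine (isBounded_closedBall (x := z) (r := r)).subset fun a ha => ?_
    rw [mem_closedBall, dist_eq_norm]
    exact hAz a ha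
  obtain ⟨N, χ, hNA, h2, h3, h4, h5, h6, h7, h8, ⟨U, hU, hAU, h9⟩, h10, h11⟩ :=
    hCw A R (Eb ^ 2 * r) hAbd hR₀ hRfl (lipRad_radL hbr hs hR₀.le)
  have hNA' : ∀ a ∈ N, a ∈ A := fun a ha => hNA (Finset.mem_coe.2 ha)
  have hNT : ∀ a ∈ N, a ∈ T := fun a ha => hAT a (hNA' a ha)
  have hπ : ‖T.starProjection‖ ≤ 1 := T.starProjection_norm_le
  have hCw' : Cw ≤ C := by rw [hC]; linarith
  have h2' : ∀ a ∈ N, ContDiff ℝ 2 (χ a) := fun a ha => by
    exact_mod_cast contDiff_infty.1 (h2 a ha) 2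
  refine ⟨N, R, fun a x => χ a (T.starProjection x), hNA', hRfl, ?_, fun x => radL_star x, hL, ?_,
    ?_, ?_, ?_, ?_, ?_, ?_, ?_, ?_, ?_, ?_⟩
  · intro x
    have : (16 : ℝ) ≤ C := by linarith
    calc 16 * R x ≤ 16 * (b * r) := by linarith [hRle x]
      _ ≤ C * (b * r) := by gcongr
      _ = C * b * r := by ring
  · intro a ha s hs1 hs2
    have h20 : 256 * R a < s := by
      have h21 : 257 * R a ≤ C * R a := by
        refine mul_le_mul_of_nonneg_right ?_ (hRpos a).le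
        linarith
      linarith [hRpos a]
    have h22 := real_ball_lt_of_radL hbr hs ha (by linarith [hRpos a]) h20 hs2
    refine h22.le.trans (le_of_eq ?_)
    rw [pow_succ]; ring
  · intro a ha
    exact (h2' a ha).comp T.starProjection.contDiff
  · intro a ha x
    have : T.starProjection (T.starProjection x) = T.starProjection x :=
      Submodule.starProjection_eq_self_iff.2 (T.starProjection_apply_mem x)
    show χ a (T.starProjection (T.starProjection x)) = _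
    rw [this]
  · intro a ha x
    exact h3 a ha _
  · intro a ha x hx
    refine h4 a ha _ ?_
    rw [dist_eq_norm]; exact hx
  · intro a ha x
    refine (norm_fderiv_comp_le (h2' a ha) hπ x).trans
      ((h6 a ha _).trans ?_)
    have := (hRpos a).le
    gcongr
  · intro a ha x
    refine (norm_fderiv2_comp_le (h2' a ha) hπ x).trans
      ((h7 a ha _).trans ?_)
    have := (hRpos a).le
    gcongr
  · intro x
    exact h8 _
  · intro x hx
    exact h9 _ (hAU hx)
  · intro μ g hg hg0 O' hO' hsub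
    refine (sum_cyl16_le hRpos hL N h11 μ hg hg0 hO' hsub).trans ?_
    refine mul_le_mul_of_nonneg_right ?_ (integral_nonneg fun y => hg0 y)
    rw [hC]; linarith
  · have hact := sum_activeL_le hT hr hb0 hs hR₀ N hNT h11
    have hflo := sum_floorL_le (σ := σ) (O := O) hT hr hR₀ N hNT h11 (z := z)
      (fun p hp => by rw [dist_eq_norm]; exact hAz p (hNA' p hp))
    rw [← Finset.sum_filter_add_sum_filter_not N (fun p => Eb ^ 2 * r < R p)]
    have hf2 : (8 * r + Eb ^ 2 * r) ^ m * (Eb ^ 2 * r / r) ≤ 9 ^ m * (Eb * r ^ m) := by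
      have h20 : Eb ^ 2 * r / r = Eb ^ 2 := by field_simp
      have h21 : 8 * r + Eb ^ 2 * r ≤ 9 * r := by
        have : Eb ^ 2 ≤ 1 := hE2.trans hE1
        nlinarith
      rw [h20]
      calc (8 * r + Eb ^ 2 * r) ^ m * Eb ^ 2 ≤ (9 * r) ^ m * Eb := by gcongr
        _ = 9 ^ m * (Eb * r ^ m) := by rw [mul_pow]; ring
    have hEr : 0 ≤ Eb * r ^ m := by positivity
    calc _ ≤ 48 ^ m * σ.real O + (8 * r + Eb ^ 2 * r) ^ m * (Eb ^ 2 * r / r) :=
          add_le_add hact hflo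
      _ ≤ 48 ^ m * (Eb * r ^ m) + 9 ^ m * (Eb * r ^ m) :=
          add_le_add (mul_le_mul_of_nonneg_left hσ p2.le) hf2
      _ = (48 ^ m + 9 ^ m) * (Eb * r ^ m) := by ring
      _ ≤ C * (Eb * r ^ m) := by
          refine mul_le_mul_of_nonneg_right ?_ hEr
          rw [hC]; linarith
      _ = C * Eb * r ^ m := by ring

/-- **[SUM]** -/
theorem cellSum (m : ℕ) : CellSum E m := by
  obtain ⟨C, hC1, hC⟩ := cells E m
  refine ⟨C, hC1, ?_⟩
  intro T z r d Eb σ _ hm hT hz hr hE hE1 hd hEd hσ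
  obtain ⟨N, R, χ, h1, h2, h3, h3a, h3b, h4, h5, h6, h7, h8, h9, h10, h11, h12, h13, h14⟩ :=
    hC T z r Eb {a | a ∈ T ∧ ‖a - z‖ ≤ r} (ball z ((1 + d) * r)) σ hT hr hE hE1
      (fun a ha => ha.1) (fun a ha => ha.2) hσ
  refine ⟨N, R, χ, h1, fun a _ => ⟨h2 a, h3 a⟩, ?_, h5, h6, h7, h8, h9, h10, ?_, ?_, h14⟩
  · intro a ha s hs1 hs2
    refine h4 a (h1 a ha).1 s hs1 fun y hy => ?_
    rw [mem_ball] at hy ⊢
    have h20 := dist_triangle y a z
    rw [dist_eq_norm a z] at h20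
    linarith
  · intro x hx
    exact h12 x ⟨T.starProjection_apply_mem x, hx⟩
  · intro μ hμ g hg hg0
    refine h13 μ g hg hg0 _ (cylSet_meas T z _) fun a ha y hy => ?_
    have h20 : T.starProjection y ∈ ball a (16 * R a) := hy
    show T.starProjection y ∈ ball z ((1 + d) * r)
    rw [mem_ball] at h20 ⊢
    have h21 := dist_triangle (T.starProjection y) a z
    rw [dist_eq_norm a z] at h21
    have h22 := (h1 a ha).2
    have h23 : 16 * R a ≤ d * r := (h3 a).trans (mul_le_mul_of_nonneg_right hEd hr.le)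
    linarith

end

end Vale.Agent.P214.LOCF
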