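import Vale.Agent.P214.LOCF.AsmA
import Vale.Agent.P214.LOCF.Cells
import Vale.Agent.P214.AREA.Jac

/-!
# P214, block LOCF/Asm, part B: the measure side

Integrability of the curved excess density, the excess measure on the base, linearity of `FSig`.
-/

open Set Filter Topology MeasureTheory Metric
open scoped RealInnerProductSpace ContDiff

set_option linter.all false

namespace Vale.Agent.P214.LOCF

open FV FM Skel

variable {E : Type*} [NormedAddCommGroup E] [InnerProductSpace ℝ E] [FiniteDimensional ℝ E]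
  [MeasurableSpace E] [BorelSpace E]

/-- the excess measure on the base -/
noncomputable def bsig (T : Submodule ℝ E) (μ : Measure E) (g : E → ℝ) : Measure E :=
  (μ.withDensity fun Y => ENNReal.ofReal (g Y)).map T.starProjection

lemma bsig_real (T : Submodule ℝ E) {μ : Measure E} {g : E → ℝ} (hg : Integrable g μ)
    (h0 : ∀ᵐ Y ∂μ, 0 ≤ g Y) {s : Set E} (hs : MeasurableSet s) :
    (bsig T μ g).real s = ∫ Y in T.starProjection ⁻¹' s, g Y ∂μ := by
  have hp : Measurable T.starProjection := T.starProjection.continuous.measurable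
  unfold bsig Measure.real
  rw [Measure.map_apply hp hs, withDensity_apply _ (hp hs),
    ← ofReal_integral_eq_lintegral_ofReal hg.integrableOn (ae_restrict_of_ae h0),
    ENNReal.toReal_ofReal (integral_nonneg_of_ae (ae_restrict_of_ae h0))]

lemma isFiniteMeasure_bsig (T : Submodule ℝ E) {μ : Measure E} {g : E → ℝ} (hg : Integrable g μ) :
    IsFiniteMeasure (bsig T μ g) := by
  haveI := isFiniteMeasure_withDensity_ofReal hg.2
  unfold bsig
  exact Measure.isFiniteMeasure_map _ _

section

variable {m Q : ℕ} {T : Submodule ℝ E} {w : E → E} {ε κ h₁ : ℝ} {ν : Measure E}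
  {P : E → E →L[ℝ] E}

lemma isFiniteMeasure_fmeas (hfin : IsFiniteMeasure ν) : IsFiniteMeasure (fmeas T w h₁ ν) := by
  unfold fmeas; exact Measure.isFiniteMeasure_map ν _

lemma eS_bounds (hA : Adm T w ε κ h₁)
    (hproj : ∀ᵐ y ∂ν, ∃ S : Submodule ℝ E, Module.finrank ℝ S = m ∧ P y = S.starProjection) :
    ∀ᵐ Y ∂(fmeas T w h₁ ν), 0 ≤ eS T w Y (fP T w h₁ P Y) ∧
      eS T w Y (fP T w h₁ P Y) ≤ Module.finrank ℝ E := by
  filter_upwards [hA.ae_fmeas hproj] with Y hY
  obtain ⟨S, hS, hP⟩ := hY
  have : fP T w h₁ P Y = S.starProjection := hP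
  rw [this]
  refine ⟨FV.tilt_nonneg S _, (FV.tilt_le S _).trans ?_⟩
  exact_mod_cast Submodule.finrank_le S

lemma aesm_eSF (hA : Adm T w ε κ h₁) (hP : AEStronglyMeasurable P ν) :
    AEStronglyMeasurable (fun Y => eS T w Y (fP T w h₁ P Y)) (fmeas T w h₁ ν) := by
  have h1 : (fun Y => eS T w Y (fP T w h₁ P Y)) = fun Y =>
      tr (((ContinuousLinearMap.id ℝ E) - PS T w Y).comp (P (Psi T w h₁ Y))) := rfl
  rw [h1]
  refine continuous_tr.comp_aestronglyMeasurable ?_
  have h2 : Continuous fun Y => (ContinuousLinearMap.id ℝ E) - PS T w Y :=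
    continuous_const.sub hA.ref.contDiff_PS.continuous
  have h3 : Continuous fun p : (E →L[ℝ] E) × (E →L[ℝ] E) => p.1.comp p.2 := by fun_prop
  exact h3.comp_aestronglyMeasurable (h2.aestronglyMeasurable.prodMk (hA.aestronglyMeasurable hP))

lemma integrable_eSF (hA : Adm T w ε κ h₁) (hfin : IsFiniteMeasure ν)
    (hP : AEStronglyMeasurable P ν)
    (hproj : ∀ᵐ y ∂ν, ∃ S : Submodule ℝ E, Module.finrank ℝ S = m ∧ P y = S.starProjection) :
    Integrable (fun Y => eS T w Y (fP T w h₁ P Y)) (fmeas T w h₁ ν) := by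
  haveI := isFiniteMeasure_fmeas (T := T) (w := w) (h₁ := h₁) hfin
  refine Integrable.mono' (integrable_const (Module.finrank ℝ E : ℝ)) (aesm_eSF hA hP) ?_
  filter_upwards [eS_bounds hA hproj] with Y hY
  rw [Real.norm_of_nonneg hY.1]
  exact hY.2

lemma continuous_areaEl' (hw : Ref T w ε κ) : Continuous (areaEl w) := by
  have h1 : areaEl w = fun y => √(ContinuousLinearMap.det (ContinuousLinearMap.id ℝ E +
      (adj (fderiv ℝ w y)).comp (fderiv ℝ w y))) := rfl
  rw [h1]
  refine Real.continuous_sqrt.comp (ContinuousLinearMap.continuous_det.comp ?_)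
  have h2 : Continuous (fderiv ℝ w) := hw.smooth1.continuous
  exact continuous_const.add (((adj (E := E)).continuous.comp h2).clm_comp h2)

/-- a continuous function supported in a ball is integrable over a plane -/
lemma integrableOn_plane' (hT : Module.finrank ℝ T = m) {g : E → ℝ} (hg : Continuous g) {a : E}
    {R : ℝ} (hs : ∀ x, R ≤ ‖T.starProjection x - a‖ → g x = 0) :
    IntegrableOn g (T : Set E) (μH[m] : Measure E) := by
  obtain ⟨ι, hr, ha, hι⟩ := AREA.exists_param hT
  have hH := AREA.haar_euc m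
  have h1 : (μH[m] : Measure E).restrict (range ι) = Measure.map ι μH[m] :=
    (ι.isometry.map_hausdorffMeasure (Or.inl (Nat.cast_nonneg m))).symm
  unfold IntegrableOn
  rw [← hr, h1, ι.isometry.isClosedEmbedding.measurableEmbedding.integrable_map_iff]
  have hc : HasCompactSupport (g ∘ ι) := by
    refine HasCompactSupport.of_support_subset_isCompact
      (isCompact_closedBall (0 : EuclideanSpace ℝ (Fin m)) (R + ‖a‖)) fun v hv => ?_
    rw [mem_closedBall, dist_zero_right]
    by_contra h
    rw [not_le] at h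
    refine hv (hs _ ?_)
    have h2 : T.starProjection (ι v) = ι v := by
      refine star_mem_eq ?_
      have : ι v ∈ (T : Set E) := hr ▸ mem_range_self v
      exact this
    rw [h2]
    have h3 : ‖ι v‖ = ‖v‖ := ι.norm_map v
    have h4 := norm_sub_norm_le (ι v) a
    linarith
  exact (hg.comp ι.continuous).integrable_of_hasCompactSupport hc

lemma integrable_FSig (hA : Adm T w ε κ h₁) (hfin : IsFiniteMeasure ν)
    (hP : AEStronglyMeasurable P ν)
    (hproj : ∀ᵐ y ∂ν, ∃ S : Submodule ℝ E, Module.finrank ℝ S = m ∧ P y = S.starProjection)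
    {f : E → ℝ} (hf : Continuous f) {D : ℝ} (hD : ∀ x, |f x| ≤ D) :
    Integrable (fun Y => f (T.starProjection Y) * (1 - eS T w Y (fP T w h₁ P Y) / 2))
      (fmeas T w h₁ ν) := by
  haveI := isFiniteMeasure_fmeas (T := T) (w := w) (h₁ := h₁) hfin
  have h1 := integrable_eSF hA hfin hP hproj
  refine Integrable.bdd_mul (c := D) ((integrable_const (1:ℝ)).sub (h1.div_const 2))
    (hf.comp T.starProjection.continuous).aestronglyMeasurable
    (Eventually.of_forall fun Y => ?_)
  rw [Real.norm_eq_abs]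
  exact hD _

/-- linearity of the curved functional -/
theorem FSig_sum (hA : Adm T w ε κ h₁) (hfin : IsFiniteMeasure ν)
    (hP : AEStronglyMeasurable P ν)
    (hproj : ∀ᵐ y ∂ν, ∃ S : Submodule ℝ E, Module.finrank ℝ S = m ∧ P y = S.starProjection)
    (hT : Module.finrank ℝ T = m) (Q : ℕ) {φ : E → ℝ} (N : Finset E) (c : E → ℝ)
    {f : E → E → ℝ} {R : E → ℝ} (hf : ∀ a ∈ N, Test2 T a (R a) (f a))
    (hφ : ∀ x, φ x = ∑ a ∈ N, c a * f a x) :
    FSig m Q T w (fmeas T w h₁ ν) (fP T w h₁ P) φ
      = ∑ a ∈ N, c a * FSig m Q T w (fmeas T w h₁ ν) (fP T w h₁ P) (f a) := by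
  have h1 : ∫ Y, φ (T.starProjection Y) * (1 - eS T w Y (fP T w h₁ P Y) / 2) ∂(fmeas T w h₁ ν)
      = ∑ a ∈ N, c a * ∫ Y, f a (T.starProjection Y) * (1 - eS T w Y (fP T w h₁ P Y) / 2)
          ∂(fmeas T w h₁ ν) := by
    simp_rw [← integral_const_mul]
    rw [← integral_finset_sum]
    · refine integral_congr_ae (Eventually.of_forall fun Y => ?_)
      simp only [hφ, Finset.sum_mul, mul_assoc]
    · intro a ha
      exact (integrable_FSig hA hfin hP hproj (hf a ha).smooth.continuous (hf a ha).bd0).const_mul _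
  have h2 : ∫ x in (T : Set E), φ x * areaEl w x ∂(μH[m] : Measure E)
      = ∑ a ∈ N, c a * ∫ x in (T : Set E), f a x * areaEl w x ∂(μH[m] : Measure E) := by
    simp_rw [← integral_const_mul]
    rw [← integral_finset_sum]
    · refine integral_congr_ae (Eventually.of_forall fun x => ?_)
      simp only [hφ, Finset.sum_mul, mul_assoc]
    · intro a ha
      refine Integrable.const_mul ?_ _
      refine integrableOn_plane' hT (a := a) (R := R a)
        ((hf a ha).smooth.continuous.mul (continuous_areaEl' hA.ref)) fun x hx => ?_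
      rw [(hf a ha).supp x hx, zero_mul]
  unfold FSig
  rw [h1, h2, Finset.mul_sum, ← Finset.sum_sub_distrib]
  refine Finset.sum_congr rfl fun a _ => ?_
  ring

end

end Vale.Agent.P214.LOCF
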