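import Vale.Agent.P214.LOCF.AsmB

/-!
# P214, block LOCF/Asm, part C: the estimate of one cell
-/

open Set Filter Topology MeasureTheory Metric
open scoped RealInnerProductSpace ContDiff

set_option linter.all false

namespace Vale.Agent.P214.LOCF

open FV FM Skel ODE

/-- the numbers of one cell -/
lemma cell_num {β θ X V t L kR kU H C₁ C₂ F e : ℝ} (hβ : 0 ≤ β) (hθ : 0 < θ) (hθ1 : θ ≤ 1)
    (hX : 0 ≤ X) (hV : 0 ≤ V) (ht0 : 0 ≤ t) (ht1 : t ≤ 1) (htL : t ≤ L * θ ^ 2) (hL : 1 ≤ L)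
    (hkR0 : 0 ≤ kR) (hkR : kR ≤ t) (hkU : kU ≤ θ) (hH : 0 ≤ H) (hC₁ : 0 ≤ C₁)
    (hC₂ : 0 ≤ C₂) (he : e ≤ C₁ * (X + kR ^ 2 * V))
    (hF : F ≤ 8 * (β * e) + C₂ * ((kR + kU) * X + kR * √(X * V) + (kR ^ 2 * V + H))) :
    F ≤ (8 * C₁ + 2 * C₂ * (L + 1)) * ((β + θ) * (X + V * t) + H) := by
  have hVt : 0 ≤ V * t := mul_nonneg hV ht0
  have hk2 : kR ^ 2 ≤ t ^ 2 := by gcongr
  have h1 : kR ^ 2 * V ≤ V * t := by
    calc kR ^ 2 * V ≤ t ^ 2 * V := by gcongr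
      _ = t * (V * t) := by ring
      _ ≤ 1 * (V * t) := by gcongr
      _ = _ := one_mul _
  have htθ : t ≤ L * θ := by
    calc t ≤ L * θ ^ 2 := htL
      _ = L * θ * θ := by ring
      _ ≤ L * θ * 1 := by gcongr
      _ = _ := mul_one _
  have h2 : kR ^ 2 * V ≤ L * θ * (V * t) := by
    calc kR ^ 2 * V ≤ t ^ 2 * V := by gcongr
      _ = t * (V * t) := by ring
      _ ≤ L * θ * (V * t) := by gcongr
  have h3 : kR * √(X * V) ≤ θ * X + L * θ * (V * t) := by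
    have hA : 0 ≤ θ * X + L * θ * (V * t) := by positivity
    have h4 : kR * √(X * V) ≤ t * √(X * V) := by gcongr
    refine h4.trans ?_
    refine le_of_sq_le_sq ?_ hA |> fun h => h
    rw [mul_pow, Real.sq_sqrt (by positivity)]
    have h5 : t ^ 2 * (X * V) ≤ (θ * X) * (L * θ * (V * t)) := by
      calc t ^ 2 * (X * V) = t * (t * (X * V)) := by ring
        _ ≤ (L * θ ^ 2) * (t * (X * V)) := by gcongr
        _ = _ := by ring
    have h6 : 0 ≤ θ * X := by positivity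
    have h7 : 0 ≤ L * θ * (V * t) := by positivity
    nlinarith
  have h4 : (kR + kU) * X ≤ (L + 1) * θ * X := by
    have : kR + kU ≤ (L + 1) * θ := by linarith
    gcongr
  have h5 : β * e ≤ C₁ * (β * (X + V * t)) := by
    calc β * e ≤ β * (C₁ * (X + kR ^ 2 * V)) := by gcongr
      _ ≤ β * (C₁ * (X + V * t)) := by gcongr
      _ = _ := by ring
  have h6 : 0 ≤ β * (X + V * t) := by positivity
  have h7 : 0 ≤ θ * (X + V * t) := by positivity
  have h8 : (kR + kU) * X + kR * √(X * V) + (kR ^ 2 * V + H)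
      ≤ 2 * (L + 1) * (θ * (X + V * t)) + H := by
    have h9 : 0 ≤ L * (θ * X) := by positivity
    have h10 : 0 ≤ θ * (V * t) := by positivity
    nlinarith
  calc F ≤ 8 * (C₁ * (β * (X + V * t))) + C₂ * (2 * (L + 1) * (θ * (X + V * t)) + H) := by
        refine hF.trans ?_
        gcongr
    _ ≤ _ := by
        have h11 : 0 ≤ C₂ * (L + 1) * (β * (X + V * t)) := by positivity
        have h12 : 0 ≤ C₁ * (θ * (X + V * t)) := by positivity
        have h13 : 0 ≤ C₁ * H := by positivity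
        have h14 : 0 ≤ C₂ * (L + 1) * H := by positivity
        have h15 : 0 ≤ C₂ * H := by positivity
        have h16 : C₂ * H ≤ 2 * C₂ * (L + 1) * H := by nlinarith
        nlinarith

variable {E : Type*} [NormedAddCommGroup E] [InnerProductSpace ℝ E] [FiniteDimensional ℝ E]
  [MeasurableSpace E] [BorelSpace E]

/-- the extrinsic distance is Lipschitz in the base (valid for both versions of `XX`) -/
lemma XX_near {T : Submodule ℝ E} {w : E → E} {ε κ : ℝ} (hw : Ref T w ε κ) (hε : ε ≤ 1 / 16)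
    (z x y : E) : ‖XX T w z x‖ ≤ ‖XX T w z y‖ + 2 * ‖x - y‖ := by
  have h0 : ‖w x - w y‖ ≤ 1 / 16 * ‖x - y‖ := by
    refine (abs_sub_le_of_fderiv (f := w) (hw.smooth.of_le (WithTop.coe_le_coe.2 le_top))
      hw.slope x y).trans ?_
    gcongr
  have h1 : ‖XX T w z x - XX T w z y‖ ≤ 2 * ‖x - y‖ := by
    first
    | (have e : XX T w z x - XX T w z y = T.starProjection (x - y) + (w x - w y) := by
         unfold XX
         rw [bx_eq, bx_eq, map_sub]; abel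
       rw [e]
       refine (norm_add_le _ _).trans ?_
       have := norm_star_le T (x - y)
       have := norm_nonneg (x - y)
       linarith)
    | (have e : XX T w z x - XX T w z y = T.starProjection (x - y) := by
         unfold XX
         rw [bx_eq, bx_eq, map_sub]; abel
       rw [e]
       have := norm_star_le T (x - y)
       have := norm_nonneg (x - y)
       linarith)
  have h2 := norm_add_le (XX T w z x - XX T w z y) (XX T w z y)
  rw [sub_add_cancel] at h2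
  linarith

lemma norm_sub_le_XX {T : Submodule ℝ E} {w : E → E} {ε κ : ℝ} (hw : Ref T w ε κ) {z : E}
    (hz : z ∈ T) (Y : E) : ‖T.starProjection Y - z‖ ≤ ‖XX T w z Y‖ := by
  have h1 := hw.norm_bx_le_XX z Y
  rwa [bx_eq, star_mem_eq hz] at h1

lemma measurableSet_adB {T : Submodule ℝ E} {w : E → E} {ε κ : ℝ} (hw : Ref T w ε κ) (z : E)
    (R : ℝ) : MeasurableSet (adB T w z R) :=
  (isOpen_lt (hw.contDiff_XX z).continuous.norm continuous_const).measurableSet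

lemma excF_nonneg {m : ℕ} {T : Submodule ℝ E} {w : E → E} {ε κ h₁ : ℝ} {ν : Measure E}
    {P : E → E →L[ℝ] E} (hA : Adm T w ε κ h₁)
    (hproj : ∀ᵐ y ∂ν, ∃ S : Submodule ℝ E, Module.finrank ℝ S = m ∧ P y = S.starProjection)
    (a : E) (R : ℝ) : 0 ≤ excF T w (fmeas T w h₁ ν) (fP T w h₁ P) a R := by
  unfold excF
  refine integral_nonneg_of_ae (ae_restrict_of_ae ?_)
  filter_upwards [eS_bounds hA hproj] with Y hY
  exact hY.1

lemma excF_mono {m : ℕ} {T : Submodule ℝ E} {w : E → E} {ε κ h₁ : ℝ} {ν : Measure E}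
    {P : E → E →L[ℝ] E} (hA : Adm T w ε κ h₁) (hfin : IsFiniteMeasure ν)
    (hP : AEStronglyMeasurable P ν)
    (hproj : ∀ᵐ y ∂ν, ∃ S : Submodule ℝ E, Module.finrank ℝ S = m ∧ P y = S.starProjection)
    (a : E) {R R' : ℝ} (h : R ≤ R') : excF T w (fmeas T w h₁ ν) (fP T w h₁ P) a R
      ≤ excF T w (fmeas T w h₁ ν) (fP T w h₁ P) a R' := by
  unfold excF
  refine setIntegral_mono_set (integrable_eSF hA hfin hP hproj).integrableOn ?_ ?_
  · refine ae_restrict_of_ae ?_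
    filter_upwards [eS_bounds hA hproj] with Y hY
    exact hY.1
  · refine Eventually.of_forall fun y hy => ?_
    exact ball_subset_ball h hy

lemma hgt2_nonneg (T : Submodule ℝ E) (ν : Measure E) (a : E) (R : ℝ) : 0 ≤ hgt2 T ν a R := by
  unfold hgt2
  exact integral_nonneg fun Y => by positivity

/-- choice of the exponent and of the smallness -/
lemma small_num {m : ℕ} {C₁ δ₂ η L c₁ : ℝ} (hC₁ : 0 < C₁) (hδ₂ : 0 < δ₂) (hη : 0 < η)
    (hL : 16 ≤ L) (hc₁ : 0 < c₁) : ∃ c δ₀ : ℝ, 0 < c ∧ c ≤ 1 / (2 * ((m : ℝ) + 1)) ∧ 0 < δ₀ ∧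
      δ₀ ≤ 1 ∧ ∀ Eb, 0 < Eb → Eb ≤ δ₀ → 0 < Eb ^ c ∧ Eb ^ c ≤ 1 ∧ L ^ 2 * Eb ^ c ≤ 8 ∧
        C₁ * (L ^ (m + 1) + 1) * L * (Eb ^ c) ^ 2 ≤ η * Eb ^ c ∧
        C₁ * (L ^ (m + 1) + 1) * L * (Eb ^ c) ^ 2 ≤ δ₂ ∧
        Eb ^ (1 / ((m : ℝ) + 1)) ≤ (Eb ^ c) ^ 2 ∧ √Eb ≤ Eb ^ c ∧ Eb ^ c₁ ≤ Eb ^ c := by
  set c : ℝ := min c₁ (1 / (2 * ((m : ℝ) + 1))) with hc
  have hm0 : (0 : ℝ) < (m : ℝ) + 1 := by positivity
  have hc0 : 0 < c := lt_min hc₁ (by positivity)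
  have hcc₁ : c ≤ c₁ := min_le_left _ _
  have hcm : c ≤ 1 / (2 * ((m : ℝ) + 1)) := min_le_right _ _
  have hL0 : 0 < L := by linarith
  set K₁ : ℝ := C₁ * (L ^ (m + 1) + 1) * L with hK₁
  have hK₁0 : 0 < K₁ := by positivity
  set θ₀ : ℝ := min (min 1 (8 / L ^ 2)) (min (η / K₁) (δ₂ / K₁)) with hθ₀
  have hθ₀0 : 0 < θ₀ := by
    refine lt_min (lt_min one_pos (by positivity)) (lt_min (by positivity) (by positivity))
  refine ⟨c, min 1 (θ₀ ^ (1 / c)), hc0, hcm, lt_min one_pos (Real.rpow_pos_of_pos hθ₀0 _),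
    min_le_left _ _, fun Eb hE0 hEb => ?_⟩
  have hEb2 : Eb ≤ 1 := hEb.trans (min_le_left _ _)
  have hEb3 : Eb ≤ θ₀ ^ (1 / c) := hEb.trans (min_le_right _ _)
  set θ : ℝ := Eb ^ c with hθ
  have hθ0 : 0 < θ := Real.rpow_pos_of_pos hE0 _
  have hθθ₀ : θ ≤ θ₀ := by
    calc θ ≤ (θ₀ ^ (1 / c)) ^ c := Real.rpow_le_rpow hE0.le hEb3 hc0.le
      _ = θ₀ := by
          rw [← Real.rpow_mul hθ₀0.le, one_div, inv_mul_cancel₀ hc0.ne', Real.rpow_one]
  have hθ1 : θ ≤ 1 := hθθ₀.trans ((min_le_left _ _).trans (min_le_left _ _))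
  have hθL : θ ≤ 8 / L ^ 2 := hθθ₀.trans ((min_le_left _ _).trans (min_le_right _ _))
  have hθη : θ ≤ η / K₁ := hθθ₀.trans ((min_le_right _ _).trans (min_le_left _ _))
  have hθδ : θ ≤ δ₂ / K₁ := hθθ₀.trans ((min_le_right _ _).trans (min_le_right _ _))
  rw [le_div_iff₀ (by positivity)] at hθL hθη hθδ
  refine ⟨hθ0, hθ1, by linarith, ?_, ?_, ?_, ?_, ?_⟩
  · calc K₁ * θ ^ 2 = (θ * K₁) * θ := by ring
      _ ≤ η * θ := by gcongr
  · calc K₁ * θ ^ 2 = (θ * K₁) * θ := by ring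
      _ ≤ δ₂ * 1 := by gcongr
      _ = δ₂ := mul_one _
  · rw [hθ, ← Real.rpow_natCast, ← Real.rpow_mul hE0.le]
    refine Real.rpow_le_rpow_of_exponent_ge hE0 hEb2 ?_
    push_cast
    calc c * 2 ≤ 1 / (2 * ((m : ℝ) + 1)) * 2 := by gcongr
      _ = _ := by field_simp
  · rw [Real.sqrt_eq_rpow]
    refine Real.rpow_le_rpow_of_exponent_ge hE0 hEb2 ?_
    refine hcm.trans ?_
    have hm1 : (0:ℝ) ≤ m := Nat.cast_nonneg m
    exact one_div_le_one_div_of_le (by norm_num) (by linarith)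
  · exact Real.rpow_le_rpow_of_exponent_ge hE0 hEb2 hcc₁

section cell

variable {m Q : ℕ} {T : Submodule ℝ E} {w : E → E} {ε κ h₁ : ℝ} {z : E} {r d Eb h δ : ℝ}
  {μ : Measure E} {P : E → E →L[ℝ] E} {a : E} {R L θ : ℝ}

/-- the excess of a cell is small, by the stopping rule -/
lemma cell_X (H : Dat m Q T w ε κ h₁ z r d Eb h δ μ P) (haz : ‖XX T w z a‖ ≤ r) (hR : 0 < R)
    (hL : 16 ≤ L) (hθ0 : 0 < θ) (hθd : θ ≤ d) (hθL : L ^ 2 * θ ≤ 8)
    (hRθ : 16 * (R / r) ≤ L * θ ^ 2)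
    (hstop : ∀ s, L * R ≤ s → ball a s ⊆ adB T w z ((1 + d) * r) →
      excF T w (fmeas T w h₁ μ) (fP T w h₁ P) a s ≤ s ^ m * (s / r)) :
    excF T w (fmeas T w h₁ μ) (fP T w h₁ P) a (16 * R) ≤ L ^ (m + 1) * (R ^ m * (R / r)) := by
  have hw := H.adm.ref
  have hr := H.pos
  have hε1 : ε ≤ 1 / 16 := H.adm.hε.trans eps0_le
  have h1 : ball a (L * R) ⊆ adB T w z ((1 + d) * r) := by
    intro y hy
    rw [mem_ball, dist_eq_norm] at hy
    have h2 := XX_near hw hε1 z y a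
    show ‖XX T w z y‖ < (1 + d) * r
    have h3 : 2 * (L * R) ≤ d * r := by
      have h4 : L * (R / r) ≤ d / 2 := by
        calc L * (R / r) ≤ L * (L * θ ^ 2 / 16) :=
              mul_le_mul_of_nonneg_left (by linarith) (by linarith)
          _ = (L ^ 2 * θ) * θ / 16 := by ring
          _ ≤ 8 * θ / 16 := by gcongr
          _ = θ / 2 := by ring
          _ ≤ d / 2 := by linarith
      calc 2 * (L * R) = 2 * (L * (R / r)) * r := by field_simp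
        _ ≤ 2 * (d / 2) * r := by gcongr
        _ = d * r := by ring
    linarith
  have h2 : 16 * R ≤ L * R := by gcongr
  calc _ ≤ excF T w (fmeas T w h₁ μ) (fP T w h₁ P) a (L * R) :=
        excF_mono H.adm H.cyl.fin H.cyl.meas H.cyl.proj a h2
    _ ≤ (L * R) ^ m * ((L * R) / r) := hstop _ le_rfl h1
    _ = _ := by rw [mul_pow]; ring

/-- the comparison of one cell -/
lemma cell_cmp {C₂ δ₂ : ℝ} (hδ₂ : 0 < δ₂)
    (HC : ∀ (T : Submodule ℝ E) (w : E → E) (ε κ h₁ : ℝ) (a : E)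
    (R U h : ℝ) (ν : Measure E) (P : E → E →L[ℝ] E) (f : E → ℝ),
    Adm T w ε κ h₁ → a ∈ T → 0 < R → 0 ≤ U → ε ≤ δ₂ → κ * (R + U) ≤ δ₂ →
    MinimalOver T w (ball a (16 * R)) →
    IntCyl m Q (planeOf T w a) (za T w a) (8 * R) h δ₂ ν P →
    exc (planeOf T w a) ν P (za T w a) (8 * R) ≤ δ₂ * R ^ m →
    (∀ᵐ Y ∂(fmeas T w h₁ ν), κ * (‖T.starProjection Y - a‖ + ‖co T Y‖) ≤ δ₂ ∧ ‖co T Y‖ < h₁) →
    (∀ᵐ Y ∂(fmeas T w h₁ ν), T.starProjection Y ∈ ball a (16 * R) → ‖co T Y‖ ≤ U) →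
    Test2 T a R f →
    |FSig m Q T w (fmeas T w h₁ ν) (fP T w h₁ P) f
        - Ffl m Q (planeOf T w a) ν P (psi T w a f)|
      ≤ C₂ * (κ * (R + U) * excF T w (fmeas T w h₁ ν) (fP T w h₁ P) a (16 * R)
        + κ * R * √(excF T w (fmeas T w h₁ ν) (fP T w h₁ P) a (16 * R) * R ^ m)
        + κ ^ 2 * (R ^ 2 * R ^ m + hgt2 T (fmeas T w h₁ ν) a (16 * R))))
    (H : Dat m Q T w ε κ h₁ z r d Eb h δ μ P) (ha : a ∈ T) (haz : ‖XX T w z a‖ ≤ r) (hR : 0 < R)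
    (hRr : R ≤ r) (hRd : 16 * R ≤ d * r / 2) (hδ : δ ≤ δ₂ / 4) (hsq : √Eb ≤ 1) {h' : ℝ}
    (hcyl : IntCyl m Q (planeOf T w a) (za T w a) (8 * R) h' δ₂ μ P)
    (hex : exc (planeOf T w a) μ P (za T w a) (8 * R) ≤ δ₂ * R ^ m) {f : E → ℝ}
    (hf : Test2 T a R f) :
    |FSig m Q T w (fmeas T w h₁ μ) (fP T w h₁ P) f
        - Ffl m Q (planeOf T w a) μ P (psi T w a f)|
      ≤ C₂ * (κ * (R + √Eb * r) * excF T w (fmeas T w h₁ μ) (fP T w h₁ P) a (16 * R)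
        + κ * R * √(excF T w (fmeas T w h₁ μ) (fP T w h₁ P) a (16 * R) * R ^ m)
        + κ ^ 2 * (R ^ 2 * R ^ m + hgt2 T (fmeas T w h₁ μ) a (16 * R))) := by
  have hw := H.adm.ref
  have hr := H.pos
  have hκ0 := hw.knn
  have hU0 : 0 ≤ √Eb * r := by positivity
  have hcurv := H.curv
  have hsl := H.slope
  have hza := norm_sub_le_XX hw H.mem a
  rw [star_mem_eq ha] at hza
  have hd1 := H.dle
  have hd0 := H.dpos
  have hdr : d * r ≤ 1 * r := by gcongr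
  have hdr0 : 0 < d * r := by positivity
  refine HC T w ε κ h₁ a R (√Eb * r) h' μ P f H.adm ha hR hU0 (by linarith) ?_ ?_ hcyl hex ?_ ?_ hf
  · calc κ * (R + √Eb * r) ≤ κ * (r + 1 * r) := by gcongr
      _ = 2 * (κ * r) := by ring
      _ ≤ δ₂ := by linarith
  · intro y hy
    refine H.min y ?_
    rw [mem_ball, dist_eq_norm] at hy ⊢
    have h2 : T.starProjection y - z = (T.starProjection y - a) + (a - z) := by abel
    rw [h2]
    have h3 := norm_add_le (T.starProjection y - a) (a - z)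
    linarith
  · filter_upwards [H.all] with Y hY
    refine ⟨?_, hY.2.2⟩
    have h1 := norm_sub_le_XX hw H.mem Y
    have h3 : ‖T.starProjection Y - a‖ ≤ 3 * r := by
      have e : T.starProjection Y - a = (T.starProjection Y - z) - (a - z) := by abel
      rw [e]
      have := norm_sub_le (T.starProjection Y - z) (a - z)
      linarith [hY.1]
    have h4 : ‖co T Y‖ ≤ 1 * r := hY.2.1.trans (by gcongr)
    calc κ * (‖T.starProjection Y - a‖ + ‖co T Y‖) ≤ κ * (3 * r + 1 * r) := by gcongr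
      _ = 4 * (κ * r) := by ring
      _ ≤ δ₂ := by linarith
  · filter_upwards [H.all] with Y hY _
    exact hY.2.1

/-- the flat functional of one cell -/
lemma cell_flat (hw : Ref T w ε κ) (hε : ε ≤ 1 / 16) {η s β : ℝ} (hη : 0 < η) (hθ0 : 0 < θ)
    (hflat : ∀ (a : E) (R h' : ℝ) (f : E → ℝ),
      IntCyl m Q (planeOf T w a) (za T w a) (2 * R) h' η μ P →
      exc (planeOf T w a) μ P (za T w a) (2 * R) ≤ η * θ * R ^ m →
      BaseTest (planeOf T w a) (za T w a) R f →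
      s * Ffl m Q (planeOf T w a) μ P f ≤ β * exc (planeOf T w a) μ P (za T w a) (2 * R))
    (ha : a ∈ T) (hR : 0 < R) {h' : ℝ}
    (hcyl : IntCyl m Q (planeOf T w a) (za T w a) (8 * R) h' η μ P)
    (hex : exc (planeOf T w a) μ P (za T w a) (8 * R) ≤ η * θ * R ^ m) {f : E → ℝ}
    (hf : Test2 T a R f) (hf0 : ∀ x, 0 ≤ f x) :
    s * Ffl m Q (planeOf T w a) μ P (psi T w a f)
      ≤ 8 * (β * exc (planeOf T w a) μ P (za T w a) (8 * R)) := by
  obtain ⟨g, hg, hFg⟩ := exists_baseTest hw hε ha hR hf hf0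
  have e8 : 2 * (4 * R) = 8 * R := by ring
  have hfl := hflat a (4 * R) h' g (by rw [e8]; exact hcyl) (by
    rw [e8]
    refine hex.trans ?_
    gcongr
    linarith) hg
  rw [e8] at hfl
  rw [hFg m Q μ P]
  calc s * (8 * Ffl m Q (planeOf T w a) μ P g) = 8 * (s * Ffl m Q (planeOf T w a) μ P g) := by ring
    _ ≤ _ := by gcongr

end cell

/-- **the estimate of one cell** -/
theorem cell_est {m Q : ℕ} (hCmp : Cmp E m Q) (hCI : CellInt E m Q) {η L : ℝ} (hη : 0 < η)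
    (hL : 16 ≤ L) :
    ∃ K c δ₀ : ℝ, 0 < K ∧ 0 < c ∧ c ≤ 1 / (2 * ((m : ℝ) + 1)) ∧ 0 < δ₀ ∧ δ₀ ≤ 1 ∧
    (∀ Eb, 0 < Eb → Eb ≤ δ₀ → L ^ 2 * Eb ^ c ≤ 8) ∧
    ∀ (T : Submodule ℝ E) (w : E → E)
    (ε κ h₁ : ℝ) (z : E) (r d Eb h δ : ℝ) (μ : Measure E) (P : E → E →L[ℝ] E),
    δ ≤ δ₀ → Eb ≤ δ₀ → Eb ^ c ≤ d → Dat m Q T w ε κ h₁ z r d Eb h δ μ P →
    ∀ s β : ℝ, |s| = 1 → 0 ≤ β →
    (∀ (a : E) (R h' : ℝ) (f : E → ℝ),
      IntCyl m Q (planeOf T w a) (za T w a) (2 * R) h' η μ P →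
      exc (planeOf T w a) μ P (za T w a) (2 * R) ≤ η * Eb ^ c * R ^ m →
      BaseTest (planeOf T w a) (za T w a) R f →
      s * Ffl m Q (planeOf T w a) μ P f ≤ β * exc (planeOf T w a) μ P (za T w a) (2 * R)) →
    ∀ (a : E) (R : ℝ) (f : E → ℝ), a ∈ T → ‖XX T w z a‖ ≤ r → 0 < R →
      16 * R ≤ L * Eb ^ (1 / ((m : ℝ) + 1)) * r →
      (∀ s, L * R ≤ s → ball a s ⊆ adB T w z ((1 + d) * r) →
        excF T w (fmeas T w h₁ μ) (fP T w h₁ P) a s ≤ s ^ m * (s / r)) →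
      Test2 T a R f → (∀ x, 0 ≤ f x) →
      s * FSig m Q T w (fmeas T w h₁ μ) (fP T w h₁ P) f ≤
        K * ((β + Eb ^ c) * (excF T w (fmeas T w h₁ μ) (fP T w h₁ P) a (16 * R)
          + R ^ m * (R / r)) + κ ^ 2 * hgt2 T (fmeas T w h₁ μ) a (16 * R)) := by
  obtain ⟨C₂, δ₂, hC₂, hδ₂, HC⟩ := hCmp
  obtain ⟨C₁, c₁, δ₁, hC₁, hc₁, hδ₁, HI⟩ := hCI L (min η δ₂) (by linarith) (lt_min hη hδ₂)
  obtain ⟨c, δ₃, hc0, hcm, hδ₃, hδ₃1, hnum⟩ := small_num (m := m) hC₁ hδ₂ hη hL hc₁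
  refine ⟨8 * C₁ + 2 * C₂ * (L + 1), c,
    min (min δ₁ (δ₂ / 4)) δ₃, by positivity, hc0, hcm,
    lt_min (lt_min hδ₁ (by positivity)) hδ₃, (min_le_right _ _).trans hδ₃1,
    fun Eb hE0 hEb => (hnum Eb hE0 (hEb.trans (min_le_right _ _))).2.2.1, ?_⟩
  intro T w ε κ h₁ z r d Eb h δ μ P hδ hEb hEd H s β hs hβ hflat a R f ha haz hR hRr hstop hf hf0
  have hEb1 : Eb ≤ δ₁ := hEb.trans ((min_le_left _ _).trans (min_le_left _ _))
  have hδ1 : δ ≤ δ₁ := hδ.trans ((min_le_left _ _).trans (min_le_left _ _))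
  have hδ2 : δ ≤ δ₂ / 4 := hδ.trans ((min_le_left _ _).trans (min_le_right _ _))
  have hδ3 : δ ≤ 1 := (hδ.trans (min_le_right _ _)).trans hδ₃1
  obtain ⟨hθ0, hθ1, hθL, hexs1, hexs2, hb, hsq, hbc⟩ := hnum Eb H.epos (hEb.trans (min_le_right _ _))
  have hr := H.pos
  have hw := H.adm.ref
  have hε1 : ε ≤ 1 / 16 := H.adm.hε.trans eps0_le
  have hκ0 := hw.knn
  generalize Eb ^ c = θ at hθ0 hθ1 hθL hexs1 hexs2 hb hsq hbc hEd hflat ⊢
  have hRt : R = R / r * r := by field_simp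
  have ht0 : 0 < R / r := by positivity
  have htL16 : 16 * (R / r) ≤ L * θ ^ 2 := by
    have h1 : 16 * R ≤ L * θ ^ 2 * r := hRr.trans (by gcongr)
    have h2 : 16 * (R / r) * r ≤ L * θ ^ 2 * r := by
      rw [mul_assoc, ← hRt]; exact h1
    exact le_of_mul_le_mul_right h2 hr
  obtain ⟨hR1, ⟨h', hcyl⟩, hexc⟩ := HI T w ε κ h₁ z r d Eb h δ μ P hδ1 hEb1
    (hbc.trans hEd) H a R ha haz hR hRr hstop
  have hd1 := H.dle
  have hRr1 : R ≤ r := by
    have : d * r ≤ 1 * r := by gcongr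
    linarith
  have ht1 : R / r ≤ 1 := (div_le_one hr).2 hRr1
  have hX0 := excF_nonneg (ν := μ) (P := P) H.adm H.cyl.proj a (16 * R)
  have hXs := cell_X H haz hR hL hθ0 hEd hθL htL16 hstop
  have hcmp := fun hex => cell_cmp hδ₂ HC H ha haz hR hRr1 hR1 hδ2 (hsq.trans hθ1) (h' := h')
    ⟨hcyl.cyl, hcyl.mem, hcyl.pos, hcyl.int, hcyl.mass.trans (by gcongr; exact min_le_right _ _)⟩
    hex hf
  have hfl := fun hex => cell_flat hw hε1 hη hθ0 hflat ha hR (h' := h')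
    ⟨hcyl.cyl, hcyl.mem, hcyl.pos, hcyl.int, hcyl.mass.trans (by gcongr; exact min_le_left _ _)⟩
    hex hf hf0
  generalize excF T w (fmeas T w h₁ μ) (fP T w h₁ P) a (16 * R) = X at hexc hX0 hXs hcmp ⊢
  have hH0 := hgt2_nonneg T (fmeas T w h₁ μ) a (16 * R)
  generalize hgt2 T (fmeas T w h₁ μ) a (16 * R) = Hh at hcmp hH0 ⊢
  have hκr : κ * r ≤ 1 := H.curv.trans hδ3
  have hkR : κ * R ≤ R / r := by
    calc κ * R = (κ * r) * (R / r) := by field_simp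
      _ ≤ 1 * (R / r) := by gcongr
      _ = R / r := one_mul _
  have hkR0 : 0 ≤ κ * R := by positivity
  have hVR : 0 < R ^ m := by positivity
  have hexs : exc (planeOf T w a) μ P (za T w a) (8 * R)
      ≤ C₁ * (L ^ (m + 1) + 1) * L * θ ^ 2 * R ^ m := by
    have h1 : κ ^ 2 * R ^ 2 * R ^ m ≤ R ^ m * (R / r) := by
      calc κ ^ 2 * R ^ 2 * R ^ m = (κ * R) * (κ * R) * R ^ m := by ring
        _ ≤ (R / r) * 1 * R ^ m := by
            have : κ * R ≤ 1 := hkR.trans ht1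
            gcongr
        _ = _ := by ring
    have h2 : R / r ≤ L * θ ^ 2 := by linarith
    calc _ ≤ C₁ * (X + κ ^ 2 * R ^ 2 * R ^ m) := hexc
      _ ≤ C₁ * (L ^ (m + 1) * (R ^ m * (R / r)) + R ^ m * (R / r)) := by gcongr
      _ = C₁ * (L ^ (m + 1) + 1) * (R / r) * R ^ m := by ring
      _ ≤ C₁ * (L ^ (m + 1) + 1) * (L * θ ^ 2) * R ^ m := by gcongr
      _ = _ := by ring
  have hcmp' := hcmp (hexs.trans (by gcongr))
  have hfl' := hfl (hexs.trans (by gcongr))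
  have hkU : κ * (√Eb * r) ≤ θ := by
    calc κ * (√Eb * r) = (κ * r) * √Eb := by ring
      _ ≤ 1 * θ := by gcongr
      _ = θ := one_mul θ
  clear hcmp hfl HI HC hnum hflat hstop
  generalize exc (planeOf T w a) μ P (za T w a) (8 * R) = e at hexc hexs hfl'
  generalize Ffl m Q (planeOf T w a) μ P (psi T w a f) = F₁ at hcmp' hfl'
  generalize FSig m Q T w (fmeas T w h₁ μ) (fP T w h₁ P) f = F₂ at hcmp' ⊢
  have habs : s * F₂ ≤ s * F₁ + |F₂ - F₁| := by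
    have h1 : s * (F₂ - F₁) ≤ |F₂ - F₁| := by
      refine (le_abs_self _).trans ?_
      rw [abs_mul, hs, one_mul]
    linarith
  refine cell_num (kR := κ * R) (kU := κ * (√Eb * r)) hβ hθ0 hθ1 hX0 hVR.le ht0.le ht1
    (by linarith) (by linarith) hkR0 hkR hkU (mul_nonneg (sq_nonneg κ) hH0) hC₁.le hC₂.le
    (hexc.trans (le_of_eq (by ring))) ?_
  refine habs.trans (add_le_add hfl' (hcmp'.trans (le_of_eq ?_)))
  ring

end Vale.Agent.P214.LOCF
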