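import Vale.Agent.P214.LOCF.Rad
import Vale.Agent.P214.Skel.Defs

/-!
# P214, block LOCF: Whitney cells with a localised stopping rule

`σ` is a finite measure, `O` a set with `σ O ≤ Eb r ^ m`, `A ⊆ T` bounded with `ball a (d r) ⊆ O` for
`a ∈ A`.  The radius function is
`max R₀ (sup {(t - |p x - q|) / 256 : q ∈ T, ball q t ⊆ O, t ^ (m + 1) / r ≤ σ (ball q t)})`.
-/

open MeasureTheory Set Metric Module Filter
open scoped ENNReal Topology ContDiff

set_option linter.all false

namespace Vale.Agent.P214.LOCF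

open Vale.Agent.P214.LOC

section radL

variable {E : Type*} [NormedAddCommGroup E] [InnerProductSpace ℝ E] [FiniteDimensional ℝ E]
  [MeasurableSpace E] [BorelSpace E]

/-- localised stopping set: centres and radii -/
def stopL (T : Submodule ℝ E) (σ : Measure E) (O : Set E) (m : ℕ) (r : ℝ) : Set (E × ℝ) :=
  {u | u.1 ∈ T ∧ 0 < u.2 ∧ ball u.1 u.2 ⊆ O ∧ u.2 ^ (m + 1) / r ≤ σ.real (ball u.1 u.2)}

/-- candidates for the radius at `x` -/
def radSetL (T : Submodule ℝ E) (σ : Measure E) (O : Set E) (m : ℕ) (r : ℝ) (x : E) : Set ℝ :=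
  {v | ∃ u ∈ stopL T σ O m r, v = (u.2 - dist (T.starProjection x) u.1) / 256}

/-- the radius function -/
noncomputable def radL (T : Submodule ℝ E) (σ : Measure E) (O : Set E) (m : ℕ) (r R₀ : ℝ)
    (x : E) : ℝ :=
  max R₀ (sSup (insert 0 (radSetL T σ O m r x)))

variable {T : Submodule ℝ E} {σ : Measure E} {O : Set E} {m : ℕ} {r R₀ b : ℝ}

/-- the standing hypothesis: the stopping radii are bounded -/
lemma stopL_le [IsFiniteMeasure σ] (hr : 0 < r) (hb0 : 0 ≤ b)
    (hσ : σ.real O ≤ b ^ (m + 1) * r ^ m) {u : E × ℝ} (hu : u ∈ stopL T σ O m r) :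
    u.2 ≤ b * r := by
  have h1 : u.2 ^ (m + 1) ≤ (b * r) ^ (m + 1) := by
    have h2 := hu.2.2.2.trans ((measureReal_mono hu.2.2.1).trans hσ)
    rw [div_le_iff₀ hr] at h2
    calc u.2 ^ (m + 1) ≤ b ^ (m + 1) * r ^ m * r := h2
      _ = (b * r) ^ (m + 1) := by rw [mul_pow, pow_succ r]; ring
  exact le_of_pow_le_pow_left₀ (Nat.succ_ne_zero m) (by positivity) h1

lemma radSetL_le (hs : ∀ u ∈ stopL T σ O m r, u.2 ≤ b * r) {x : E} {v : ℝ}
    (hv : v ∈ radSetL T σ O m r x) : v ≤ b * r / 256 := by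
  obtain ⟨u, hu, rfl⟩ := hv
  have h1 := hs u hu
  have h2 : 0 ≤ dist (T.starProjection x) u.1 := dist_nonneg
  linarith

lemma bddAbove_radSetL (hb : 0 ≤ b * r) (hs : ∀ u ∈ stopL T σ O m r, u.2 ≤ b * r) (x : E) :
    BddAbove (insert 0 (radSetL T σ O m r x)) := by
  refine ⟨b * r / 256, ?_⟩
  rintro u (rfl | hu)
  · positivity
  · exact radSetL_le hs hu

lemma le_radL (hb : 0 ≤ b * r) (hs : ∀ u ∈ stopL T σ O m r, u.2 ≤ b * r) {x : E} {u : E × ℝ}
    (hu : u ∈ stopL T σ O m r) :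
    (u.2 - dist (T.starProjection x) u.1) / 256 ≤ radL T σ O m r R₀ x :=
  (le_csSup (bddAbove_radSetL hb hs x) (mem_insert_of_mem _ ⟨u, hu, rfl⟩)).trans (le_max_right _ _)

lemma floor_le_radL (x : E) : R₀ ≤ radL T σ O m r R₀ x := le_max_left _ _

lemma radL_le (hb : 0 ≤ b * r) (hs : ∀ u ∈ stopL T σ O m r, u.2 ≤ b * r) (x : E) :
    radL T σ O m r R₀ x ≤ max R₀ (b * r / 256) := by
  refine max_le_max le_rfl (csSup_le (insert_nonempty _ _) ?_)
  rintro u (rfl | hu)
  · positivity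
  · exact radSetL_le hs hu

lemma radL_star (x : E) : radL T σ O m r R₀ (T.starProjection x) = radL T σ O m r R₀ x := by
  have : T.starProjection (T.starProjection x) = T.starProjection x :=
    Submodule.starProjection_eq_self_iff.2 (T.starProjection_apply_mem x)
  simp only [radL, radSetL, this]

/-- the radius function is `1/256`-Lipschitz -/
theorem radL_lip (hb : 0 ≤ b * r) (hs : ∀ u ∈ stopL T σ O m r, u.2 ≤ b * r) (hR₀ : 0 ≤ R₀)
    (x y : E) : radL T σ O m r R₀ x ≤ radL T σ O m r R₀ y + dist x y / 256 := by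
  have h0 : 0 ≤ dist x y / 256 := by positivity
  have h00 : R₀ ≤ radL T σ O m r R₀ y := floor_le_radL y
  refine max_le (by linarith) (csSup_le (insert_nonempty _ _) ?_)
  rintro v (rfl | ⟨u, hu, rfl⟩)
  · linarith
  · have h1 := le_radL (R₀ := R₀) hb hs (x := y) hu
    have h2 : dist (T.starProjection y) u.1 ≤ dist x y + dist (T.starProjection x) u.1 := by
      have h3 : dist (T.starProjection y) (T.starProjection x) ≤ dist x y := by
        rw [dist_comm x y, dist_eq_norm, dist_eq_norm, ← map_sub]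
        exact (T.starProjection.le_opNorm _).trans
          (mul_le_of_le_one_left (norm_nonneg _) T.starProjection_norm_le)
      have h4 := dist_triangle (T.starProjection y) (T.starProjection x) u.1
      linarith
    linarith

theorem lipRad_radL (hb : 0 ≤ b * r) (hs : ∀ u ∈ stopL T σ O m r, u.2 ≤ b * r) (hR₀ : 0 ≤ R₀) :
    LipRad (radL T σ O m r R₀) := by
  intro x y
  rw [abs_le]
  have h1 := radL_lip hb hs hR₀ x y
  have h2 := radL_lip hb hs hR₀ y x
  rw [dist_comm y x] at h2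
  have h3 : 0 ≤ dist x y := dist_nonneg
  constructor <;> linarith

/-- the stopping rule -/
theorem real_ball_lt_of_radL (hb : 0 ≤ b * r) (hs : ∀ u ∈ stopL T σ O m r, u.2 ≤ b * r) {a : E}
    (ha : a ∈ T) {s : ℝ} (h0 : 0 < s) (h1 : 256 * radL T σ O m r R₀ a < s) (hO : ball a s ⊆ O) :
    σ.real (ball a s) < s ^ (m + 1) / r := by
  by_contra hcon
  push Not at hcon
  have h2 := le_radL (R₀ := R₀) hb hs (x := a) (u := (a, s)) ⟨ha, h0, hO, hcon⟩
  have h3 : T.starProjection a = a := Submodule.starProjection_eq_self_iff.2 ha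
  simp only [h3, dist_self, sub_zero] at h2
  linarith

/-- a point whose radius is larger than the floor is close to a stopping ball -/
lemma exists_stopL (hR₀ : 0 < R₀) {p : E} (hp : R₀ < radL T σ O m r R₀ p) (hpT : p ∈ T) :
    ∃ u ∈ stopL T σ O m r, dist p u.1 < u.2 ∧ 128 * radL T σ O m r R₀ p < u.2 := by
  have h1 : radL T σ O m r R₀ p = sSup (insert 0 (radSetL T σ O m r p)) := by
    unfold radL at hp ⊢
    rcases max_cases R₀ (sSup (insert 0 (radSetL T σ O m r p))) with h | h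
    · rw [h.1] at hp; exact absurd hp (lt_irrefl _)
    · exact h.1
  have h2 : radL T σ O m r R₀ p / 2 < sSup (insert 0 (radSetL T σ O m r p)) := by
    rw [← h1]; linarith
  obtain ⟨v, hv, hlt⟩ := exists_lt_of_lt_csSup (insert_nonempty _ _) h2
  have h5 : T.starProjection p = p := Submodule.starProjection_eq_self_iff.2 hpT
  rcases hv with rfl | ⟨u, hu, rfl⟩
  · linarith
  · rw [h5] at hlt
    have h3 : 0 ≤ dist p u.1 := dist_nonneg
    exact ⟨u, hu, by linarith, by linarith⟩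

/-- **The sum over the active cells.** -/
theorem sum_activeL_le (hT : finrank ℝ T = m) [IsFiniteMeasure σ] (hr : 0 < r) (hb0 : 0 ≤ b)
    (hs : ∀ u ∈ stopL T σ O m r, u.2 ≤ b * r) (hR₀ : 0 < R₀)
    (P : Finset E) (hPT : ∀ p ∈ P, p ∈ T)
    (hsep : ∀ c ∈ P, ∀ d ∈ P, c ≠ d →
      (radL T σ O m r R₀ c + radL T σ O m r R₀ d) / 8 ≤ dist c d) :
    ∑ p ∈ P.filter (fun p => R₀ < radL T σ O m r R₀ p),
      radL T σ O m r R₀ p ^ m * (radL T σ O m r R₀ p / r) ≤ 48 ^ m * σ.real O := by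
  classical
  set R := radL T σ O m r R₀ with hR
  set A := P.filter (fun p => R₀ < R p) with hA
  have hRpos : ∀ p, 0 < R p := fun p => hR₀.trans_le (floor_le_radL p)
  have hst : ∀ p : E, ∃ u : E × ℝ, p ∈ A → (u ∈ stopL T σ O m r ∧ dist p u.1 < u.2 ∧
      128 * R p < u.2) := by
    intro p
    by_cases hp : p ∈ A
    · obtain ⟨u, h⟩ := exists_stopL hR₀ (Finset.mem_filter.1 hp).2 (hPT p (Finset.mem_filter.1 hp).1)
      exact ⟨u, fun _ => h⟩
    · exact ⟨0, fun h => absurd h hp⟩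
  choose w hw using hst
  set q : E → E := fun p => (w p).1 with hq
  set t : E → ℝ := fun p => (w p).2 with ht
  have hqt : ∀ p ∈ A, 0 < t p ∧ t p ≤ b * r ∧ t p ^ (m + 1) / r ≤ σ.real (ball (q p) (t p)) ∧
      ball (q p) (t p) ⊆ O ∧ dist p (q p) < t p ∧ 128 * R p < t p := fun p hp =>
    ⟨(hw p hp).1.2.1, hs _ (hw p hp).1, (hw p hp).1.2.2.2, (hw p hp).1.2.2.1, (hw p hp).2.1,
      (hw p hp).2.2⟩
  clear_value q t
  clear hw
  -- Vitali
  obtain ⟨u, huA, hdis, hcov⟩ := Vitali.exists_disjoint_subfamily_covering_enlargement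
    (fun p : E => ball (q p) (t p)) (A : Set E) t 2 (by norm_num)
    (fun p hp => (hqt p hp).1.le) (b * r) (fun p hp => (hqt p hp).2.1)
    (fun p hp => nonempty_ball.2 (hqt p hp).1)
  have hufin : u.Finite := A.finite_toSet.subset huA
  let U : Finset E := hufin.toFinset
  have hU : ∀ c, c ∈ U ↔ c ∈ u := fun c => hufin.mem_toFinset
  have hcov' : ∀ p : E, ∃ c : E, p ∈ A → (c ∈ U ∧ (ball (q p) (t p) ∩ ball (q c) (t c)).Nonempty ∧
      t p ≤ 2 * t c) := by
    intro p
    by_cases hp : p ∈ A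
    · obtain ⟨c, hc, h1, h2⟩ := hcov p hp
      exact ⟨c, fun _ => ⟨(hU c).2 hc, h1, h2⟩⟩
    · exact ⟨p, fun h => absurd h hp⟩
  choose g hg using hcov'
  -- one group
  have hgroup : ∀ c ∈ U, ∑ p ∈ A.filter (fun p => g p = c), R p ^ m * (R p / r)
      ≤ 48 ^ m * σ.real (ball (q c) (t c)) := by
    intro c hc
    have hc1 := hqt c (huA ((hU c).1 hc))
    have htc : 0 < t c := hc1.1
    -- geometry of the group
    have hgeo : ∀ p ∈ A.filter (fun p => g p = c), dist p (q c) ≤ 5 * t c ∧ R p ≤ t c / 2 := by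
      intro p hp
      obtain ⟨hpA, hpc⟩ := Finset.mem_filter.1 hp
      obtain ⟨h1, ⟨z, hz1, hz2⟩, h3⟩ := hg p hpA
      rw [hpc] at hz2 h3
      have h4 := hqt p hpA
      rw [mem_ball] at hz1 hz2
      have h5 : dist p (q c) ≤ dist p (q p) + dist (q p) z + dist z (q c) :=
        dist_triangle4 _ _ _ _
      rw [dist_comm (q p) z] at h5
      constructor
      · linarith [h4.2.2.2.2.1]
      · linarith [h4.2.2.2.2.2, hRpos p]
    -- volume counting
    have hvol : ∑ p ∈ A.filter (fun p => g p = c), (R p / 8) ^ m ≤ (6 * t c) ^ m := by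
      refine sum_pow_le_of_disjoint_sub hT _ (fun p hp => ?_) (fun p => R p / 8) (fun p _ => ?_)
        (fun x hx y hy hxy => ?_) (q c) (by linarith) (fun p hp => ?_)
      · exact hPT p (Finset.mem_filter.1 (Finset.mem_filter.1 hp).1).1
      · have := hRpos p
        positivity
      · have h1 := hsep x (Finset.mem_filter.1 (Finset.mem_filter.1 hx).1).1 y
          (Finset.mem_filter.1 (Finset.mem_filter.1 hy).1).1 hxy
        show R x / 8 + R y / 8 ≤ dist x y
        linarith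
      · obtain ⟨h1, h2⟩ := hgeo p hp
        show dist p (q c) + R p / 8 ≤ 6 * t c
        linarith
    have hvol2 : ∑ p ∈ A.filter (fun p => g p = c), R p ^ m ≤ (48 * t c) ^ m := by
      have h1 : ∑ p ∈ A.filter (fun p => g p = c), R p ^ m
          = 8 ^ m * ∑ p ∈ A.filter (fun p => g p = c), (R p / 8) ^ m := by
        rw [Finset.mul_sum]
        refine Finset.sum_congr rfl fun p _ => ?_
        rw [← mul_pow]
        congr 1
        ring
      rw [h1]
      calc 8 ^ m * ∑ p ∈ A.filter (fun p => g p = c), (R p / 8) ^ m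
          ≤ 8 ^ m * (6 * t c) ^ m := mul_le_mul_of_nonneg_left hvol (by positivity)
        _ = (48 * t c) ^ m := by rw [← mul_pow]; congr 1; ring
    calc ∑ p ∈ A.filter (fun p => g p = c), R p ^ m * (R p / r)
        ≤ ∑ p ∈ A.filter (fun p => g p = c), R p ^ m * (t c / r) := by
          refine Finset.sum_le_sum fun p hp => ?_
          obtain ⟨-, h2⟩ := hgeo p hp
          have := (hRpos p).le
          gcongr
          linarith
      _ = (∑ p ∈ A.filter (fun p => g p = c), R p ^ m) * (t c / r) := by rw [Finset.sum_mul]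
      _ ≤ (48 * t c) ^ m * (t c / r) := by gcongr
      _ = 48 ^ m * (t c ^ (m + 1) / r) := by rw [mul_pow, pow_succ]; ring
      _ ≤ 48 ^ m * σ.real (ball (q c) (t c)) := by
          refine mul_le_mul_of_nonneg_left hc1.2.2.1 (by positivity)
  -- summation over the groups
  have hsplit : ∑ p ∈ A, R p ^ m * (R p / r)
      = ∑ c ∈ U, ∑ p ∈ A.filter (fun p => g p = c), R p ^ m * (R p / r) :=
    (Finset.sum_fiberwise_of_maps_to (fun p hp => (hg p hp).1) _).symm
  rw [hsplit]
  calc ∑ c ∈ U, ∑ p ∈ A.filter (fun p => g p = c), R p ^ m * (R p / r)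
      ≤ ∑ c ∈ U, 48 ^ m * σ.real (ball (q c) (t c)) := Finset.sum_le_sum hgroup
    _ = 48 ^ m * ∑ c ∈ U, σ.real (ball (q c) (t c)) := by rw [Finset.mul_sum]
    _ = 48 ^ m * σ.real (⋃ c ∈ U, ball (q c) (t c)) := by
        rw [measureReal_biUnion_finset (fun c hc d hd hcd =>
          hdis ((hU c).1 hc) ((hU d).1 hd) hcd) (fun c _ => measurableSet_ball)]
    _ ≤ 48 ^ m * σ.real O := by
        refine mul_le_mul_of_nonneg_left (measureReal_mono ?_) (by positivity)
        exact iUnion₂_subset fun c hc => (hqt c (huA ((hU c).1 hc))).2.2.2.1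

/-- **The sum over the floor cells.** -/
theorem sum_floorL_le (hT : finrank ℝ T = m) (hr : 0 < r) (hR₀ : 0 < R₀)
    (P : Finset E) (hPT : ∀ p ∈ P, p ∈ T)
    (hsep : ∀ c ∈ P, ∀ d ∈ P, c ≠ d →
      (radL T σ O m r R₀ c + radL T σ O m r R₀ d) / 8 ≤ dist c d)
    {z : E} (hPD : ∀ p ∈ P, dist p z ≤ r) :
    ∑ p ∈ P.filter (fun p => ¬ R₀ < radL T σ O m r R₀ p),
      radL T σ O m r R₀ p ^ m * (radL T σ O m r R₀ p / r) ≤ (8 * r + R₀) ^ m * (R₀ / r) := by
  classical
  set R := radL T σ O m r R₀ with hR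
  set A := P.filter (fun p => ¬ R₀ < R p) with hA
  have hReq : ∀ p ∈ A, R p = R₀ := fun p hp =>
    le_antisymm (not_lt.1 (Finset.mem_filter.1 hp).2) (floor_le_radL p)
  have h1 : ∑ p ∈ A, (R₀ / 8) ^ m ≤ (r + R₀ / 8) ^ m := by
    refine sum_pow_le_of_disjoint_sub hT A (fun p hp => hPT p (Finset.mem_filter.1 hp).1)
      (fun _ => R₀ / 8) (fun _ _ => by positivity) (fun c hc d hd hcd => ?_) z (by positivity)
      (fun p hp => ?_)
    · have h2 := hsep c (Finset.mem_filter.1 hc).1 d (Finset.mem_filter.1 hd).1 hcd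
      have h3 := hReq c hc
      have h4 := hReq d hd
      show R₀ / 8 + R₀ / 8 ≤ dist c d
      rw [h3, h4] at h2
      linarith
    · show dist p z + R₀ / 8 ≤ r + R₀ / 8
      linarith [hPD p (Finset.mem_filter.1 hp).1]
  have h2 : ∑ p ∈ A, R₀ ^ m ≤ (8 * r + R₀) ^ m := by
    calc ∑ p ∈ A, R₀ ^ m = 8 ^ m * ∑ p ∈ A, (R₀ / 8) ^ m := by
          rw [Finset.mul_sum]
          refine Finset.sum_congr rfl fun p _ => ?_
          rw [← mul_pow]; congr 1; ring
      _ ≤ 8 ^ m * (r + R₀ / 8) ^ m := mul_le_mul_of_nonneg_left h1 (by positivity)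
      _ = (8 * r + R₀) ^ m := by rw [← mul_pow]; congr 1; ring
  calc ∑ p ∈ A, R p ^ m * (R p / r) = ∑ p ∈ A, R₀ ^ m * (R₀ / r) := by
        refine Finset.sum_congr rfl fun p hp => ?_
        rw [hReq p hp]
    _ = (∑ p ∈ A, R₀ ^ m) * (R₀ / r) := by rw [Finset.sum_mul]
    _ ≤ _ := by gcongr

end radL

end Vale.Agent.P214.LOCF
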