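import Vale.Agent.P214.LOCF.Chain

/-!
# P214, block LOCF: change of plane to the tangent plane over the centre of a cell
-/

open Set Filter Topology MeasureTheory Metric
open scoped RealInnerProductSpace ContDiff

set_option linter.all false

namespace Vale.Agent.P214.LOCF

open FV FM Skel TCH ODE

variable {E : Type*} [NormedAddCommGroup E] [InnerProductSpace ℝ E] [FiniteDimensional ℝ E]
  [MeasurableSpace E] [BorelSpace E]

variable {m Q : ℕ} {T : Submodule ℝ E} {w : E → E} {ε κ h₁ : ℝ} {z : E} {r d Eb h δ : ℝ}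
    {μ : Measure E} {P : E → E →L[ℝ] E}

lemma star_planeOf_sub (T : Submodule ℝ E) (w : E → E) (a y : E) :
    (planeOf T w a).starProjection y - za T w a = PS T w a (y - (a + w a)) := by
  unfold za PS
  rw [map_sub]

lemma za_mem (T : Submodule ℝ E) (w : E → E) (a : E) : za T w a ∈ planeOf T w a :=
  Submodule.starProjection_apply_mem _ _

namespace Dat

/-- the distances of a point to the centre of a cell -/
lemma ae_pt (H : Dat m Q T w ε κ h₁ z r d Eb h δ μ P) (hδ : δ ≤ 1 / 64) (hE1 : Eb ≤ 1) {a : E}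
    (ha : a ∈ T) (hXa : ‖XX T w z a‖ ≤ r) :
    ∀ᵐ y ∂μ, ‖XX T w z (PsiInv T w h₁ y)‖ < (1 + d) * r ∧
      ‖T.starProjection (PsiInv T w h₁ y) - a‖ ≤ 3 * r ∧
      |‖T.starProjection y - a‖ - ‖T.starProjection (PsiInv T w h₁ y) - a‖| ≤ δ * (√Eb * r) ∧
      (1 - 4 * δ) * ‖T.starProjection (PsiInv T w h₁ y) - a‖
        ≤ ‖(planeOf T w a).starProjection y - za T w a‖ ∧
      ‖(planeOf T w a).starProjection y - za T w a‖
        ≤ (1 + δ) * ((1 + 4 * δ) * ‖T.starProjection (PsiInv T w h₁ y) - a‖) ∧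
      ‖y - (planeOf T w a).starProjection y‖ ≤ 8 * r + ‖(a + w a) - PS T w a (a + w a)‖ := by
  have hr := H.pos
  have href := H.adm.ref
  have hε0 := href.eps_nonneg
  have hκ0 := href.knn
  have hδ0 : 0 ≤ δ := hε0.trans H.slope
  have h0 := H.adm.hpos
  have hall : ∀ᵐ y ∂μ, ‖XX T w z (PsiInv T w h₁ y)‖ < (1 + d) * r ∧
      ‖co T (PsiInv T w h₁ y)‖ ≤ √Eb * r ∧ ‖co T (PsiInv T w h₁ y)‖ < h₁ :=
    ae_of_ae_map H.adm.aem.aemeasurable H.all
  filter_upwards [hall] with y hy
  obtain ⟨Y, hY⟩ : ∃ Y, Y = PsiInv T w h₁ y := ⟨_, rfl⟩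
  have hyY : Psi T w h₁ Y = y := by rw [hY, H.adm.Psi_PsiInv]
  rw [← hY] at hy ⊢
  obtain ⟨y1, y2, y3⟩ := hy
  have hsq : √Eb ≤ 1 := Real.sqrt_le_one.2 hE1
  have hU : ‖co T Y‖ ≤ r := y2.trans (by nlinarith)
  have hG : ‖T.starProjection Y - a‖ ≤ 3 * r := by
    have h1 := href.norm_bx_le_XX z Y
    have h2 := href.norm_bx_le_XX z a
    rw [bx_eq, star_mem_eq H.mem] at h1 h2
    rw [star_mem_eq ha] at h2
    calc ‖T.starProjection Y - a‖ = ‖(T.starProjection Y - z) - (a - z)‖ := by congr 1; abel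
      _ ≤ ‖T.starProjection Y - z‖ + ‖a - z‖ := norm_sub_le _ _
      _ ≤ 3 * r := by nlinarith [H.dle]
  have hδ' : κ * (‖T.starProjection Y - a‖ + ‖co T Y‖) ≤ 4 * δ := by
    calc κ * (‖T.starProjection Y - a‖ + ‖co T Y‖) ≤ κ * (3 * r + r) := by gcongr
      _ = 4 * (κ * r) := by ring
      _ ≤ 4 * δ := by have := H.curv; linarith
  have h1 := norm_PS_Psi href h0 ha y3.le hδ'
  have h2 := norm_co_PS_Psi href (by have := H.slope; linarith) h0 ha y3.le hδ'
  rw [hyY] at h1 h2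
  refine ⟨y1, hG, ?_, ?_, ?_, ?_⟩
  · have h3 := href.norm_star_Psi_sub_le' h₁ Y
    rw [hyY] at h3
    have h4 := abs_norm_sub_norm_le (T.starProjection y - a) (T.starProjection Y - a)
    have e : T.starProjection y - a - (T.starProjection Y - a)
        = T.starProjection y - T.starProjection Y := by abel
    rw [e] at h4
    refine h4.trans (h3.trans ?_)
    exact mul_le_mul H.slope y2 (norm_nonneg _) hδ0
  · rw [star_planeOf_sub]; exact h1.1
  · rw [star_planeOf_sub]
    refine h1.2.trans ?_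
    have := H.slope
    gcongr
  · have e : y - (planeOf T w a).starProjection y
        = ((y - (a + w a)) - PS T w a (y - (a + w a))) + ((a + w a) - PS T w a (a + w a)) := by
      unfold PS
      rw [map_sub]; abel
    rw [e]
    refine (norm_add_le _ _).trans ?_
    gcongr
    refine h2.trans ?_
    nlinarith

/-- points of the cylinder over the tangent plane: the foot point -/
lemma incl_le {A G δ s : ℝ} (hδ0 : 0 ≤ δ) (hδ : δ ≤ 1 / 64) (hG : 0 ≤ G) (h : (1 - 4 * δ) * G ≤ A)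
    (hA : A < s) : G ≤ (1 + 8 * δ) * s ∧ G < 2 * s := by
  have hs : 0 < s := by
    have : 0 ≤ (1 - 4 * δ) * G := mul_nonneg (by linarith) hG
    linarith
  constructor
  · by_contra hc
    push_neg at hc
    have h1 : (1 - 4 * δ) * ((1 + 8 * δ) * s) ≤ (1 - 4 * δ) * G :=
      mul_le_mul_of_nonneg_left hc.le (by linarith)
    have h2 : (1 - 4 * δ) * ((1 + 8 * δ) * s) = s + (4 * δ - 32 * δ ^ 2) * s := by ring
    have h3 : 0 ≤ (4 * δ - 32 * δ ^ 2) * s := by
      refine mul_nonneg ?_ hs.le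
      nlinarith
    linarith
  · nlinarith

end Dat

end Vale.Agent.P214.LOCF
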