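import Vale.Agent.P214.LOCF.CellPlane

/-!
# P214, block LOCF: mass fraction and excess of the cells
-/

open Set Filter Topology MeasureTheory Metric
open scoped RealInnerProductSpace ContDiff

set_option linter.all false

namespace Vale.Agent.P214.LOCF

open FV FM Skel TCH ODE

variable {E : Type*} [NormedAddCommGroup E] [InnerProductSpace ℝ E] [FiniteDimensional ℝ E]
  [MeasurableSpace E] [BorelSpace E]

/-- descent of the mass fraction through the scales -/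
theorem descent (m Q : ℕ) (hm : 1 ≤ m) {η : ℝ} (hη : 0 < η) (hη1 : η ≤ om m / 4) :
    ∃ δ > 0, ∀ (T : Submodule ℝ E) (z : E) (s₁ s₀ h : ℝ) (ν : Measure E) (P : E → E →L[ℝ] E),
      0 < s₀ → 2 * s₀ ≤ s₁ → IntCyl m Q T z s₁ h (om m / 3) ν P →
      (∀ s, 2 * s₀ ≤ s → s ≤ s₁ → ν.real (cylSet T z s) ≤ (Q + 1) * om m * s ^ m →
        Skel.exc T ν P z s ≤ δ * s ^ m) → IntCyl m Q T z s₀ h η ν P := by
  have hom := om_pos m
  obtain ⟨δ, hδ, hnik⟩ := nik' (E := E) m Q hm hη hη1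
  refine ⟨δ, hδ, ?_⟩
  intro T z s₁ s₀ h ν P hs0 h2 hI hexc
  have hs1 : 0 < s₁ := by linarith
  have hmass : ∀ s, IntCyl m Q T z s h (om m / 3) ν P →
      ν.real (cylSet T z s) ≤ (Q + 1) * om m * s ^ m := by
    intro s hI'
    have h3 := (abs_le.1 hI'.mass).2
    have h4 : 0 < om m * s ^ m := by have := hI'.pos; positivity
    nlinarith
  have key : ∀ k : ℕ, 2 * s₀ ≤ s₁ / 2 ^ k → IntCyl m Q T z (s₁ / 2 ^ k) h (om m / 3) ν P := by
    intro k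
    induction k with
    | zero => intro _; simpa using hI
    | succ k ih =>
      intro hk
      have e : s₁ / 2 ^ (k + 1) = s₁ / 2 ^ k / 2 := by rw [pow_succ]; field_simp
      rw [e] at hk ⊢
      have hpos : 0 < s₁ / 2 ^ k := by positivity
      have h3 := ih (by linarith)
      have hle : s₁ / 2 ^ k ≤ s₁ := div_le_self hs1.le (one_le_pow₀ (by norm_num))
      exact IntCyl.weaken (hnik T z (s₁ / 2 ^ k) h ν P h3
        (hexc _ (by linarith) hle (hmass _ h3)) z (s₁ / 2 ^ k / 2) hI.mem (by linarith)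
        (by rw [sub_self, norm_zero]; linarith)) (by linarith)
  obtain ⟨k, hk1, hk2⟩ := exists_nat_pow_near (x := s₁ / (2 * s₀)) (y := 2)
    (by rw [le_div_iff₀ (by positivity)]; linarith) (by norm_num)
  rw [le_div_iff₀ (by positivity)] at hk1
  rw [div_lt_iff₀ (by positivity), pow_succ] at hk2
  have hp : (0:ℝ) < 2 ^ k := by positivity
  have hk3 : 2 * s₀ ≤ s₁ / 2 ^ k := by rw [le_div_iff₀ hp]; linarith
  have hk4 : s₁ / 2 ^ k ≤ 4 * s₀ := by rw [div_le_iff₀ hp]; linarith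
  have h3 := key k hk3
  have hle : s₁ / 2 ^ k ≤ s₁ := div_le_self hs1.le (one_le_pow₀ (by norm_num))
  exact hnik T z (s₁ / 2 ^ k) h ν P h3 (hexc _ hk3 hle (hmass _ h3)) z s₀ hI.mem (by linarith)
    (by rw [sub_self, norm_zero]; linarith)

variable {m Q : ℕ} {T : Submodule ℝ E} {w : E → E} {ε κ h₁ : ℝ} {z : E} {r d Eb h δ : ℝ}
    {μ : Measure E} {P : E → E →L[ℝ] E}

lemma excF_mono_s (H : Dat m Q T w ε κ h₁ z r d Eb h δ μ P) (a : E) {s s' : ℝ} (hs : s ≤ s') :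
    excF T w (fmeas T w h₁ μ) (fP T w h₁ P) a s ≤ excF T w (fmeas T w h₁ μ) (fP T w h₁ P) a s' := by
  rw [excF_eq H.adm, excF_eq H.adm]
  refine setIntegral_mono_set (Dat.integrable_eS H.adm H.fin H.cyl.meas H.cyl.proj).integrableOn
    ?_ ?_
  · refine ae_restrict_of_ae ?_
    filter_upwards [H.cyl.proj] with y hy
    obtain ⟨S, -, hP⟩ := hy
    simp only [Pi.zero_apply]
    rw [hP]; exact Dat.eS_nonneg' S _
  · refine HasSubset.Subset.eventuallyLE ?_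
    exact preimage_mono (fun y hy => ball_subset_ball hs hy)

/-- the powers of `Eb` -/
lemma rpow_data {Eb : ℝ} (m : ℕ) (hE : 0 < Eb) :
    ∃ t : ℝ, 0 < t ∧ Eb ^ (1 / (4 * ((m : ℝ) + 1))) = t ∧ Eb = t ^ (4 * (m + 1)) ∧
      √Eb = t ^ (2 * (m + 1)) ∧ Eb ^ (1 / ((m : ℝ) + 1)) = t ^ 4 := by
  have hm : (0:ℝ) < (m : ℝ) + 1 := by positivity
  refine ⟨Eb ^ (1 / (4 * ((m : ℝ) + 1))), Real.rpow_pos_of_pos hE _, rfl, ?_, ?_, ?_⟩
  · rw [← Real.rpow_natCast, ← Real.rpow_mul hE.le]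
    push_cast
    rw [one_div, inv_mul_cancel₀ (by positivity), Real.rpow_one]
  · rw [Real.sqrt_eq_rpow, ← Real.rpow_natCast, ← Real.rpow_mul hE.le]
    congr 1
    push_cast
    field_simp
    norm_num
  · rw [← Real.rpow_natCast, ← Real.rpow_mul hE.le]
    congr 1
    push_cast
    field_simp

/-- smallness conditions at the top scale -/
lemma top_num {m : ℕ} {K L t d r δc : ℝ} (hK : 10 ≤ K) (hL : 1 ≤ L) (ht : 0 < t) (ht1 : t ≤ 1)
    (htd : t ≤ d) (hr : 0 < r) (h1 : K * t ≤ 1) (h2 : L ^ 2 * K * t ≤ 1)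
    (h3 : (2 * K) ^ m * t ≤ δc) :
    t ^ (2 * (m + 1)) * r ≤ d * r / K ∧ L * t ^ 4 * r ≤ d * r / K ∧
      L * (L * t ^ 4 * r) ≤ d * r / K ∧
      t ^ (4 * (m + 1)) * r ^ m ≤ δc * (d * r / K / 2) ^ m := by
  have hK0 : 0 < K := by linarith
  have hd : 0 < d := by linarith
  have a1 : t ^ 4 ≤ t ^ 2 := pow_le_pow_of_le_one ht.le ht1 (by norm_num)
  have a2 : L * (L * t ^ 4) * K ≤ d := by
    calc L * (L * t ^ 4) * K ≤ L * (L * t ^ 2) * K := by gcongr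
      _ = (L ^ 2 * K * t) * t := by ring
      _ ≤ 1 * t := by gcongr
      _ ≤ d := by linarith
  have a3 : L * t ^ 4 ≤ L * (L * t ^ 4) := le_mul_of_one_le_left (by positivity) hL
  refine ⟨?_, ?_, ?_, ?_⟩
  · rw [le_div_iff₀ hK0]
    have : t ^ (2 * (m + 1)) ≤ t ^ 2 := pow_le_pow_of_le_one ht.le ht1 (by omega)
    calc t ^ (2 * (m + 1)) * r * K ≤ t ^ 2 * r * K := by gcongr
      _ = (K * t) * (t * r) := by ring
      _ ≤ 1 * (d * r) := by gcongr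
      _ = _ := one_mul _
  · rw [le_div_iff₀ hK0]
    calc L * t ^ 4 * r * K = (L * t ^ 4) * (r * K) := by ring
      _ ≤ (L * (L * t ^ 4)) * (r * K) := by gcongr
      _ = (L * (L * t ^ 4) * K) * r := by ring
      _ ≤ d * r := by gcongr
  · rw [le_div_iff₀ hK0]
    calc L * (L * t ^ 4 * r) * K = (L * (L * t ^ 4) * K) * r := by ring
      _ ≤ d * r := by gcongr
  · have : t ^ (4 * (m + 1)) ≤ t ^ (m + 1) := pow_le_pow_of_le_one ht.le ht1 (by omega)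
    calc t ^ (4 * (m + 1)) * r ^ m ≤ t ^ (m + 1) * r ^ m := by gcongr
      _ = t * (t ^ m * r ^ m) := by rw [pow_succ]; ring
      _ ≤ t * (d ^ m * r ^ m) := by gcongr
      _ = ((2 * K) ^ m * t) * (d * r / K / 2) ^ m := by
          rw [div_div, div_pow, mul_comm K 2, mul_pow d r]; field_simp
      _ ≤ δc * (d * r / K / 2) ^ m := by gcongr

/-- the excess at an intermediate scale -/
lemma mid_num {m : ℕ} {K L s s' r d F δn nE κ δ q M : ℝ} (hL : 1 ≤ L) (hK : 0 < K)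
    (hr : 0 < r) (hs : 0 < s) (hd : d ≤ 1) (hδn : 0 < δn) (hnE : 0 ≤ nE) (hq : 0 ≤ q)
    (hKL : 8 * (2 + L) ^ m ≤ δn * K) (hs' : s' ≤ (2 + L) * s) (hs'0 : 0 ≤ s')
    (hs1 : s' ≤ 2 * (d * r / K)) (hF : F ≤ s' ^ m * (s' / r)) (hsr : s ≤ r) (hκ0 : 0 ≤ κ)
    (hκ : κ * r ≤ δ) (hδ1 : δ ≤ 1) (hδ : 128 * nE * q * δ ≤ δn) (hM : M ≤ q * s ^ m)
    (hM0 : 0 ≤ M) :
    2 * F + 64 * nE * κ ^ 2 * s ^ 2 * M ≤ δn * s ^ m := by
  have hδ0 : 0 ≤ δ := le_trans (by positivity) hκ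
  have a1 : s' / r ≤ 2 / K := by
    rw [div_le_div_iff₀ hr hK]
    calc s' * K ≤ 2 * (d * r / K) * K := by gcongr
      _ = 2 * (d * r) := by field_simp
      _ ≤ 2 * (1 * r) := by gcongr
      _ = 2 * r := by ring
  have a2 : 2 * F ≤ δn / 2 * s ^ m := by
    calc 2 * F ≤ 2 * (s' ^ m * (s' / r)) := by gcongr
      _ ≤ 2 * (((2 + L) * s) ^ m * (2 / K)) := by gcongr
      _ = (8 * (2 + L) ^ m) / K / 2 * s ^ m := by rw [mul_pow]; ring
      _ ≤ δn / 2 * s ^ m := by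
          gcongr
          rw [div_le_iff₀ hK]; exact hKL
  have a3 : κ * s ≤ δ := (by gcongr : κ * s ≤ κ * r).trans hκ
  have a4 : 64 * nE * κ ^ 2 * s ^ 2 * M ≤ δn / 2 * s ^ m := by
    calc 64 * nE * κ ^ 2 * s ^ 2 * M = 64 * nE * (κ * s) ^ 2 * M := by ring
      _ ≤ 64 * nE * δ ^ 2 * (q * s ^ m) := by gcongr
      _ = (64 * nE * q * δ) * δ * s ^ m := by ring
      _ ≤ (64 * nE * q * δ) * 1 * s ^ m := by gcongr
      _ ≤ δn / 2 * s ^ m := by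
          gcongr
          linarith
  linarith

/-- the constants -/
lemma exists_consts (m : ℕ) {L δc δi δn nE q : ℝ} (hL : 1 ≤ L) (hδc : 0 < δc) (hδi : 0 < δi)
    (hδn : 0 < δn) (hnE : 0 ≤ nE) (hq : 0 ≤ q) :
    ∃ K t₀ δ₀ : ℝ, 10 ≤ K ∧ 8 * (2 + L) ^ m ≤ δn * K ∧ 0 < t₀ ∧ t₀ ≤ 1 ∧ K * t₀ ≤ 1 ∧
      L ^ 2 * K * t₀ ≤ 1 ∧ (2 * K) ^ m * t₀ ≤ δc ∧ 0 < δ₀ ∧ δ₀ ≤ δc ∧ δ₀ ≤ δi ∧ δ₀ ≤ 1 / 64 ∧
      128 * nE * q * δ₀ ≤ δn ∧ δ₀ ≤ t₀ ^ (4 * (m + 1)) := by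
  obtain ⟨K, hK⟩ : ∃ K : ℝ, K = max 10 (8 * (2 + L) ^ m / δn) := ⟨_, rfl⟩
  have hK10 : 10 ≤ K := hK ▸ le_max_left _ _
  have hK0 : 0 < K := by linarith
  have hKL : 8 * (2 + L) ^ m ≤ δn * K := by
    have : 8 * (2 + L) ^ m / δn ≤ K := hK ▸ le_max_right _ _
    rw [div_le_iff₀ hδn] at this
    linarith
  have hL2 : 1 ≤ L ^ 2 := one_le_pow₀ hL
  obtain ⟨t₀, ht⟩ : ∃ t₀ : ℝ, t₀ = min (1 / (L ^ 2 * K)) (δc / (2 * K) ^ m) := ⟨_, rfl⟩
  have ht0 : 0 < t₀ := by rw [ht]; positivity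
  have h1 : L ^ 2 * K * t₀ ≤ 1 := by
    have : t₀ ≤ 1 / (L ^ 2 * K) := ht ▸ min_le_left _ _
    rw [le_div_iff₀ (by positivity)] at this
    linarith
  have h2 : K * t₀ ≤ 1 := by
    refine le_trans ?_ h1
    have : 1 * (K * t₀) ≤ L ^ 2 * (K * t₀) := by gcongr
    linarith
  have h3 : t₀ ≤ 1 := by nlinarith
  have h4 : (2 * K) ^ m * t₀ ≤ δc := by
    have : t₀ ≤ δc / (2 * K) ^ m := ht ▸ min_le_right _ _
    rw [le_div_iff₀ (by positivity)] at this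
    linarith
  refine ⟨K, t₀, min (min δc δi) (min (1 / 64) (min (δn / (128 * nE * q + 1))
    (t₀ ^ (4 * (m + 1))))), hK10, hKL, ht0, h3, h2, h1, h4, by positivity,
    (min_le_left _ _).trans (min_le_left _ _), (min_le_left _ _).trans (min_le_right _ _),
    (min_le_right _ _).trans (min_le_left _ _), ?_,
    (min_le_right _ _).trans ((min_le_right _ _).trans (min_le_right _ _))⟩
  have h5 : 0 ≤ 128 * nE * q := by positivity
  calc 128 * nE * q * _ ≤ 128 * nE * q * (δn / (128 * nE * q + 1)) := by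
        gcongr
        exact (min_le_right _ _).trans ((min_le_right _ _).trans (min_le_left _ _))
    _ ≤ (128 * nE * q + 1) * (δn / (128 * nE * q + 1)) := by
        have : 0 ≤ δn / (128 * nE * q + 1) := by positivity
        nlinarith
    _ = δn := by field_simp

lemma max_num {L R s s₁ X : ℝ} (hL : 1 ≤ L) (hR : 0 < R) (h16 : 16 * R ≤ X) (hLX : L * X ≤ s₁)
    (hs : s ≤ s₁) (hs1 : 2 * (8 * R) ≤ s) :
    max (2 * s) (L * R) ≤ 2 * s₁ ∧ max (2 * s) (L * R) ≤ (2 + L) * s := by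
  have h1 : L * (16 * R) ≤ L * X := by gcongr
  have h2 : L * R ≤ L * s := by gcongr; linarith
  have h3 : 0 < L * R := by positivity
  constructor
  · exact max_le (by linarith) (by linarith)
  · refine max_le ?_ ?_
    · nlinarith
    · nlinarith

lemma ball_sub_adB (hw : Ref T w ε κ) (hε : ε ≤ 1 / 64) {a : E} {s' s₁ : ℝ}
    (hXa : ‖XX T w z a‖ ≤ r) (hs' : s' ≤ 2 * s₁) (hs₁ : 10 * s₁ ≤ d * r) (hs₁0 : 0 < s₁) :
    ball a s' ⊆ adB T w z ((1 + d) * r) := by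
  intro x hx
  rw [mem_ball, dist_eq_norm] at hx
  have hε0 := hw.eps_nonneg
  have h1 := norm_XX_add_le hw z x a
  have h2 : ‖T.starProjection x - T.starProjection a‖ ≤ ‖x - a‖ := by
    rw [← map_sub]; exact norm_star_le T _
  have h3 : (1 + ε) * ‖T.starProjection x - T.starProjection a‖ ≤ 65 / 64 * (2 * s₁) := by
    gcongr
    · linarith
    · exact h2.trans (hx.le.trans hs')
  show ‖XX T w z x‖ < _
  linarith

/-- the excess of a cell at the intermediate scales -/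
lemma exc_cell (H : Dat m Q T w ε κ h₁ z r d Eb h δ μ P) (hδ64 : δ ≤ 1 / 64) (hE1 : Eb ≤ 1)
    {a : E} (ha : a ∈ T) (hXa : ‖XX T w z a‖ ≤ r) {L R K s₁ X δn q : ℝ} (hL : 1 ≤ L) (hR : 0 < R)
    (h16 : 16 * R ≤ X) (hLX : L * X ≤ s₁) (hK0 : 0 < K) (hs₁ : s₁ = d * r / K)
    (hs₁d : 10 * s₁ ≤ d * r) (hδn : 0 < δn) (hq0 : 0 ≤ q) (hKL : 8 * (2 + L) ^ m ≤ δn * K)
    (hnum : 128 * Module.finrank ℝ E * q * δ ≤ δn)
    (hstop : ∀ s, L * R ≤ s → ball a s ⊆ adB T w z ((1 + d) * r) →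
      excF T w (fmeas T w h₁ μ) (fP T w h₁ P) a s ≤ s ^ m * (s / r)) {s : ℝ}
    (hs1 : 2 * (8 * R) ≤ s) (hs2 : s ≤ s₁)
    (hM : μ.real (cylSet (planeOf T w a) (za T w a) s) ≤ q * s ^ m) :
    Skel.exc (planeOf T w a) μ P (za T w a) s ≤ δn * s ^ m := by
  have hr := H.pos
  have hd := H.dpos
  have hs₁0 : 0 < s₁ := by rw [hs₁]; positivity
  have hs0 : 0 < s := by linarith
  have hdr : d * r ≤ r := mul_le_of_le_one_left hr.le H.dle
  have h1 := H.exc_planeOf_le hδ64 hE1 ha hXa s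
  obtain ⟨hs'1, hs'2⟩ := max_num hL hR h16 hLX hs2 hs1
  obtain ⟨s', hs'⟩ : ∃ s' : ℝ, s' = max (2 * s) (L * R) := ⟨_, rfl⟩
  have h2s : 2 * s ≤ s' := hs' ▸ le_max_left _ _
  have hLR : L * R ≤ s' := hs' ▸ le_max_right _ _
  rw [← hs'] at hs'1 hs'2
  have hsub := ball_sub_adB (z := z) H.adm.ref (H.slope.trans hδ64) hXa hs'1 hs₁d hs₁0
  have h2 := (excF_mono_s H a h2s).trans (hstop s' hLR hsub)
  refine h1.trans ?_
  exact mid_num (q := q) hL hK0 hr hs0 H.dle hδn (Nat.cast_nonneg _) hq0 hKL hs'2 (by linarith)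
    (by rw [← hs₁]; exact hs'1) h2 (by linarith) H.adm.ref.knn H.curv (by linarith) hnum hM
    measureReal_nonneg

/-- the excess of a cell at the last scale -/
lemma exc_last (H : Dat m Q T w ε κ h₁ z r d Eb h δ μ P) (hδ64 : δ ≤ 1 / 64) (hE1 : Eb ≤ 1)
    {a : E} (ha : a ∈ T) (hXa : ‖XX T w z a‖ ≤ r) {R q : ℝ} (hR : 0 < R) (hq0 : 0 ≤ q)
    (hM : μ.real (cylSet (planeOf T w a) (za T w a) (8 * R)) ≤ q * (8 ^ m * R ^ m)) :
    Skel.exc (planeOf T w a) μ P (za T w a) (8 * R) ≤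
      (2 + 4096 * Module.finrank ℝ E * q * 8 ^ m) *
        (excF T w (fmeas T w h₁ μ) (fP T w h₁ P) a (16 * R) + κ ^ 2 * R ^ 2 * R ^ m) := by
  have hκ0 := H.adm.ref.knn
  have h1 := H.exc_planeOf_le hδ64 hE1 ha hXa (8 * R)
  have hF0 : 0 ≤ excF T w (fmeas T w h₁ μ) (fP T w h₁ P) a (16 * R) := by
    rw [excF_eq H.adm]
    refine integral_nonneg_of_ae (ae_restrict_of_ae ?_)
    filter_upwards [H.cyl.proj] with y hy
    obtain ⟨S, -, hP⟩ := hy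
    simp only [Pi.zero_apply]
    rw [hP]; exact Dat.eS_nonneg' S _
  obtain ⟨nE, hnE⟩ : ∃ nE : ℝ, nE = (Module.finrank ℝ E : ℝ) := ⟨_, rfl⟩
  have hnE0 : 0 ≤ nE := by rw [hnE]; exact Nat.cast_nonneg _
  obtain ⟨F, hF⟩ : ∃ F : ℝ, F = excF T w (fmeas T w h₁ μ) (fP T w h₁ P) a (16 * R) := ⟨_, rfl⟩
  have e16 : 2 * (8 * R) = 16 * R := by ring
  rw [e16] at h1
  rw [← hnE, ← hF] at h1 ⊢
  rw [← hF] at hF0
  refine h1.trans ?_
  have h4 : 64 * nE * κ ^ 2 * (8 * R) ^ 2 * μ.real (cylSet (planeOf T w a) (za T w a) (8 * R))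
      ≤ 64 * nE * κ ^ 2 * (8 * R) ^ 2 * (q * (8 ^ m * R ^ m)) := by gcongr
  have h5 : 0 ≤ 4096 * nE * q * 8 ^ m * F := by positivity
  have h6 : 0 ≤ 2 * (κ ^ 2 * R ^ 2 * R ^ m) := by positivity
  have e1 : 64 * nE * κ ^ 2 * (8 * R) ^ 2 * (q * (8 ^ m * R ^ m))
      = 4096 * nE * q * 8 ^ m * (κ ^ 2 * R ^ 2 * R ^ m) := by ring
  have e2 : (2 + 4096 * nE * q * 8 ^ m) * (F + κ ^ 2 * R ^ 2 * R ^ m)
      = 2 * F + 2 * (κ ^ 2 * R ^ 2 * R ^ m) + 4096 * nE * q * 8 ^ m * F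
        + 4096 * nE * q * 8 ^ m * (κ ^ 2 * R ^ 2 * R ^ m) := by ring
  linarith

/-- **[C]** mass fraction and excess of the cells -/
theorem cellInt (E : Type*) [NormedAddCommGroup E] [InnerProductSpace ℝ E] [FiniteDimensional ℝ E]
    [MeasurableSpace E] [BorelSpace E] (m Q : ℕ) (hm : 1 ≤ m) : CellInt E m Q := by
  intro L η hL hη
  have hom := om_pos m
  obtain ⟨η', hη'⟩ : ∃ η' : ℝ, η' = min η (om m / 4) := ⟨_, rfl⟩
  have hη'0 : 0 < η' := by rw [hη']; positivity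
  have hη'1 : η' ≤ om m / 4 := hη' ▸ min_le_right _ _
  have hη'2 : η' ≤ η := hη' ▸ min_le_left _ _
  obtain ⟨δc, hδc, hchain⟩ := chain (E := E) m Q hm
  obtain ⟨δi, hδi, -, hplane⟩ := intCyl_planeOf (E := E) m Q
  obtain ⟨δn, hδn, hdesc⟩ := descent (E := E) m Q hm hη'0 hη'1
  obtain ⟨nE, hnE⟩ : ∃ nE : ℝ, nE = (Module.finrank ℝ E : ℝ) := ⟨_, rfl⟩
  have hnE0 : 0 ≤ nE := by rw [hnE]; exact Nat.cast_nonneg _
  obtain ⟨q, hq⟩ : ∃ q : ℝ, q = (Q + 1) * om m := ⟨_, rfl⟩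
  have hq0 : 0 ≤ q := by rw [hq]; positivity
  obtain ⟨K, t₀, δ₀, hK10, hKL, ht₀, ht₀1, hKt, hLKt, hKmt, hδ₀, hδ₀c, hδ₀i, hδ₀64, hδ₀n, hδ₀t⟩ :=
    exists_consts m hL hδc hδi hδn hnE0 hq0
  refine ⟨2 + 4096 * nE * q * 8 ^ m, 1 / (4 * ((m : ℝ) + 1)), δ₀, by positivity, by positivity,
    hδ₀, ?_⟩
  intro T w ε κ h₁ z r d Eb h δ μ P hδ hEb hEd H a R ha hXa hR hRL hstop
  have hr := H.pos
  have hK0 : 0 < K := by linarith
  have hδ64 : δ ≤ 1 / 64 := hδ.trans hδ₀64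
  have hE1 : Eb ≤ 1 := hEb.trans (hδ₀64.trans (by norm_num))
  obtain ⟨t, ht, htc, htE, hts, ht4⟩ := rpow_data m H.epos
  rw [htc] at hEd
  rw [ht4] at hRL
  have htt : t ≤ t₀ := by
    have h1 : t ^ (4 * (m + 1)) ≤ t₀ ^ (4 * (m + 1)) := by rw [← htE]; exact hEb.trans hδ₀t
    exact le_of_pow_le_pow_left₀ (by omega) ht₀.le h1
  obtain ⟨n1, n2, n3, n4⟩ := top_num (m := m) hK10 hL ht (htt.trans ht₀1) hEd hr
    ((by gcongr : K * t ≤ K * t₀).trans hKt)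
    ((by gcongr : L ^ 2 * K * t ≤ L ^ 2 * K * t₀).trans hLKt)
    ((by gcongr : (2 * K) ^ m * t ≤ (2 * K) ^ m * t₀).trans hKmt)
  obtain ⟨s₁, hs₁⟩ : ∃ s₁ : ℝ, s₁ = d * r / K := ⟨_, rfl⟩
  rw [← hs₁] at n1 n2 n3 n4
  have hd := H.dpos
  have hs₁0 : 0 < s₁ := by rw [hs₁]; positivity
  have hs₁d : 10 * s₁ ≤ d * r := by
    rw [hs₁]
    calc 10 * (d * r / K) ≤ K * (d * r / K) := by gcongr
      _ = d * r := by field_simp
  have hRs : 16 * R ≤ s₁ := hRL.trans n2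
  have hIc : ∀ ρ, s₁ / 2 ≤ ρ → ρ ≤ 3 / 2 * s₁ → IntCyl m Q T a ρ h (om m / 4) μ P := by
    intro ρ hρ1 hρ2
    refine hchain T w ε κ h₁ z r d Eb h δ μ P (hδ.trans hδ₀c) H a ρ ha (by linarith)
      (by linarith) ?_
    rw [htE]
    refine n4.trans ?_
    gcongr
  have hI1 := hplane T w ε κ h₁ z r d Eb h δ μ P (hδ.trans hδ₀i) H hE1 a s₁ ha hXa hs₁0 hs₁d
    (by rw [hts]; exact n1) hIc
  have hδn' : 128 * Module.finrank ℝ E * q * δ ≤ δn := by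
    rw [← hnE]
    exact (by gcongr : 128 * nE * q * δ ≤ 128 * nE * q * δ₀).trans hδ₀n
  have hI0 := hdesc (planeOf T w a) (za T w a) s₁ (8 * R) _ μ P (by positivity) (by linarith) hI1
    (fun s hs1 hs2 hM => exc_cell H hδ64 hE1 ha hXa hL hR hRL n3 hK0 hs₁ hs₁d hδn hq0 hKL hδn'
      hstop hs1 hs2 (by rw [hq]; exact hM))
  refine ⟨by linarith, ⟨_, IntCyl.weaken hI0 hη'2⟩, ?_⟩
  rw [hnE]
  refine exc_last H hδ64 hE1 ha hXa hR hq0 ?_
  have h2 := (abs_le.1 hI0.mass).2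
  rw [mul_pow] at h2
  have h3 : 0 < om m * (8 ^ m * R ^ m) := by positivity
  have h4 : η' * (8 ^ m * R ^ m) ≤ om m / 4 * (8 ^ m * R ^ m) := by gcongr
  have e : q * (8 ^ m * R ^ m) = Q * om m * (8 ^ m * R ^ m) + om m * (8 ^ m * R ^ m) := by
    rw [hq]; ring
  rw [e]
  linarith

end Vale.Agent.P214.LOCF
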