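import Vale.Agent.P214.LOCF.CellGeo

/-!
# P214, block LOCF: excess and mass fraction over the tangent plane of a cell
-/

open Set Filter Topology MeasureTheory Metric
open scoped RealInnerProductSpace ContDiff

set_option linter.all false

namespace Vale.Agent.P214.LOCF

open FV FM Skel TCH ODE

variable {E : Type*} [NormedAddCommGroup E] [InnerProductSpace ℝ E] [FiniteDimensional ℝ E]
  [MeasurableSpace E] [BorelSpace E]

variable {m Q : ℕ} {T : Submodule ℝ E} {w : E → E} {ε κ h₁ : ℝ} {z : E} {r d Eb h δ : ℝ}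
    {μ : Measure E} {P : E → E →L[ℝ] E}

lemma emb_PsiInv (hA : Adm T w ε κ h₁) : MeasurableEmbedding (PsiInv T w h₁) := by
  have h0 : PsiInv T w h₁ = hA.hom.symm := funext hA.PsiInv_eq
  rw [h0]
  exact hA.hom.symm.measurableEmbedding

lemma setInt_fm (hA : Adm T w ε κ h₁) (μ : Measure E) (S : Set E) (g : E → ℝ) :
    ∫ Y in S, g Y ∂(fmeas T w h₁ μ) = ∫ y in PsiInv T w h₁ ⁻¹' S, g (PsiInv T w h₁ y) ∂μ := by
  unfold fmeas
  exact (emb_PsiInv hA).setIntegral_map g S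

lemma excF_eq (hA : Adm T w ε κ h₁) (μ : Measure E) (P : E → E →L[ℝ] E) (a : E) (s : ℝ) :
    excF T w (fmeas T w h₁ μ) (fP T w h₁ P) a s
      = ∫ y in PsiInv T w h₁ ⁻¹' (cylSet T a s), eS T w (PsiInv T w h₁ y) (P y) ∂μ := by
  unfold excF
  rw [setInt_fm hA μ (cylSet T a s) (fun Y => eS T w Y (fP T w h₁ P Y))]
  simp only [fP, hA.Psi_PsiInv]

namespace Dat

/-- **Excess over the tangent plane of a cell.** -/
lemma exc_planeOf_le (H : Dat m Q T w ε κ h₁ z r d Eb h δ μ P) (hδ : δ ≤ 1 / 64) (hE1 : Eb ≤ 1)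
    {a : E} (ha : a ∈ T) (hXa : ‖XX T w z a‖ ≤ r) (s : ℝ) :
    Skel.exc (planeOf T w a) μ P (za T w a) s
      ≤ 2 * excF T w (fmeas T w h₁ μ) (fP T w h₁ P) a (2 * s)
        + 64 * Module.finrank ℝ E * κ ^ 2 * s ^ 2
          * μ.real (cylSet (planeOf T w a) (za T w a) s) := by
  haveI := H.fin
  have href := H.adm.ref
  have hκ0 := href.knn
  have hδ0 : 0 ≤ δ := href.eps_nonneg.trans H.slope
  have hi := integrable_eS H.adm H.fin H.cyl.meas H.cyl.proj
  have hmeas : MeasurableSet (cylSet (planeOf T w a) (za T w a) s) :=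
    measurableSet_cylSet _ _ _
  have hpt := H.ae_pt hδ hE1 ha hXa
  have hrel : ∀ᵐ y ∂μ, y ∈ cylSet (planeOf T w a) (za T w a) s →
      ‖T.starProjection (PsiInv T w h₁ y) - a‖ < 2 * s := by
    filter_upwards [hpt] with y hy hyc
    have hyc' : (planeOf T w a).starProjection y ∈ ball (za T w a) s := hyc
    rw [mem_ball, dist_eq_norm] at hyc'
    exact (incl_le hδ0 hδ (norm_nonneg _) hy.2.2.2.1 hyc').2
  have hTa : Integrable (fun y => FV.tilt (planeOf T w a) (P y)) μ := by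
    refine Integrable.mono' (integrable_const (Module.finrank ℝ E : ℝ)) ?_ ?_
    · have h3 : Continuous fun p : E →L[ℝ] E =>
          tr (((ContinuousLinearMap.id ℝ E) - (planeOf T w a).starProjection).comp p) :=
        continuous_tr.comp (by fun_prop)
      exact h3.comp_aestronglyMeasurable H.cyl.meas
    · filter_upwards [H.cyl.proj] with y hy
      obtain ⟨S, -, hS⟩ := hy
      rw [hS, Real.norm_of_nonneg (FV.tilt_nonneg S _)]
      refine (FV.tilt_le S _).trans ?_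
      exact_mod_cast Submodule.finrank_le S
  have h1 : Skel.exc (planeOf T w a) μ P (za T w a) s
      ≤ ∫ y in cylSet (planeOf T w a) (za T w a) s,
        (2 * eS T w (PsiInv T w h₁ y) (P y) + Module.finrank ℝ E * (4 * κ * (2 * s)) ^ 2) ∂μ := by
    unfold Skel.exc
    refine setIntegral_mono_on_ae hTa.integrableOn
      ((hi.const_mul 2).add (integrable_const _)).integrableOn hmeas ?_
    filter_upwards [H.cyl.proj, hrel] with y hy hr2 hyc
    obtain ⟨S, hS, hP⟩ := hy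
    rw [hP]
    refine (tilt_planeOf_le href (hS.trans H.cyl.dimT.symm) a (PsiInv T w h₁ y)).trans ?_
    have h4 := hr2 hyc
    rw [norm_sub_rev] at h4
    gcongr
  refine h1.trans ?_
  rw [integral_add (hi.const_mul 2).integrableOn (integrable_const _), integral_const_mul,
    setIntegral_const, smul_eq_mul, excF_eq H.adm]
  have h2 : ∫ y in cylSet (planeOf T w a) (za T w a) s, eS T w (PsiInv T w h₁ y) (P y) ∂μ
      ≤ ∫ y in PsiInv T w h₁ ⁻¹' (cylSet T a (2 * s)), eS T w (PsiInv T w h₁ y) (P y) ∂μ := by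
    refine setIntegral_mono_set hi.integrableOn ?_ ?_
    · refine ae_restrict_of_ae ?_
      filter_upwards [H.cyl.proj] with y hy
      obtain ⟨S, -, hP⟩ := hy
      simp only [Pi.zero_apply]
      rw [hP]; exact eS_nonneg' S _
    · filter_upwards [hrel] with y hy hyc
      show T.starProjection (PsiInv T w h₁ y) ∈ ball a (2 * s)
      rw [mem_ball, dist_eq_norm]
      exact hy hyc
  have e : Module.finrank ℝ E * (4 * κ * (2 * s)) ^ 2
      = 64 * Module.finrank ℝ E * κ ^ 2 * s ^ 2 := by ring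
  rw [e]
  nlinarith

end Dat

/-- numbers for the sandwich -/
lemma sandwich_num {m : ℕ} {θ q : ℝ} (hθ : 0 ≤ θ) (hm : m * θ ≤ 1 / 2) (hq : 0 ≤ q) (hθ1 : θ ≤ 1 / 2)
    (hqm : 24 * (q + 1) * (m * θ) ≤ 1) :
    (q + 1 / 4) * (1 + θ) ^ m ≤ q + 1 / 3 ∧ q - 1 / 3 ≤ (q - 1 / 4) * (1 - θ) ^ m := by
  have h1 : 1 - m * θ ≤ (1 - θ) ^ m := by
    have := one_add_mul_le_pow (a := -θ) (by linarith) m
    calc 1 - m * θ = 1 + m * -θ := by ring
      _ ≤ (1 + -θ) ^ m := this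
      _ = _ := by rw [← sub_eq_add_neg]
  have h2 : (1 - θ) ^ m ≤ 1 := pow_le_one₀ (by linarith) (by linarith)
  have h3 : (1 + θ) ^ m * (1 - θ) ^ m ≤ 1 := by
    rw [← mul_pow]
    exact pow_le_one₀ (by nlinarith) (by nlinarith)
  have hmθ : 0 ≤ m * θ := by positivity
  have h4 : (1 + θ) ^ m ≤ 1 + 2 * (m * θ) := by
    have h5 : (1 + θ) ^ m * (1 - m * θ) ≤ 1 :=
      (mul_le_mul_of_nonneg_left h1 (by positivity)).trans h3
    by_contra hc
    push_neg at hc
    have h6 : (1 + 2 * (m * θ)) * (1 - m * θ) < (1 + θ) ^ m * (1 - m * θ) :=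
      mul_lt_mul_of_pos_right hc (by linarith)
    nlinarith
  constructor
  · calc (q + 1 / 4) * (1 + θ) ^ m ≤ (q + 1 / 4) * (1 + 2 * (m * θ)) := by gcongr
      _ ≤ q + 1 / 3 := by nlinarith
  · rcases le_or_gt (1 / 4) q with h | h
    · calc q - 1 / 3 ≤ (q - 1 / 4) * (1 - m * θ) := by nlinarith
        _ ≤ _ := by
          have : 0 ≤ q - 1 / 4 := by linarith
          gcongr
    · have : (1 / 4 - q) * (1 - θ) ^ m ≤ 1 / 4 - q := mul_le_of_le_one_right (by linarith) h2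
      nlinarith

lemma sandwich_mass {m : ℕ} {θ q o s M M1 M2 : ℝ} (hθ : 0 ≤ θ) (hm : m * θ ≤ 1 / 2) (hq : 0 ≤ q)
    (hθ1 : θ ≤ 1 / 2) (hqm : 24 * (q + 1) * (m * θ) ≤ 1) (ho : 0 ≤ o) (hs : 0 < s)
    (hM1 : M ≤ M1) (hM2 : M2 ≤ M)
    (hI1 : |M1 - q * o * ((1 + θ) * s) ^ m| ≤ o / 4 * ((1 + θ) * s) ^ m)
    (hI2 : |M2 - q * o * ((1 - θ) * s) ^ m| ≤ o / 4 * ((1 - θ) * s) ^ m) :
    |M - q * o * s ^ m| ≤ o / 3 * s ^ m := by
  have hnum := sandwich_num hθ hm hq hθ1 hqm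
  have hsm : 0 ≤ o * s ^ m := by positivity
  have h1 := (abs_le.1 hI1).2
  have h2 := (abs_le.1 hI2).1
  rw [mul_pow] at h1 h2
  have h3 : (q - 1 / 3) * (o * s ^ m) ≤ ((q - 1 / 4) * (1 - θ) ^ m) * (o * s ^ m) :=
    mul_le_mul_of_nonneg_right hnum.2 hsm
  have h4 : ((q + 1 / 4) * (1 + θ) ^ m) * (o * s ^ m) ≤ (q + 1 / 3) * (o * s ^ m) :=
    mul_le_mul_of_nonneg_right hnum.1 hsm
  have e1 : q * o * ((1 + θ) ^ m * s ^ m) + o / 4 * ((1 + θ) ^ m * s ^ m)
      = ((q + 1 / 4) * (1 + θ) ^ m) * (o * s ^ m) := by ring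
  have e2 : q * o * ((1 - θ) ^ m * s ^ m) - o / 4 * ((1 - θ) ^ m * s ^ m)
      = ((q - 1 / 4) * (1 - θ) ^ m) * (o * s ^ m) := by ring
  rw [abs_le]
  constructor
  · have e3 : (q - 1 / 3) * (o * s ^ m) = q * o * s ^ m - o / 3 * s ^ m := by ring
    linarith
  · have e3 : (q + 1 / 3) * (o * s ^ m) = q * o * s ^ m + o / 3 * s ^ m := by ring
    linarith

lemma theta_num {δ K q m : ℝ} (hδ0 : 0 ≤ δ) (hq : 0 ≤ q) (hm : 0 ≤ m)
    (hδK : δ * (480 * (q + 1) * (m + 1)) ≤ 1) :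
    m * (20 * δ) ≤ 1 / 2 ∧ 24 * (q + 1) * (m * (20 * δ)) ≤ 1 := by
  have h1 : 24 * (q + 1) * (m * (20 * δ)) ≤ δ * (480 * (q + 1) * (m + 1)) := by
    have : 0 ≤ δ * (480 * (q + 1)) := by positivity
    nlinarith
  have h2 : 24 * (m * (20 * δ)) ≤ 24 * (q + 1) * (m * (20 * δ)) := by
    have : 0 ≤ 24 * q * (m * (20 * δ)) := by positivity
    nlinarith
  constructor <;> linarith

/-- **Mass fraction over the tangent plane of a cell, at the top scale.** -/
theorem intCyl_planeOf (m Q : ℕ) : ∃ δ₀ > 0, δ₀ ≤ 1 / 64 ∧ ∀ (T : Submodule ℝ E)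
    (w : E → E) (ε κ h₁ : ℝ) (z : E) (r d Eb h δ : ℝ) (μ : Measure E) (P : E → E →L[ℝ] E),
    δ ≤ δ₀ → Dat m Q T w ε κ h₁ z r d Eb h δ μ P → Eb ≤ 1 → ∀ (a : E) (s : ℝ), a ∈ T →
    ‖XX T w z a‖ ≤ r → 0 < s → 10 * s ≤ d * r → √Eb * r ≤ s →
    (∀ ρ, s / 2 ≤ ρ → ρ ≤ 3 / 2 * s → IntCyl m Q T a ρ h (om m / 4) μ P) →
    IntCyl m Q (planeOf T w a) (za T w a) s (8 * r + ‖(a + w a) - PS T w a (a + w a)‖)
      (om m / 3) μ P := by
  obtain ⟨K, hK⟩ : ∃ K : ℝ, K = 480 * (Q + 1) * (m + 1) := ⟨_, rfl⟩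
  have hKp : 0 < K := by rw [hK]; positivity
  have hK480 : 480 ≤ K := by
    have h1 : (0:ℝ) ≤ Q := Nat.cast_nonneg _
    have h2 : (0:ℝ) ≤ m := Nat.cast_nonneg _
    rw [hK]; nlinarith [mul_nonneg h1 h2]
  refine ⟨1 / K, by positivity, one_div_le_one_div_of_le (by norm_num) (by linarith), ?_⟩
  intro T w ε κ h₁ z r d Eb h δ μ P hδK H hE1 a s ha hXa hs hsd hEs hchain
  haveI := H.fin
  have hδ : δ ≤ 1 / 480 := hδK.trans (one_div_le_one_div_of_le (by norm_num) (by linarith))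
  have hr := H.pos
  have hom := om_pos m
  have href := H.adm.ref
  have hε0 := href.eps_nonneg
  have hδ0 : 0 ≤ δ := hε0.trans H.slope
  have hpt := H.ae_pt (by linarith) hE1 ha hXa
  have hδs : δ * (√Eb * r) ≤ δ * s := by gcongr
  obtain ⟨θ, hθ⟩ : ∃ θ : ℝ, θ = 20 * δ := ⟨_, rfl⟩
  have hθ0 : 0 ≤ θ := by rw [hθ]; positivity
  have hθ1 : θ ≤ 1 / 2 := by rw [hθ]; linarith
  have hs2 := hs.le
  -- inclusions
  have hin1 : ∀ᵐ y ∂μ, y ∈ cylSet (planeOf T w a) (za T w a) s → y ∈ cylSet T a ((1 + θ) * s) := by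
    filter_upwards [hpt] with y hy hyc
    have hyc' : (planeOf T w a).starProjection y ∈ ball (za T w a) s := hyc
    rw [mem_ball, dist_eq_norm] at hyc'
    show T.starProjection y ∈ ball a ((1 + θ) * s)
    rw [mem_ball, dist_eq_norm]
    have h1 := (Dat.incl_le hδ0 (by linarith) (norm_nonneg _) hy.2.2.2.1 hyc').1
    have h2 := (abs_le.1 hy.2.2.1).2
    rcases hδ0.eq_or_lt with h3 | h3
    · rw [← h3] at h1 h2 hy
      have h4 := hy.2.2.2.1
      rw [hθ, ← h3]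
      nlinarith
    · rw [hθ]
      nlinarith [mul_pos h3 hs]
  have hin2 : ∀ᵐ y ∂μ, y ∈ cylSet T a ((1 - θ) * s) → y ∈ cylSet (planeOf T w a) (za T w a) s := by
    filter_upwards [hpt] with y hy hyc
    have hyc' : T.starProjection y ∈ ball a ((1 - θ) * s) := hyc
    rw [mem_ball, dist_eq_norm] at hyc'
    show (planeOf T w a).starProjection y ∈ ball (za T w a) s
    rw [mem_ball, dist_eq_norm]
    have h2 := (abs_le.1 hy.2.2.1).1
    have h5 := hy.2.2.2.2.1
    refine h5.trans_lt ?_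
    have h6 : ‖T.starProjection (PsiInv T w h₁ y) - a‖ < (1 - θ) * s + δ * s := by linarith
    calc (1 + δ) * ((1 + 4 * δ) * ‖T.starProjection (PsiInv T w h₁ y) - a‖)
        < (1 + δ) * ((1 + 4 * δ) * ((1 - θ) * s + δ * s)) := by gcongr
      _ = ((1 + δ) * (1 + 4 * δ) * (1 - 19 * δ)) * s := by rw [hθ]; ring
      _ ≤ 1 * s := by
          gcongr
          nlinarith [mul_nonneg hδ0 hδ0, mul_nonneg (mul_nonneg hδ0 hδ0) hδ0]
      _ = s := one_mul s
  -- stationarity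
  have hball : ball a (2 * s) ⊆ adB T w z ((1 + d / 2) * r) := by
    intro x hx
    rw [mem_ball, dist_eq_norm] at hx
    have h1 := norm_XX_add_le H.adm.ref z x a
    have h2 : ‖T.starProjection x - T.starProjection a‖ ≤ ‖x - a‖ := by
      rw [← map_sub]; exact norm_star_le T _
    have h3 : (1 + ε) * ‖T.starProjection x - T.starProjection a‖ ≤ 65 / 64 * (2 * s) := by
      gcongr
      · have := H.slope; linarith
      · exact h2.trans hx.le
    show ‖XX T w z x‖ < _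
    linarith
  have hC2 : CylStat m T (ball a (2 * s)) h μ P := CylStat.mono H.cyl isOpen_ball hball
  have hC : CylStat m (planeOf T w a) (ball (za T w a) s)
      (8 * r + ‖(a + w a) - PS T w a (a + w a)‖) μ P := by
    refine cylStat_of_incl hC2 ((href.finrank_planeOf a).trans H.cyl.dimT) (R' := 3 / 2 * s)
      (by linarith) ?_ ?_
    · filter_upwards [hin1] with y hy hyc
      have h1 : T.starProjection y ∈ ball a ((1 + θ) * s) := hy hyc
      rw [mem_ball, dist_eq_norm] at h1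
      nlinarith
    · filter_upwards [hpt] with y hy _ using hy.2.2.2.2.2
  refine ⟨hC, za_mem T w a, hs, ?_, ?_⟩
  · filter_upwards [H.int] with y hy _ using hy
  · -- the mass
    have hm1 : μ.real (cylSet (planeOf T w a) (za T w a) s) ≤ μ.real (cylSet T a ((1 + θ) * s)) := by
      unfold Measure.real
      exact ENNReal.toReal_mono (measure_ne_top _ _) (measure_mono_ae hin1)
    have hm2 : μ.real (cylSet T a ((1 - θ) * s)) ≤ μ.real (cylSet (planeOf T w a) (za T w a) s) := by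
      unfold Measure.real
      exact ENNReal.toReal_mono (measure_ne_top _ _) (measure_mono_ae hin2)
    have hI1 := (hchain ((1 + θ) * s) (by nlinarith) (by nlinarith)).mass
    have hI2 := (hchain ((1 - θ) * s) (by nlinarith) (by nlinarith)).mass
    have hδK' : δ * (480 * (Q + 1) * (m + 1)) ≤ 1 := by
      rw [← hK]; rw [le_div_iff₀ hKp] at hδK; exact hδK
    have hth := theta_num (K := K) hδ0 (Nat.cast_nonneg Q) (Nat.cast_nonneg m) hδK'
    rw [← hθ] at hth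
    exact sandwich_mass hθ0 hth.1 (Nat.cast_nonneg Q) hθ1 hth.2 hom.le hs hm1 hm2 hI1 hI2

end Vale.Agent.P214.LOCF
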