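import Vale.Agent.P214.LOCF.Props

/-!
# P214, block LOCF: localisation of a test function to a cell
-/

open Set Filter Topology MeasureTheory Metric
open scoped RealInnerProductSpace ENNReal ContDiff

set_option linter.all false

namespace Vale.Agent.P214.LOCF

open FV Skel FM

variable {E : Type*} [NormedAddCommGroup E] [InnerProductSpace ℝ E] [FiniteDimensional ℝ E]

variable {T : Submodule ℝ E} {z a : E} {r R C : ℝ} {φ χ : E → ℝ}

lemma Test2.sub_le (hφ : Test2 T z r φ) (x y : E) : |φ x - φ y| ≤ r⁻¹ * ‖x - y‖ := by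
  have h := (convex_univ (𝕜 := ℝ) (E := E)).norm_image_sub_le_of_norm_hasFDerivWithin_le
    (f := φ) (f' := fderiv ℝ φ) (C := r⁻¹)
    (fun z _ => ((hφ.smooth.differentiable (by norm_num)) z).hasFDerivAt.hasFDerivWithinAt)
    (fun z _ => hφ.bd1 z) (mem_univ y) (mem_univ x)
  rwa [Real.norm_eq_abs] at h

lemma Test2.sub_base_le (hφ : Test2 T z r φ) (ha : a ∈ T) (x : E) :
    |φ x - φ a| ≤ r⁻¹ * ‖T.starProjection x - a‖ := by
  have h := hφ.sub_le (T.starProjection x) a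
  rwa [hφ.base] at h

/-- **localisation of a nonnegative test function to a cell** -/
theorem cell_scale (hC : 0 ≤ C) (hφ : Test2 T z r φ) (h0 : ∀ x, 0 ≤ φ x) (ha : a ∈ T)
    (hR : 0 < R) (hRr : R ≤ r) (c2 : ContDiff ℝ 2 χ)
    (cb : ∀ x, χ (T.starProjection x) = χ x) (c01 : ∀ x, 0 ≤ χ x ∧ χ x ≤ 1)
    (cs : ∀ x, R ≤ ‖T.starProjection x - a‖ → χ x = 0) (cd : ∀ x, ‖fderiv ℝ χ x‖ ≤ C / R)
    (cdd : ∀ x, ‖fderiv ℝ (fderiv ℝ χ) x‖ ≤ C / R ^ 2) :
    Test2 T a R (fun x => φ x * χ x / ((1 + 3 * C) * (φ a + R / r))) := by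
  have hr : 0 < r := hR.trans_le hRr
  set M : ℝ := φ a + R / r with hM
  have hRr0 : 0 < R / r := by positivity
  have hM0 : 0 < M := by have := h0 a; linarith
  have hrM : r⁻¹ ≤ M / R := by
    rw [le_div_iff₀ hR]
    have : r⁻¹ * R = R / r := by rw [div_eq_inv_mul]
    rw [this]
    have := h0 a
    linarith
  have hrR : r⁻¹ ≤ R⁻¹ := by gcongr
  set K : ℝ := (1 + 3 * C) * M with hK
  have hK0 : 0 < K := by positivity
  have dφ : Differentiable ℝ φ := hφ.smooth.differentiable (by norm_num)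
  have dχ : Differentiable ℝ χ := c2.differentiable (by norm_num)
  have dχ1 : ContDiff ℝ 1 (fderiv ℝ χ) := c2.fderiv_right (by norm_num)
  have hφM : ∀ x, ‖T.starProjection x - a‖ ≤ R → φ x ≤ M := by
    intro x hx
    have h1 := (abs_le.1 (hφ.sub_base_le ha x)).2
    have h2 : r⁻¹ * ‖T.starProjection x - a‖ ≤ R / r := by
      rw [div_eq_inv_mul]; gcongr
    rw [hM]; linarith
  have hχ0 : ∀ x, χ x = 0 → fderiv ℝ χ x = 0 := by
    intro x hx
    refine IsLocalMin.fderiv_eq_zero (Eventually.of_forall fun y => ?_)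
    rw [hx]; exact (c01 y).1
  have hχs : ∀ x y, |χ x - χ y| ≤ C / R * ‖x - y‖ := by
    intro x y
    have h := (convex_univ (𝕜 := ℝ) (E := E)).norm_image_sub_le_of_norm_hasFDerivWithin_le
      (f := χ) (f' := fderiv ℝ χ) (C := C / R)
      (fun z _ => (dχ z).hasFDerivAt.hasFDerivWithinAt)
      (fun z _ => cd z) (mem_univ y) (mem_univ x)
    rwa [Real.norm_eq_abs] at h
  have hχds : ∀ x y, ‖fderiv ℝ χ x - fderiv ℝ χ y‖ ≤ C / R ^ 2 * ‖x - y‖ := by
    intro x y
    exact (convex_univ (𝕜 := ℝ) (E := E)).norm_image_sub_le_of_norm_hasFDerivWithin_le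
      (f := fderiv ℝ χ) (f' := fderiv ℝ (fderiv ℝ χ)) (C := C / R ^ 2)
      (fun z _ => ((dχ1.differentiable (by norm_num)) z).hasFDerivAt.hasFDerivWithinAt)
      (fun z _ => cdd z) (mem_univ y) (mem_univ x)
  have hfd : ∀ x, HasFDerivAt (fun x => φ x * χ x / K)
      (K⁻¹ • (φ x • fderiv ℝ χ x + χ x • fderiv ℝ φ x)) x := by
    intro x
    have h1 := ((dφ x).hasFDerivAt.mul (dχ x).hasFDerivAt).const_mul K⁻¹
    refine h1.congr_of_eventuallyEq (Eventually.of_forall fun y => ?_)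
    simp only [Pi.mul_apply]
    rw [div_eq_inv_mul]
  have hfe : ∀ x, fderiv ℝ (fun x => φ x * χ x / K) x =
      K⁻¹ • (φ x • fderiv ℝ χ x + χ x • fderiv ℝ φ x) := fun x => (hfd x).fderiv
  have hout : ∀ x, R ≤ ‖T.starProjection x - a‖ → fderiv ℝ (fun x => φ x * χ x / K) x = 0 := by
    intro x hx
    rw [hfe, hχ0 x (cs x hx), cs x hx]
    simp
  have hC1 : 0 ≤ C / R := by positivity
  -- the Lipschitz bound with one point in the cell
  have hin : ∀ x y, ‖T.starProjection x - a‖ ≤ R →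
      ‖fderiv ℝ (fun x => φ x * χ x / K) x - fderiv ℝ (fun x => φ x * χ x / K) y‖ ≤
        (R ^ 2)⁻¹ * ‖x - y‖ := by
    intro x y hx
    rw [hfe, hfe, ← smul_sub, norm_smul, Real.norm_eq_abs, abs_of_pos (inv_pos.2 hK0),
      inv_mul_le_iff₀ hK0]
    set D := ‖x - y‖ with hD
    have hD0 : 0 ≤ D := norm_nonneg _
    have e : φ x • fderiv ℝ χ x + χ x • fderiv ℝ φ x - (φ y • fderiv ℝ χ y + χ y • fderiv ℝ φ y) =
        φ x • (fderiv ℝ χ x - fderiv ℝ χ y) + (φ x - φ y) • fderiv ℝ χ y +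
        χ x • (fderiv ℝ φ x - fderiv ℝ φ y) + (χ x - χ y) • fderiv ℝ φ y := by
      simp only [smul_sub, sub_smul]; abel
    have a1 : ‖φ x • (fderiv ℝ χ x - fderiv ℝ χ y)‖ ≤ M * (C / R ^ 2 * D) := by
      rw [norm_smul, Real.norm_eq_abs, abs_of_nonneg (h0 x)]
      gcongr
      · exact hφM x hx
      · exact hχds x y
    have a2 : ‖(φ x - φ y) • fderiv ℝ χ y‖ ≤ (M / R * D) * (C / R) := by
      rw [norm_smul, Real.norm_eq_abs]
      gcongr
      · exact (hφ.sub_le x y).trans (by gcongr)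
      · exact cd y
    have a3 : ‖χ x • (fderiv ℝ φ x - fderiv ℝ φ y)‖ ≤ 1 * (M / R * R⁻¹ * D) := by
      rw [norm_smul, Real.norm_eq_abs, abs_of_nonneg (c01 x).1]
      gcongr
      · exact (c01 x).2
      · refine (hφ.bd2 x y).trans ?_
        have : (r ^ 2)⁻¹ = r⁻¹ * r⁻¹ := by rw [pow_two, mul_inv]
        rw [this]
        gcongr
    have a4 : ‖(χ x - χ y) • fderiv ℝ φ y‖ ≤ (C / R * D) * (M / R) := by
      rw [norm_smul, Real.norm_eq_abs]
      gcongr
      · exact hχs x y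
      · exact (hφ.bd1 y).trans hrM
    rw [e]
    have a5 := norm_add_le (φ x • (fderiv ℝ χ x - fderiv ℝ χ y) + (φ x - φ y) • fderiv ℝ χ y +
        χ x • (fderiv ℝ φ x - fderiv ℝ φ y)) ((χ x - χ y) • fderiv ℝ φ y)
    have a6 := norm_add_le (φ x • (fderiv ℝ χ x - fderiv ℝ χ y) + (φ x - φ y) • fderiv ℝ χ y)
        (χ x • (fderiv ℝ φ x - fderiv ℝ φ y))
    have a7 := norm_add_le (φ x • (fderiv ℝ χ x - fderiv ℝ χ y)) ((φ x - φ y) • fderiv ℝ χ y)
    have e2 : K * ((R ^ 2)⁻¹ * D) = M * (C / R ^ 2 * D) + (M / R * D) * (C / R) +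
        1 * (M / R * R⁻¹ * D) + (C / R * D) * (M / R) := by
      rw [hK]; field_simp; ring
    rw [e2]
    linarith
  refine ⟨?_, ?_, ?_, ?_, ?_, ?_⟩
  · exact (hφ.smooth.mul (c2.of_le (by norm_num))).div_const _
  · intro x
    rw [hφ.base, cb]
  · intro x
    by_cases hx : ‖T.starProjection x - a‖ ≤ R
    · rw [abs_div, abs_of_pos hK0, div_le_one hK0, abs_mul, abs_of_nonneg (h0 x),
        abs_of_nonneg (c01 x).1]
      calc φ x * χ x ≤ M * 1 :=
            mul_le_mul (hφM x hx) (c01 x).2 (c01 x).1 hM0.le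
        _ ≤ K := by rw [hK]; nlinarith
    · rw [not_le] at hx
      rw [cs x hx.le]
      simp
  · intro x
    by_cases hx : ‖T.starProjection x - a‖ ≤ R
    · rw [hfe, norm_smul, Real.norm_eq_abs, abs_of_pos (inv_pos.2 hK0), inv_mul_le_iff₀ hK0]
      have a1 : ‖φ x • fderiv ℝ χ x‖ ≤ M * (C / R) := by
        rw [norm_smul, Real.norm_eq_abs, abs_of_nonneg (h0 x)]
        gcongr
        · exact hφM x hx
        · exact cd x
      have a2 : ‖χ x • fderiv ℝ φ x‖ ≤ 1 * (M / R) := by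
        rw [norm_smul, Real.norm_eq_abs, abs_of_nonneg (c01 x).1]
        gcongr
        · exact (c01 x).2
        · exact (hφ.bd1 x).trans hrM
      have a3 := norm_add_le (φ x • fderiv ℝ χ x) (χ x • fderiv ℝ φ x)
      have e2 : K * R⁻¹ = M * (C / R) + 1 * (M / R) + 2 * (M * (C / R)) := by
        rw [hK]; field_simp; ring
      rw [e2]
      have : 0 ≤ M * (C / R) := by positivity
      linarith
    · rw [not_le] at hx
      rw [hout x hx.le, norm_zero]
      positivity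
  · intro x y
    by_cases hx : ‖T.starProjection x - a‖ ≤ R
    · exact hin x y hx
    · by_cases hy : ‖T.starProjection y - a‖ ≤ R
      · rw [norm_sub_rev, norm_sub_rev x y]
        exact hin y x hy
      · rw [not_le] at hx hy
        rw [hout x hx.le, hout y hy.le, sub_zero, norm_zero]
        positivity
  · intro x hx
    rw [cs x hx, mul_zero, zero_div]

/-- nonnegativity of the localised function -/
lemma cell_scale_nonneg (hC : 0 ≤ C) (h0 : ∀ x, 0 ≤ φ x) (hR : 0 < R) (hr : 0 < r)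
    (c01 : ∀ x, 0 ≤ χ x ∧ χ x ≤ 1) (x : E) :
    0 ≤ φ x * χ x / ((1 + 3 * C) * (φ a + R / r)) := by
  have h1 := h0 a
  have h2 := h0 x
  have h3 := (c01 x).1
  positivity

end Vale.Agent.P214.LOCF
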