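import Vale.Agent.P214.LOCF.CmpProof

/-!
# P214, block LOCF: the test function of a cell as a `BaseTest` of the tangent plane
-/

open Set Filter Topology MeasureTheory Metric
open scoped RealInnerProductSpace ENNReal ContDiff

set_option linter.all false

namespace Vale.Agent.P214.LOCF

open FV Skel FM

variable {E : Type*} [NormedAddCommGroup E] [InnerProductSpace ℝ E] [FiniteDimensional ℝ E]
  [MeasurableSpace E] [BorelSpace E]

variable {m Q : ℕ} {T : Submodule ℝ E} {w : E → E} {ε κ h₁ : ℝ} {a : E} {R : ℝ} {f : E → ℝ}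

lemma abs_psi_sub_le (hf : Test2 T a R f) (hR : 0 < R) (ξ ξ' : E) :
    |psi T w a f ξ - psi T w a f ξ'| ≤ R⁻¹ * ‖ξ - ξ'‖ := by
  unfold psi
  refine ((hf.tst hR).abs_sub_le _ _).trans ?_
  gcongr
  have : a + T.starProjection (ξ - za T w a) - (a + T.starProjection (ξ' - za T w a)) =
      T.starProjection (ξ - ξ') := by
    rw [add_sub_add_left_eq_sub, ← map_sub]
    congr 1
    abel
  rw [this]
  exact norm_star_le T _

/-- the support of `psi f` on the tangent plane -/
lemma psi_zero (H : Adm T w ε κ h₁) (ha : a ∈ T) (hf : Test2 T a R f) {ξ : E}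
    (hξ : ξ ∈ planeOf T w a) (h : 9 / 8 * R < ‖ξ - za T w a‖) : psi T w a f ξ = 0 := by
  rw [psi_eq H.ref f hξ]
  refine LOC.psi_eq_zero (R := R) (f := f) H ha (fun x hx hxR => ?_) ?_
  · refine hf.supp x ?_
    rw [Submodule.starProjection_eq_self_iff.2 hx]
    exact hxR.le
  · have h2 : PS T w a ξ = ξ := Submodule.starProjection_eq_self_iff.2 hξ
    have h3 : LOC.za T w a = za T w a := rfl
    rw [h2, h3]
    exact h

/-- **the test function of a cell** -/
theorem cell_test (H : Adm T w ε κ h₁) (ha : a ∈ T) (hR : 0 < R) (hf : Test2 T a R f)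
    (h0 : ∀ x, 0 ≤ f x) : ∃ g : E → ℝ, BaseTest (planeOf T w a) (za T w a) (4 * R) g ∧
      ∀ (ν : Measure E) (P : E → E →L[ℝ] E), Ffl m Q (planeOf T w a) ν P (psi T w a f) =
        8 * Ffl m Q (planeOf T w a) ν P g := by
  set S := planeOf T w a with hS
  set g : E → ℝ := fun ξ => max 0 (psi T w a f (S.starProjection ξ) - ‖co S ξ‖ / R) / 8 with hg
  have hzS : za T w a ∈ S := Submodule.starProjection_apply_mem _ _
  have hle : ∀ ξ, psi T w a f ξ ≤ 1 := fun ξ => (le_abs_self _).trans (hf.bd0 _)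
  have hnn : ∀ ξ, 0 ≤ psi T w a f ξ := fun ξ => h0 _
  have hc0 : ∀ ξ, 0 ≤ ‖co S ξ‖ / R := fun ξ => by positivity
  refine ⟨g, ⟨?_, ?_, ?_, ?_⟩, ?_⟩
  · intro ξ
    simp only [hg]
    have : 0 ≤ max 0 (psi T w a f (S.starProjection ξ) - ‖co S ξ‖ / R) := le_max_left _ _
    linarith
  · intro ξ
    simp only [hg]
    have : max 0 (psi T w a f (S.starProjection ξ) - ‖co S ξ‖ / R) ≤ 1 :=
      max_le zero_le_one (by linarith [hle (S.starProjection ξ), hc0 ξ])
    linarith
  · intro ξ hξ
    simp only [hg]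
    have h1 : max 0 (psi T w a f (S.starProjection ξ) - ‖co S ξ‖ / R) = 0 := by
      refine max_eq_left ?_
      rcases le_or_gt R ‖co S ξ‖ with hc | hc
      · have h2 : 1 ≤ ‖co S ξ‖ / R := by rwa [one_le_div hR]
        linarith [hle (S.starProjection ξ)]
      · have h2 : 9 / 8 * R < ‖S.starProjection ξ - za T w a‖ := by
          have h3 : ξ - za T w a = (S.starProjection ξ - za T w a) + co S ξ := by
            rw [co_apply]; abel
          have h4 : ‖ξ - za T w a‖ ≤ ‖S.starProjection ξ - za T w a‖ + ‖co S ξ‖ := by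
            rw [h3]; exact norm_add_le _ _
          linarith
        rw [psi_zero H ha hf (S.starProjection_apply_mem ξ) h2]
        linarith [hc0 ξ]
    rw [h1, zero_div]
  · intro ξ ξ'
    simp only [hg]
    have h1 := abs_psi_sub_le (w := w) hf hR (S.starProjection ξ) (S.starProjection ξ')
    have h2 : ‖S.starProjection ξ - S.starProjection ξ'‖ ≤ ‖ξ - ξ'‖ := by
      rw [← map_sub]; exact norm_star_le S _
    have h3 : |‖co S ξ‖ / R - ‖co S ξ'‖ / R| ≤ R⁻¹ * ‖ξ - ξ'‖ := by
      rw [← sub_div, abs_div, abs_of_pos hR, div_eq_inv_mul]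
      gcongr
      refine (abs_norm_sub_norm_le _ _).trans ?_
      rw [← map_sub]; exact norm_co_le S _
    have h4 : |max 0 (psi T w a f (S.starProjection ξ) - ‖co S ξ‖ / R) -
        max 0 (psi T w a f (S.starProjection ξ') - ‖co S ξ'‖ / R)| ≤
        |(psi T w a f (S.starProjection ξ) - ‖co S ξ‖ / R) -
          (psi T w a f (S.starProjection ξ') - ‖co S ξ'‖ / R)| := by
      rw [max_comm (0:ℝ), max_comm (0:ℝ)]
      exact abs_max_sub_max_le_abs _ _ _
    have h5 : |(psi T w a f (S.starProjection ξ) - ‖co S ξ‖ / R) -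
          (psi T w a f (S.starProjection ξ') - ‖co S ξ'‖ / R)| ≤
        |psi T w a f (S.starProjection ξ) - psi T w a f (S.starProjection ξ')| +
          |‖co S ξ‖ / R - ‖co S ξ'‖ / R| := by
      have : (psi T w a f (S.starProjection ξ) - ‖co S ξ‖ / R) -
          (psi T w a f (S.starProjection ξ') - ‖co S ξ'‖ / R) =
          (psi T w a f (S.starProjection ξ) - psi T w a f (S.starProjection ξ')) -
          (‖co S ξ‖ / R - ‖co S ξ'‖ / R) := by ring
      rw [this]
      exact abs_sub _ _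
    have h6 : R⁻¹ * ‖S.starProjection ξ - S.starProjection ξ'‖ ≤ R⁻¹ * ‖ξ - ξ'‖ := by gcongr
    rw [← sub_div, abs_div, abs_of_pos (by norm_num : (0:ℝ) < 8), div_le_iff₀ (by norm_num),
      mul_inv]
    have h7 : 0 ≤ R⁻¹ * ‖ξ - ξ'‖ := by positivity
    have h8 : (4:ℝ)⁻¹ * R⁻¹ * ‖ξ - ξ'‖ * 8 = 2 * (R⁻¹ * ‖ξ - ξ'‖) := by ring
    rw [h8]
    linarith
  · intro ν P
    have h1 : Ffl m Q S ν P (psi T w a f) = Ffl m Q S ν P (fun ξ => 8 * g ξ) := by
      refine ffl_congr fun ξ hξ => ?_
      simp only [hg]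
      have h2 : S.starProjection ξ = ξ := Submodule.starProjection_eq_self_iff.2 hξ
      have h3 : co S ξ = 0 := by rw [co_apply, h2, sub_self]
      rw [h2, h3, norm_zero, zero_div, sub_zero, max_eq_right (hnn ξ)]
      ring
    rw [h1]
    unfold Ffl
    rw [integral_const_mul]
    have h2 : ∫ y, 8 * g (S.starProjection y) * (1 - tilt S (P y) / 2) ∂ν =
        8 * ∫ y, g (S.starProjection y) * (1 - tilt S (P y) / 2) ∂ν := by
      rw [← integral_const_mul]
      refine integral_congr_ae (Eventually.of_forall fun y => ?_)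
      simp only
      ring
    rw [h2]
    ring

end Vale.Agent.P214.LOCF
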