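import Vale.Agent.P214.LOCF.Props

/-!
# P214, block LOCF: the fine configuration `Dat` and the three remaining propositions

`Dat`: all points have foot point in the adapted ball `adB T w z ((1+d) r)` and small height.
`DatOf`: `Conf` + `Fine` give `Dat` for the restricted measure.
`CellInt`: the mass fraction over the tangent plane of a cell.
`Asm`: summation over the cells.
-/

open Set Filter Topology MeasureTheory Metric
open scoped RealInnerProductSpace ContDiff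

set_option linter.all false

namespace Vale.Agent.P214.LOCF

open FV FM Skel

variable {E : Type*} [NormedAddCommGroup E] [InnerProductSpace ℝ E] [FiniteDimensional ℝ E]
  [MeasurableSpace E] [BorelSpace E]

/-- the fine configuration (`μ, P` ambient) -/
structure Dat (m Q : ℕ) (T : Submodule ℝ E) (w : E → E) (ε κ h₁ : ℝ) (z : E) (r d Eb h δ : ℝ)
    (μ : Measure E) (P : E → E →L[ℝ] E) : Prop where
  adm : Adm T w ε κ h₁
  mem : z ∈ T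
  pos : 0 < r
  dpos : 0 < d
  dle : d ≤ 1
  epos : 0 < Eb
  slope : ε ≤ δ
  curv : κ * r ≤ δ
  min : MinimalOver T w (ball z ((1 + d) * r))
  mass : μ.real univ ≤ 4 ^ m * (Q * om m + 1) * r ^ m
  cyl : CylStat m T (adB T w z ((1 + d / 2) * r)) h μ P
  int : ∀ᵐ y ∂μ, ∃ q : ℕ, 1 ≤ q ∧ ∃ S : Submodule ℝ E,
    P y = S.starProjection ∧ IsApproxTangent m μ y q S
  all : ∀ᵐ Y ∂(fmeas T w h₁ μ), ‖XX T w z Y‖ < (1 + d) * r ∧
    ‖co T Y‖ ≤ √Eb * r ∧ ‖co T Y‖ < h₁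
  exc : ∫ Y, eS T w Y (fP T w h₁ P Y) ∂(fmeas T w h₁ μ) ≤ Eb * r ^ m
  base : ∀ a ∈ T, ∀ ρ, r / 16 ≤ ρ → ‖XX T w z a‖ + 3 * ρ ≤ (1 + d / 2) * r →
    IntCyl m Q T a ρ h (om m / 4) μ P

/-- **[A]** restriction to the preimage `Om` of the adapted ball of radius `(1+d) r` -/
def Om (T : Submodule ℝ E) (w : E → E) (h₁ : ℝ) (z : E) (R : ℝ) : Set E :=
  {y | PsiInv T w h₁ y ∈ adB T w z R}

/-- **[A]** -/
def DatOf (E : Type*) [NormedAddCommGroup E] [InnerProductSpace ℝ E] [FiniteDimensional ℝ E]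
    [MeasurableSpace E] [BorelSpace E] (m Q : ℕ) : Prop :=
  ∃ δ₀ > 0, ∀ (T : Submodule ℝ E) (w : E → E)
    (ε κ h₁ : ℝ) (z : E) (r h d Eb δ : ℝ) (ν : Measure E) (P : E → E →L[ℝ] E),
    0 < δ → δ ≤ δ₀ → Conf m Q T w ε κ h₁ z r h δ ν P → Fine m T w h₁ z r d Eb ν P → Eb ≤ δ →
    0 < d → √Eb ≤ d →
    Dat m Q T w ε κ h₁ z r d Eb h δ (ν.restrict (Om T w h₁ z ((1 + d) * r))) P ∧
    ∀ φ : E → ℝ, Test3 T w z r φ →
      FSig m Q T w (fmeas T w h₁ (ν.restrict (Om T w h₁ z ((1 + d) * r)))) (fP T w h₁ P) φ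
        = FSig m Q T w (fmeas T w h₁ ν) (fP T w h₁ P) φ ∧
      ∫ Y, φ (T.starProjection Y) * ‖co T Y‖ ^ 2
          ∂(fmeas T w h₁ (ν.restrict (Om T w h₁ z ((1 + d) * r))))
        = ∫ Y, φ (T.starProjection Y) * ‖co T Y‖ ^ 2 ∂(fmeas T w h₁ ν)

/-- **[C]** the cells: mass fraction and excess over the tangent plane `planeOf T w a`, from the
stopping rule of the cells (`L` is the constant of `cells`). -/
def CellInt (E : Type*) [NormedAddCommGroup E] [InnerProductSpace ℝ E] [FiniteDimensional ℝ E]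
    [MeasurableSpace E] [BorelSpace E] (m Q : ℕ) : Prop :=
  ∀ L η : ℝ, 1 ≤ L → 0 < η → ∃ C c δ₀ : ℝ, 0 < C ∧ 0 < c ∧ 0 < δ₀ ∧
    ∀ (T : Submodule ℝ E) (w : E → E)
    (ε κ h₁ : ℝ) (z : E) (r d Eb h δ : ℝ) (μ : Measure E) (P : E → E →L[ℝ] E),
    δ ≤ δ₀ → Eb ≤ δ₀ → Eb ^ c ≤ d → Dat m Q T w ε κ h₁ z r d Eb h δ μ P →
    ∀ (a : E) (R : ℝ), a ∈ T → ‖XX T w z a‖ ≤ r → 0 < R →
    16 * R ≤ L * Eb ^ (1 / ((m : ℝ) + 1)) * r →
    (∀ s, L * R ≤ s → ball a s ⊆ adB T w z ((1 + d) * r) →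
      excF T w (fmeas T w h₁ μ) (fP T w h₁ P) a s ≤ s ^ m * (s / r)) →
    16 * R ≤ d * r / 2 ∧
    (∃ h', IntCyl m Q (planeOf T w a) (za T w a) (8 * R) h' η μ P) ∧
    exc (planeOf T w a) μ P (za T w a) (8 * R) ≤
      C * (excF T w (fmeas T w h₁ μ) (fP T w h₁ P) a (16 * R) + κ ^ 2 * R ^ 2 * R ^ m)

/-- **[D]** summation over the cells.  `s = 1` and `β = C (log 1/Eb)^{-A}` for the rate lemma,
`s = ±1` and `β = C` for the area lemma. -/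
def Asm (E : Type*) [NormedAddCommGroup E] [InnerProductSpace ℝ E] [FiniteDimensional ℝ E]
    [MeasurableSpace E] [BorelSpace E] (m Q : ℕ) : Prop :=
  ∀ η : ℝ, 0 < η → ∃ C c δ₀ : ℝ, 0 < C ∧ 0 < c ∧ 0 < δ₀ ∧
    ∀ (T : Submodule ℝ E) (w : E → E)
    (ε κ h₁ : ℝ) (z : E) (r d Eb h δ : ℝ) (μ : Measure E) (P : E → E →L[ℝ] E) (φ : E → ℝ),
    δ ≤ δ₀ → Eb ≤ δ₀ → Eb ^ c ≤ d → Dat m Q T w ε κ h₁ z r d Eb h δ μ P →
    Test3 T w z r φ → ∀ s β : ℝ, |s| = 1 → 0 ≤ β →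
    (∀ (a : E) (R h' : ℝ) (f : E → ℝ),
      IntCyl m Q (planeOf T w a) (za T w a) (2 * R) h' η μ P →
      exc (planeOf T w a) μ P (za T w a) (2 * R) ≤ η * Eb ^ c * R ^ m →
      BaseTest (planeOf T w a) (za T w a) R f →
      s * Ffl m Q (planeOf T w a) μ P f ≤ β * exc (planeOf T w a) μ P (za T w a) (2 * R)) →
    s * FSig m Q T w (fmeas T w h₁ μ) (fP T w h₁ P) φ ≤ C * (β + Eb ^ c) * Eb * r ^ m
      + C * κ ^ 2 * ∫ Y, φ (T.starProjection Y) * ‖co T Y‖ ^ 2 ∂(fmeas T w h₁ μ)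

end Vale.Agent.P214.LOCF
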