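import Vale.Agent.P214.LOCF.Incl
import Vale.Agent.P214.LOCF.Dat

/-!
# P214, block LOCF: the mass fraction near the boundary of the base ball

`chain`: in the fine configuration `Dat` the mass fraction of the cylinders over all sub-balls is
close to `Q`, down to the scale `ρ` with `Eb (r/ρ)^m ≤ δ`.
-/

open Set Filter Topology MeasureTheory Metric
open scoped RealInnerProductSpace ContDiff

set_option linter.all false

namespace Vale.Agent.P214.LOCF

open FV FM Skel TCH ODE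

variable {E : Type*} [NormedAddCommGroup E] [InnerProductSpace ℝ E] [FiniteDimensional ℝ E]
  [MeasurableSpace E] [BorelSpace E]

namespace Dat

variable {m Q : ℕ} {T : Submodule ℝ E} {w : E → E} {ε κ h₁ : ℝ} {z : E} {r d Eb h δ : ℝ}
    {μ : Measure E} {P : E → E →L[ℝ] E}

lemma fin (H : Dat m Q T w ε κ h₁ z r d Eb h δ μ P) : IsFiniteMeasure μ := H.cyl.fin

/-- nonnegativity of the curved excess -/
lemma eS_nonneg' (S : Submodule ℝ E) (Y : E) : 0 ≤ eS T w Y S.starProjection :=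
  FV.tilt_nonneg S _

lemma integral_eS (H : Dat m Q T w ε κ h₁ z r d Eb h δ μ P) :
    ∫ y, eS T w (PsiInv T w h₁ y) (P y) ∂μ
      = ∫ Y, eS T w Y (fP T w h₁ P Y) ∂(fmeas T w h₁ μ) := by
  rw [← H.adm.integral_fmeas μ (fun y => eS T w (PsiInv T w h₁ y) (P y))]
  simp only [H.adm.PsiInv_Psi]
  rfl

lemma aesm_eS (hA : Adm T w ε κ h₁) (hP : AEStronglyMeasurable P μ) :
    AEStronglyMeasurable (fun y => eS T w (PsiInv T w h₁ y) (P y)) μ := by
  have h1 : (fun y => eS T w (PsiInv T w h₁ y) (P y)) = fun y =>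
      tr (((ContinuousLinearMap.id ℝ E) - PS T w (PsiInv T w h₁ y)).comp (P y)) := rfl
  rw [h1]
  refine continuous_tr.comp_aestronglyMeasurable ?_
  have h2 : Continuous fun y => (ContinuousLinearMap.id ℝ E) - PS T w (PsiInv T w h₁ y) :=
    continuous_const.sub (hA.ref.contDiff_PS.continuous.comp hA.contDiff_PsiInv.continuous)
  have h3 : Continuous fun p : (E →L[ℝ] E) × (E →L[ℝ] E) => p.1.comp p.2 := by fun_prop
  exact h3.comp_aestronglyMeasurable (h2.aestronglyMeasurable.prodMk hP)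

lemma eS_le (S : Submodule ℝ E) (Y : E) :
    eS T w Y S.starProjection ≤ Module.finrank ℝ E := by
  refine (FV.tilt_le S _).trans ?_
  exact_mod_cast Submodule.finrank_le S

lemma integrable_eS (hA : Adm T w ε κ h₁) (hfin : IsFiniteMeasure μ)
    (hP : AEStronglyMeasurable P μ)
    (hproj : ∀ᵐ y ∂μ, ∃ S : Submodule ℝ E, Module.finrank ℝ S = m ∧ P y = S.starProjection) :
    Integrable (fun y => eS T w (PsiInv T w h₁ y) (P y)) μ := by
  refine Integrable.mono' (integrable_const (Module.finrank ℝ E : ℝ)) (aesm_eS hA hP) ?_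
  filter_upwards [hproj] with y hy
  obtain ⟨S, -, hS⟩ := hy
  rw [hS, Real.norm_of_nonneg (eS_nonneg' S _)]
  exact eS_le S _

/-- excess relative to the base plane -/
lemma exc_le (H : Dat m Q T w ε κ h₁ z r d Eb h δ μ P) (a : E) (s : ℝ) :
    Skel.exc T μ P a s ≤ 2 * (Eb * r ^ m) +
      16 * Module.finrank ℝ E * ε ^ 2 * μ.real (cylSet T a s) := by
  haveI := H.fin
  have hi := integrable_eS H.adm H.fin H.cyl.meas H.cyl.proj
  have h1 : Skel.exc T μ P a s ≤ ∫ y in cylSet T a s,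
      (2 * eS T w (PsiInv T w h₁ y) (P y) + Module.finrank ℝ E * (4 * ε) ^ 2) ∂μ := by
    unfold Skel.exc
    have h0 : CylStat m T (ball z 0) h μ P := CylStat.mono H.cyl isOpen_ball (by simp)
    refine integral_mono_ae (integrable_tilt' h0).integrableOn
      ((hi.const_mul 2).add (integrable_const _)).integrableOn (ae_restrict_of_ae ?_)
    filter_upwards [H.cyl.proj] with y hy
    obtain ⟨S, hS, hP⟩ := hy
    rw [hP]
    exact tilt_base_le H.adm.ref (hS.trans H.cyl.dimT.symm) _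
  refine h1.trans ?_
  rw [integral_add (hi.const_mul 2).integrableOn (integrable_const _), integral_const_mul,
    setIntegral_const, smul_eq_mul]
  have h2 : ∫ y in cylSet T a s, eS T w (PsiInv T w h₁ y) (P y) ∂μ ≤ Eb * r ^ m := by
    refine (setIntegral_le_integral hi ?_).trans (H.integral_eS.trans_le H.exc)
    filter_upwards [H.cyl.proj] with y hy
    obtain ⟨S, -, hP⟩ := hy
    simp only [Pi.zero_apply]
    rw [hP]; exact eS_nonneg' S _
  nlinarith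

end Dat

lemma step_num {m : ℕ} {C1 nE Qo o δs δ₀ ε B ρ t M k : ℝ} (hk : 0 < k) (hC1 : 0 ≤ C1)
    (hnE : 0 ≤ nE)
    (hQo : 0 ≤ Qo) (ho : 0 ≤ o) (hδ₀ : 0 ≤ δ₀) (hδs : 0 ≤ δs)
    (hδ1 : δ₀ ≤ k ^ m * δs / 8) (h8 : 16 * nE * (C1 + Qo + o) * δ₀ ≤ 1 / 2)
    (h9 : 16 * nE * (C1 + Qo + o) * δ₀ ≤ δs / 4) (hε : ε ^ 2 ≤ δ₀) (hρ : 0 < ρ)
    (hB : B ≤ δ₀ * ρ ^ m) (ht : 0 ≤ t) (hM0 : 0 ≤ M) (hM : M ≤ Qo + o + C1 * t)
    (h5 : t ≤ 2 * B / (k * ρ) ^ m + 16 * nE * ε ^ 2 * M) : t ≤ δs := by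
  have h6 : 2 * B / (k * ρ) ^ m ≤ δs / 4 := by
    rw [div_le_iff₀ (by positivity), mul_pow]
    calc 2 * B ≤ 2 * (δ₀ * ρ ^ m) := by gcongr
      _ ≤ 2 * ((k ^ m * δs / 8) * ρ ^ m) := by gcongr
      _ = δs / 4 * (k ^ m * ρ ^ m) := by ring
  have h7 : 16 * nE * ε ^ 2 * M ≤ 16 * nE * (C1 + Qo + o) * δ₀ * (1 + t) := by
    calc 16 * nE * ε ^ 2 * M
        ≤ 16 * nE * δ₀ * (Qo + o + C1 * t) := by gcongr
      _ ≤ 16 * nE * δ₀ * ((C1 + Qo + o) * (1 + t)) := by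
          gcongr
          have : 0 ≤ (Qo + o) * t := by positivity
          nlinarith
      _ = _ := by ring
  have h13 : 16 * nE * (C1 + Qo + o) * δ₀ * t ≤ 1 / 2 * t := mul_le_mul_of_nonneg_right h8 ht
  have h14 : 16 * nE * (C1 + Qo + o) * δ₀ * (1 + t)
      = 16 * nE * (C1 + Qo + o) * δ₀ + 16 * nE * (C1 + Qo + o) * δ₀ * t := by ring
  linarith

lemma abs_div_pow_sub {M c a R : ℝ} {m : ℕ} (hR : 0 < R) :
    |M / R ^ m - c| ≤ a ↔ |M - c * R ^ m| ≤ a * R ^ m := by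
  have hRm : 0 < R ^ m := by positivity
  have e1 : M - c * R ^ m = (M / R ^ m - c) * R ^ m := by field_simp
  rw [e1, abs_mul, abs_of_pos hRm]
  exact (mul_le_mul_iff_left₀ hRm).symm

section geo

variable {T : Submodule ℝ E} {w : E → E} {ε κ : ℝ}

/-- the distance to the centre is Lipschitz in the base -/
lemma norm_XX_add_le (hw : Ref T w ε κ) (z x y : E) :
    ‖XX T w z x‖ ≤ ‖XX T w z y‖ + (1 + ε) * ‖T.starProjection x - T.starProjection y‖ := by
  have h1 : XX T w z x = XX T w z y + (T.starProjection x - T.starProjection y) := by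
    unfold XX
    rw [bx_eq, bx_eq]
    abel
  have hε := hw.eps_nonneg
  rw [h1]
  refine (norm_add_le _ _).trans ?_
  have := norm_nonneg (T.starProjection x - T.starProjection y)
  nlinarith

/-- the distance to the centre decreases on the way to the centre -/
lemma norm_XX_move (hw : Ref T w ε κ) {z a : E} (hz : z ∈ T) (ha : a ∈ T) {t : ℝ} (ht0 : 0 ≤ t)
    (ht1 : t ≤ 1) :
    ‖XX T w z (a - t • (a - z))‖ ≤
      ‖XX T w z a‖ - t * ‖a - z‖ * (1 - 2 * κ * ‖a - z‖) := by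
  have hk := hw.knn
  have e0 : XX T w z a = a - z := by
    unfold XX; rw [bx_eq, star_mem_eq ha, star_mem_eq hz]
  have e1 : XX T w z (a - t • (a - z)) = (1 - t) • (a - z) := by
    unfold XX
    rw [bx_eq, map_sub, map_smul, map_sub, star_mem_eq ha, star_mem_eq hz]
    module
  rw [e1, e0, norm_smul, Real.norm_of_nonneg (by linarith)]
  have h1 : 0 ≤ t * ‖a - z‖ * (2 * κ * ‖a - z‖) := by positivity
  nlinarith

end geo

/-- one step of the chain -/
theorem chain_step (m Q : ℕ) (hm : 1 ≤ m) : ∃ δ₀ > 0, δ₀ ≤ 1 / 64 ∧ ∀ (T : Submodule ℝ E)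
    (w : E → E) (ε κ h₁ : ℝ) (z : E) (r d Eb h δ : ℝ) (μ : Measure E) (P : E → E →L[ℝ] E),
    δ ≤ δ₀ → Dat m Q T w ε κ h₁ z r d Eb h δ μ P → ∀ (a' : E) (ρ : ℝ), a' ∈ T → 0 < ρ →
    ‖XX T w z a'‖ + 6 * ρ ≤ (1 + d / 2) * r → Eb * r ^ m ≤ δ₀ * ρ ^ m →
    IntCyl m Q T a' (2 * ρ) h (om m / 4) μ P → ∀ a ∈ T, ‖a - a'‖ ≤ 16 / 5 * ρ →
    IntCyl m Q T a ρ h (om m / 4) μ P := by
  have hom := om_pos m
  have hcm := cm_pos m
  obtain ⟨δn, hδn, hnik⟩ := nik' (E := E) m Q hm (η := om m / 4) (by positivity) le_rfl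
  obtain ⟨C1, hC1⟩ : ∃ C1 : ℝ, C1 = 24 * (13 / 5) ^ (m + 1) / cm m := ⟨_, rfl⟩
  have hC10 : 0 < C1 := by rw [hC1]; positivity
  obtain ⟨nE, hnE⟩ : ∃ nE : ℝ, nE = (Module.finrank ℝ E : ℝ) := ⟨_, rfl⟩
  have hnE0 : 0 ≤ nE := by rw [hnE]; exact Nat.cast_nonneg _
  obtain ⟨δs, hδs0, hδsn, hδsC⟩ : ∃ δs : ℝ, 0 < δs ∧ δs ≤ δn ∧ C1 * δs ≤ om m / 12 := by
    refine ⟨min δn (om m / (12 * C1)), by positivity, min_le_left _ _, ?_⟩
    calc C1 * min δn (om m / (12 * C1)) ≤ C1 * (om m / (12 * C1)) := by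
          gcongr; exact min_le_right _ _
      _ = om m / 12 := by field_simp
  obtain ⟨K, hK⟩ : ∃ K : ℝ, K = 16 * nE * (C1 + Q * om m + om m) := ⟨_, rfl⟩
  have hK0 : 0 ≤ K := by rw [hK]; positivity
  obtain ⟨δ₀, hδ₀0, hδ₀1, hδ1, h8, h9⟩ : ∃ δ₀ : ℝ, 0 < δ₀ ∧ δ₀ ≤ 1 / 64 ∧
      δ₀ ≤ (26 / 5) ^ m * δs / 8 ∧ K * δ₀ ≤ 1 / 2 ∧ K * δ₀ ≤ δs / 4 := by
    refine ⟨min (1 / 64) (min ((26 / 5) ^ m * δs / 8) (min (1 / (2 * (K + 1)))
      (δs / (4 * (K + 1))))),
      by positivity, min_le_left _ _, (min_le_right _ _).trans (min_le_left _ _), ?_, ?_⟩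
    · calc _ ≤ (K + 1) * (1 / (2 * (K + 1))) := by
            gcongr
            · linarith
            · exact (min_le_right _ _).trans ((min_le_right _ _).trans (min_le_left _ _))
        _ = 1 / 2 := by field_simp
    · calc _ ≤ (K + 1) * (δs / (4 * (K + 1))) := by
            gcongr
            · linarith
            · exact (min_le_right _ _).trans ((min_le_right _ _).trans (min_le_right _ _))
        _ = δs / 4 := by field_simp
  refine ⟨δ₀, hδ₀0, hδ₀1, ?_⟩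
  intro T w ε κ h₁ z r d Eb h δ μ P hδ H a' ρ ha' hρ hin hEb hI a ha haa
  haveI := H.fin
  have hε0 := H.adm.ref.eps_nonneg
  have hε1 : ε ≤ δ₀ := H.slope.trans hδ
  have hεsq : ε ^ 2 ≤ δ₀ := by
    have : ε ≤ 1 := by linarith
    nlinarith
  have h4ρ : 0 < 26 / 5 * ρ := by positivity
  -- stationarity over the big ball
  have hball : ball a' (26 / 5 * ρ) ⊆ adB T w z ((1 + d / 2) * r) := by
    intro x hx
    rw [mem_ball, dist_eq_norm] at hx
    have h1 := norm_XX_add_le H.adm.ref z x a'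
    have h2 : ‖T.starProjection x - T.starProjection a'‖ ≤ ‖x - a'‖ := by
      rw [← map_sub]; exact norm_star_le T _
    have h3 : (1 + ε) * ‖T.starProjection x - T.starProjection a'‖ ≤ 65 / 64 * (26 / 5 * ρ) := by
      gcongr
      · linarith
      · exact h2.trans hx.le
    show ‖XX T w z x‖ < _
    linarith
  have hC4 : CylStat m T (ball a' (26 / 5 * ρ)) h μ P := CylStat.mono H.cyl isOpen_ball hball
  have hRm : 0 < (26 / 5 * ρ) ^ m := by positivity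
  -- comparison of the masses
  have h1 := mass_sub hC4 ha' hm ha' (r := 2 * ρ) (by positivity) (by simp; linarith)
  have h2 : 24 * (26 / 5 * ρ) / (cm m * (2 * ρ) ^ (m + 1)) * Skel.exc T μ P a' (26 / 5 * ρ)
      = C1 * (Skel.exc T μ P a' (26 / 5 * ρ) / (26 / 5 * ρ) ^ m) := by
    have e1 : (26 / 5 * ρ) ^ m = (13 / 5) ^ m * (2 * ρ) ^ m := by
      rw [← mul_pow]; congr 1; ring
    rw [hC1, e1, pow_succ, pow_succ]
    field_simp
    ring
  rw [h2] at h1
  have h3 := (abs_div_pow_sub (by positivity : 0 < 2 * ρ)).2 hI.mass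
  have ht40 : 0 ≤ Skel.exc T μ P a' (26 / 5 * ρ) / (26 / 5 * ρ) ^ m :=
    div_nonneg (exc_nonneg hC4 a' _) hRm.le
  have h4 : μ.real (cylSet T a' (26 / 5 * ρ)) / (26 / 5 * ρ) ^ m
      ≤ Q * om m + om m + C1 * (Skel.exc T μ P a' (26 / 5 * ρ) / (26 / 5 * ρ) ^ m) := by
    have a1 := (abs_le.1 h1).1
    have a2 := (abs_le.1 h3).2
    linarith
  -- the excess
  have h5 : Skel.exc T μ P a' (26 / 5 * ρ) / (26 / 5 * ρ) ^ m
      ≤ 2 * (Eb * r ^ m) / (26 / 5 * ρ) ^ m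
      + 16 * nE * ε ^ 2 * (μ.real (cylSet T a' (26 / 5 * ρ)) / (26 / 5 * ρ) ^ m) := by
    rw [← mul_div_assoc, ← add_div]
    gcongr
    rw [hnE]; exact H.exc_le a' (26 / 5 * ρ)
  have h10 := step_num (by norm_num : (0:ℝ) < 26 / 5) hC10.le hnE0
    (by positivity : 0 ≤ (Q : ℝ) * om m) hom.le hδ₀0.le hδs0.le hδ1
    (by rw [← hK]; exact h8) (by rw [← hK]; exact h9) hεsq hρ hEb ht40 (by positivity) h4 h5
  have h11 : Skel.exc T μ P a' (26 / 5 * ρ) ≤ δn * (26 / 5 * ρ) ^ m := by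
    rw [← div_le_iff₀ hRm]; exact h10.trans hδsn
  have h12 : C1 * (Skel.exc T μ P a' (26 / 5 * ρ) / (26 / 5 * ρ) ^ m) ≤ om m / 12 :=
    (by gcongr : _ ≤ C1 * δs).trans hδsC
  have hI4 : IntCyl m Q T a' (26 / 5 * ρ) h (om m / 3) μ P := by
    refine ⟨hC4, ha', h4ρ, ?_, (abs_div_pow_sub h4ρ).1 ?_⟩
    · filter_upwards [H.int] with y hy _ using hy
    · have e2 : μ.real (cylSet T a' (26 / 5 * ρ)) / (26 / 5 * ρ) ^ m - Q * om m
          = -(μ.real (cylSet T a' (2 * ρ)) / (2 * ρ) ^ m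
            - μ.real (cylSet T a' (26 / 5 * ρ)) / (26 / 5 * ρ) ^ m)
            + (μ.real (cylSet T a' (2 * ρ)) / (2 * ρ) ^ m - Q * om m) := by ring
      rw [e2]
      refine (abs_add_le _ _).trans ?_
      rw [abs_neg]
      linarith
  exact hnik T a' (26 / 5 * ρ) h μ P hI4 h11 a ρ ha (by linarith) (by linarith)

/-- **The chain.** -/
theorem chain (m Q : ℕ) (hm : 1 ≤ m) : ∃ δ₀ > 0, ∀ (T : Submodule ℝ E) (w : E → E)
    (ε κ h₁ : ℝ) (z : E) (r d Eb h δ : ℝ) (μ : Measure E) (P : E → E →L[ℝ] E),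
    δ ≤ δ₀ → Dat m Q T w ε κ h₁ z r d Eb h δ μ P → ∀ (a : E) (ρ : ℝ), a ∈ T → 0 < ρ →
    ‖XX T w z a‖ + 3 * ρ ≤ (1 + d / 2) * r → Eb * r ^ m ≤ δ₀ * ρ ^ m →
    IntCyl m Q T a ρ h (om m / 4) μ P := by
  obtain ⟨δ₀, hδ₀, hδ64, hstep⟩ := chain_step (E := E) m Q hm
  refine ⟨δ₀, hδ₀, ?_⟩
  intro T w ε κ h₁ z r d Eb h δ μ P hδ H
  have hr := H.pos
  have hd := H.dpos
  have hk := H.adm.ref.knn
  have hε0 := H.adm.ref.eps_nonneg
  have hε1 : ε ≤ 1 / 64 := H.slope.trans (hδ.trans hδ64)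
  have hκ1 : κ * r ≤ 1 / 64 := H.curv.trans (hδ.trans hδ64)
  have key : ∀ k : ℕ, ∀ (a : E) (ρ : ℝ), a ∈ T → 0 < ρ → r / 16 ≤ 2 ^ k * ρ →
      ‖XX T w z a‖ + 3 * ρ ≤ (1 + d / 2) * r → Eb * r ^ m ≤ δ₀ * ρ ^ m →
      IntCyl m Q T a ρ h (om m / 4) μ P := by
    intro k
    induction k with
    | zero =>
      intro a ρ ha hρ hk hin _
      exact H.base a ha ρ (by simpa using hk) hin
    | succ k ih =>
      intro a ρ ha hρ hk hin hEb
      rcases le_or_gt (r / 16) ρ with hlarge | hsmall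
      · exact H.base a ha ρ hlarge hin
      have hEb2 : Eb * r ^ m ≤ δ₀ * (2 * ρ) ^ m :=
        hEb.trans (by gcongr; linarith)
      have hk2 : r / 16 ≤ 2 ^ k * (2 * ρ) := by rw [pow_succ] at hk; linarith
      rcases le_or_gt (‖XX T w z a‖ + 6 * ρ) ((1 + d / 2) * r) with h1 | h1
      · have h2 := ih a (2 * ρ) ha (by positivity) hk2 (by linarith) hEb2
        exact hstep T w ε κ h₁ z r d Eb h δ μ P hδ H a ρ ha hρ h1 hEb h2 a ha
          (by simp; positivity)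
      · -- move towards the centre
        have hXn : ‖XX T w z a‖ ≤ 65 / 64 * ‖a - z‖ := by
          have h3 := norm_XX_add_le H.adm.ref z a z
          have h4 : XX T w z z = 0 := by
            rw [H.adm.ref.XX_eq_zero_iff, bx_eq, sub_self]
          rw [h4, norm_zero, zero_add, star_mem_eq ha, star_mem_eq H.mem] at h3
          refine h3.trans ?_
          gcongr
          linarith
        have hn1 : r / 2 ≤ ‖a - z‖ := by nlinarith [mul_pos hd hr]
        have hn : 0 < ‖a - z‖ := by linarith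
        have hn2 : 16 / 5 * ρ ≤ ‖a - z‖ := by linarith
        have hn3 : ‖a - z‖ ≤ 3 / 2 * r := by
          have h3 := H.adm.ref.norm_bx_le_XX z a
          rw [bx_eq, star_mem_eq ha, star_mem_eq H.mem] at h3
          nlinarith [H.dle]
        obtain ⟨t, ht⟩ : ∃ t : ℝ, t = 16 / 5 * ρ / ‖a - z‖ := ⟨_, rfl⟩
        have ht0 : 0 ≤ t := by rw [ht]; positivity
        have ht1 : t ≤ 1 := by rw [ht, div_le_one hn]; exact hn2
        have htn : t * ‖a - z‖ = 16 / 5 * ρ := by rw [ht]; field_simp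
        have ha'T : a - t • (a - z) ∈ T := T.sub_mem ha (T.smul_mem _ (T.sub_mem ha H.mem))
        have e1 : ‖a - (a - t • (a - z))‖ = 16 / 5 * ρ := by
          rw [sub_sub_cancel, norm_smul, Real.norm_of_nonneg ht0, htn]
        have e2 := norm_XX_move H.adm.ref H.mem ha ht0 ht1
        rw [htn] at e2
        have e3 : 2 * κ * ‖a - z‖ ≤ 3 / 64 := by
          calc 2 * κ * ‖a - z‖ ≤ 2 * κ * (3 / 2 * r) := by gcongr
            _ = 3 * (κ * r) := by ring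
            _ ≤ 3 / 64 := by linarith
        have e4 : ‖XX T w z (a - t • (a - z))‖ + 6 * ρ ≤ (1 + d / 2) * r := by
          nlinarith
        have h2 := ih (a - t • (a - z)) (2 * ρ) ha'T (by positivity) hk2 (by linarith) hEb2
        exact hstep T w ε κ h₁ z r d Eb h δ μ P hδ H _ ρ ha'T hρ e4 hEb h2 a ha e1.le
  intro a ρ ha hρ hin hEb
  obtain ⟨k, hk⟩ := pow_unbounded_of_one_lt (r / 16 / ρ) (by norm_num : (1:ℝ) < 2)
  exact key k a ρ ha hρ ((div_lt_iff₀ hρ).1 hk).le hin hEb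

end Vale.Agent.P214.LOCF
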