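import Vale.Agent.P214.LOC.CmpI
import Vale.Agent.P214.LOCF.Props
import Vale.Agent.P214.R2.Iv

/-!
# P214, block LOCF: the comparison of one cell, `Cmp E m Q`
-/

open Set Filter Topology MeasureTheory Metric
open scoped RealInnerProductSpace ENNReal ContDiff

set_option linter.all false

namespace Vale.Agent.P214.LOCF

open FV Skel FM

variable {E : Type*} [NormedAddCommGroup E] [InnerProductSpace ℝ E] [FiniteDimensional ℝ E]
  [MeasurableSpace E] [BorelSpace E]

section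

variable {m Q : ℕ} {T : Submodule ℝ E} {w : E → E} {ε κ h₁ : ℝ} {a : E} {R U h : ℝ} {f : E → ℝ}

lemma Test2.tst (hf : Test2 T a R f) (hR : 0 < R) : LOC.Tst T a R f where
  smooth := hf.smooth
  pos := hR
  base := hf.base
  le := hf.bd0
  d1 := hf.bd1
  d2 := fun x y => by rw [inv_pow]; exact hf.bd2 x y
  supp := hf.supp

lemma Ka_eq_of_mem (hw : Ref T w ε κ) {ξ : E} (hξ : ξ ∈ planeOf T w a) :
    LOC.Ka T w a ξ = T.starProjection ξ := by
  obtain ⟨v, hv, rfl⟩ := (hw.mem_planeOf_iff a ξ).1 hξ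
  have h1 : T.starProjection v = v := Submodule.starProjection_eq_self_iff.2 hv
  have h2 : adj (fderiv ℝ w a) v = 0 := by rw [← h1, hw.adj_fderiv_star]
  rw [LOC.Ka_D0, D0_apply, h2, sub_zero, map_add, hw.star_fderiv, add_zero]

lemma psi_eq (hw : Ref T w ε κ) (g : E → ℝ) {ξ : E} (hξ : ξ ∈ planeOf T w a) :
    psi T w a g ξ = LOC.psi T w a g ξ := by
  have h1 : za T w a ∈ planeOf T w a := Submodule.starProjection_apply_mem _ _
  have h2 : LOC.za T w a = za T w a := rfl
  unfold psi LOC.psi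
  rw [h2, Ka_eq_of_mem hw ((planeOf T w a).sub_mem hξ h1)]

/-- points over the cylinder of the tangent plane: foot point in the ball of radius `16 R` -/
lemma foot_lt (hw : Ref T w ε κ) (ha : a ∈ T) (hR : 0 < R) (h0 : 0 < h₁) {Y : E}
    (hY : ‖co T Y‖ ≤ h₁) (hκ : κ * (‖T.starProjection Y - a‖ + ‖co T Y‖) ≤ 1 / 16)
    (hD : ‖PS T w a (Psi T w h₁ Y) - LOC.za T w a‖ < 8 * R) :
    ‖T.starProjection Y - a‖ < 16 * R := by
  have hk := hw.knn
  have h1 := LOC.norm_Xa_sub_le_PS hw (a := a) (Psi T w h₁ Y)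
  rw [map_sub] at h1
  have h2 : PS T w a (a + w a) = LOC.za T w a := rfl
  rw [h2] at h1
  have h3 := LOC.norm_Xa_sub_le hw ha h0 hY
  set X := LOC.Xa T w a (Psi T w h₁ Y) with hX
  set r := ‖T.starProjection Y - a‖ with hr
  set u := ‖co T Y‖ with hu
  have hr0 : 0 ≤ r := norm_nonneg _
  have h4 : κ * r * (r + u) ≤ r / 16 := by
    calc κ * r * (r + u) = r * (κ * (r + u)) := by ring
      _ ≤ r * (1 / 16) := by gcongr
      _ = _ := by ring
  have h5 : r ≤ ‖X - T.starProjection Y‖ + ‖X - a‖ := by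
    calc r = ‖-(X - T.starProjection Y) + (X - a)‖ := by rw [hr]; congr 1; abel
      _ ≤ ‖-(X - T.starProjection Y)‖ + ‖X - a‖ := norm_add_le _ _
      _ = _ := by rw [norm_neg]
  linarith

/-- change of the tilt -/
lemma tilt_le_eS (hw : Ref T w ε κ) (ha : a ∈ T) {Y : E} {P : Submodule ℝ E}
    (hP : Module.finrank ℝ P = Module.finrank ℝ T) (hr : ‖T.starProjection Y - a‖ ≤ 16 * R) :
    tilt (planeOf T w a) P.starProjection ≤ 2 * eS T w Y P.starProjection +
      (2 * Module.finrank ℝ E * (2 * Module.finrank ℝ E + 1) * 64 ^ 2) * (κ ^ 2 * R ^ 2) := by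
  have hk := hw.knn
  have h4 := LOC.norm_PS_sub_le hw ha Y
  rw [norm_sub_rev] at h4
  have hR : 0 ≤ R := by
    have := norm_nonneg (T.starProjection Y - a)
    linarith
  have h5 := LOC.tilt_diff_le (S := planeOf T w Y) (T := planeOf T w a) (P := P)
    (by rw [hP, hw.finrank_planeOf]) (by rw [hw.finrank_planeOf, hw.finrank_planeOf])
    (κ := 64 * (κ * R)) (h4.trans (by
      calc 4 * κ * ‖T.starProjection Y - a‖ ≤ 4 * κ * (16 * R) := by gcongr
        _ = _ := by ring))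
  have h6 : tilt (planeOf T w Y) P.starProjection = eS T w Y P.starProjection := rfl
  rw [h6] at h5
  set s := eS T w Y P.starProjection with hs
  have hs0 : 0 ≤ s := tilt_nonneg P _
  set n : ℝ := (Module.finrank ℝ E : ℝ) with hn
  have hn0 : 0 ≤ n := by positivity
  have h7 := (abs_le.1 h5).2
  have h8 : √s ^ 2 = s := Real.sq_sqrt hs0
  have h9 : 2 * n * (64 * (κ * R) * √s) ≤ s + (2 * n) ^ 2 * 64 ^ 2 * (κ ^ 2 * R ^ 2) := by
    nlinarith [sq_nonneg (√s - 2 * n * (64 * (κ * R))), mul_nonneg hn0 hs0,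
      sq_nonneg (2 * n * (64 * (κ * R))), sq_nonneg (√s)]
  nlinarith [mul_nonneg hn0 (mul_nonneg (sq_nonneg κ) (sq_nonneg R))]

end

section

variable {m Q : ℕ} {T : Submodule ℝ E} {w : E → E} {ε κ h₁ : ℝ} {a : E} {R U h : ℝ} {f : E → ℝ}
  {ν : Measure E} {P : E → E →L[ℝ] E} {G : Set E}

lemma ffl_congr {S : Submodule ℝ E} {φ φ' : E → ℝ} (hφ : ∀ ξ ∈ S, φ ξ = φ' ξ) :
    Ffl m Q S ν P φ = Ffl m Q S ν P φ' := by
  unfold Ffl
  congr 1
  · refine integral_congr_ae (Eventually.of_forall fun y => ?_)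
    simp only
    rw [hφ _ (S.starProjection_apply_mem y)]
  · congr 1
    refine setIntegral_congr_fun ?_ fun x hx => hφ x hx
    exact S.closed_of_finiteDimensional.measurableSet

lemma cylSet_msb (S : Submodule ℝ E) (z : E) (r : ℝ) : MeasurableSet (cylSet S z r) :=
  (isOpen_ball.preimage S.starProjection.continuous).measurableSet

/-- set integrals in Fermi coordinates -/
lemma setIntegral_fmeas (H : Adm T w ε κ h₁) (ν : Measure E) {S : Set E} (hS : MeasurableSet S)
    (g : E → ℝ) : ∫ Y in S, g Y ∂(fmeas T w h₁ ν) =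
      ∫ y, (PsiInv T w h₁ ⁻¹' S).indicator (fun y => g (PsiInv T w h₁ y)) y ∂ν := by
  rw [← integral_indicator hS, ← H.integral_fmeas ν]
  refine integral_congr_ae (Eventually.of_forall fun Y => ?_)
  have h1 : PsiInv T w h₁ (Psi T w h₁ Y) = Y := H.PsiInv_Psi Y
  by_cases hY : Y ∈ S
  · have h2 : Psi T w h₁ Y ∈ PsiInv T w h₁ ⁻¹' S := by rw [mem_preimage, h1]; exact hY
    simp only
    rw [indicator_of_mem hY, indicator_of_mem h2, h1]
  · have h2 : Psi T w h₁ Y ∉ PsiInv T w h₁ ⁻¹' S := by rw [mem_preimage, h1]; exact hY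
    simp only
    rw [indicator_of_notMem hY, indicator_of_notMem h2]

lemma sqrt_le_aux {x y : ℝ} (hx : 0 ≤ x) (hy : 0 ≤ y) : √(x + y) ≤ √x + √y := by
  rw [Real.sqrt_le_left (by positivity)]
  nlinarith [Real.sq_sqrt hx, Real.sq_sqrt hy, mul_nonneg (Real.sqrt_nonneg x) (Real.sqrt_nonneg y)]

/-- Cauchy-Schwarz for `∫ √f` -/
lemma integral_sqrt_le_sqrt {α : Type*} [MeasurableSpace α] {μ : Measure α} [IsFiniteMeasure μ]
    {f : α → ℝ} (hf : Integrable f μ) (h0 : ∀ᵐ y ∂μ, 0 ≤ f y) :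
    ∫ y, √(f y) ∂μ ≤ √(μ.real univ * ∫ y, f y ∂μ) := by
  have i2 : Integrable (fun y => √(f y)) μ := by
    refine Integrable.mono' ((integrable_const 1).add hf)
      (Real.continuous_sqrt.comp_aestronglyMeasurable hf.aestronglyMeasurable) ?_
    filter_upwards [h0] with y hy
    rw [Real.norm_eq_abs, abs_of_nonneg (Real.sqrt_nonneg _)]
    show √(f y) ≤ 1 + f y
    rw [Real.sqrt_le_left (by linarith)]
    nlinarith
  set J := ∫ y, √(f y) ∂μ with hJ
  set I := ∫ y, f y ∂μ with hI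
  set N := μ.real univ with hN
  have hJ0 : 0 ≤ J := integral_nonneg fun y => Real.sqrt_nonneg _
  have key : ∀ s : ℝ, 0 ≤ N * (s * s) + (-(2 * J)) * s + I := by
    intro s
    have h1 : ∫ y, (s - √(f y)) ^ 2 ∂μ = N * (s * s) + (-(2 * J)) * s + I := by
      have : ∀ᵐ y ∂μ, (s - √(f y)) ^ 2 = s * s - 2 * s * √(f y) + f y := by
        filter_upwards [h0] with y hy
        have := Real.sq_sqrt hy
        nlinarith
      have ia : Integrable (fun y => s * s - 2 * s * √(f y)) μ :=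
        (integrable_const _).sub (i2.const_mul _)
      rw [integral_congr_ae this, integral_add ia hf,
        integral_sub (integrable_const _) (i2.const_mul _), integral_const, integral_const_mul]
      simp only [smul_eq_mul]
      ring
    rw [← h1]
    exact integral_nonneg fun y => sq_nonneg _
  have hd := discrim_le_zero key
  rw [discrim] at hd
  refine Real.le_sqrt_of_sq_le ?_
  nlinarith


/-- the numbers of the cell -/
lemma fin_num {κ R U B c₁ M C₀ C₄ T1 T2 Ex Rm Hg : ℝ} (hκ : 0 ≤ κ) (hR : 0 < R) (hU : 0 ≤ U)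
    (hRm : 0 ≤ Rm) (hB : 0 ≤ B) (hHg : 0 ≤ Hg) (hc₁ : 0 ≤ c₁) (hM : 0 ≤ M) (hC₀ : 0 ≤ C₀)
    (hC₄ : 0 ≤ C₄) (h1 : κ * (R + U) ≤ 1) (hT1 : T1 ≤ 2 * B + c₁ * (κ ^ 2 * R ^ 2) * (M * Rm))
    (hT2 : T2 ≤ √(M * Rm) * √(2 * B + c₁ * (κ ^ 2 * R ^ 2) * (M * Rm)))
    (hEx : Ex ≤ 2 * B + c₁ * (κ ^ 2 * R ^ 2) * (M * Rm)) :
    C₀ * ((κ * (R + U) * T1 + κ * R * T2 + κ ^ 2 * (R ^ 2 * (M * Rm) + Hg)) +
        κ ^ 2 * R ^ 2 * Rm) + C₄ * (κ * R) * Ex ≤
      ((C₀ + C₄) * (2 * (c₁ * M) + 2 * M + 3)) * (κ * (R + U) * B + κ * R * √(B * Rm) +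
        κ ^ 2 * (R ^ 2 * Rm + Hg)) := by
  have hsq : √(M * Rm) * √(2 * B + c₁ * (κ ^ 2 * R ^ 2) * (M * Rm)) ≤
      (M + 2) * √(B * Rm) + (c₁ + 1) * (κ * R) * (M * Rm) := by
    have a1 : √(2 * B + c₁ * (κ ^ 2 * R ^ 2) * (M * Rm)) ≤
        √(2 * B) + √(c₁ * (κ ^ 2 * R ^ 2) * (M * Rm)) := sqrt_le_aux (by positivity) (by positivity)
    have a2 : √(M * Rm) * √(2 * B) ≤ (M + 2) * √(B * Rm) := by
      rw [← Real.sqrt_mul (by positivity), Real.sqrt_le_left (by positivity), mul_pow,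
        Real.sq_sqrt (by positivity)]
      have : 0 ≤ B * Rm := by positivity
      nlinarith [mul_nonneg (mul_nonneg hM hM) this]
    have a3 : √(M * Rm) * √(c₁ * (κ ^ 2 * R ^ 2) * (M * Rm)) ≤
        (c₁ + 1) * (κ * R) * (M * Rm) := by
      rw [← Real.sqrt_mul (by positivity), Real.sqrt_le_left (by positivity)]
      have h2 : 0 ≤ (κ * R) ^ 2 * (M * Rm) ^ 2 := by positivity
      nlinarith [mul_nonneg hc₁ h2, mul_nonneg (mul_nonneg hc₁ hc₁) h2]
    calc √(M * Rm) * √(2 * B + c₁ * (κ ^ 2 * R ^ 2) * (M * Rm))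
        ≤ √(M * Rm) * (√(2 * B) + √(c₁ * (κ ^ 2 * R ^ 2) * (M * Rm))) := by gcongr
      _ = √(M * Rm) * √(2 * B) + √(M * Rm) * √(c₁ * (κ ^ 2 * R ^ 2) * (M * Rm)) := by ring
      _ ≤ _ := add_le_add a2 a3
  set W := √(B * Rm) with hW
  have hW0 : 0 ≤ W := Real.sqrt_nonneg _
  have hT2' := hT2.trans hsq
  set k := κ * R with hk
  have hk0 : 0 ≤ k := by positivity
  set K := κ * (R + U) with hK
  have hK0 : 0 ≤ K := by positivity
  have hkK : k ≤ K := by
    rw [hk, hK]
    have : R ≤ R + U := by linarith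
    gcongr
  have hk1 : k ≤ 1 := hkK.trans h1
  have e1 : κ ^ 2 * R ^ 2 = k ^ 2 := by rw [hk]; ring
  have e2 : κ ^ 2 * (R ^ 2 * (M * Rm) + Hg) = k ^ 2 * (M * Rm) + κ ^ 2 * Hg := by rw [hk]; ring
  have e3 : κ ^ 2 * (R ^ 2 * Rm + Hg) = k ^ 2 * Rm + κ ^ 2 * Hg := by rw [hk]; ring
  rw [e1] at hT1 hEx
  rw [e2, e3, e1]
  set q := k ^ 2 * Rm with hq
  have hq0 : 0 ≤ q := by positivity
  set g := κ ^ 2 * Hg with hg
  have hg0 : 0 ≤ g := by positivity
  have f1 : K * T1 ≤ 2 * (K * B) + c₁ * M * q := by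
    calc K * T1 ≤ K * (2 * B + c₁ * k ^ 2 * (M * Rm)) := by gcongr
      _ = 2 * (K * B) + K * (c₁ * M * q) := by rw [hq]; ring
      _ ≤ 2 * (K * B) + 1 * (c₁ * M * q) := by gcongr
      _ = _ := by ring
  have f2 : k * T2 ≤ (M + 2) * (k * W) + (c₁ + 1) * M * q := by
    calc k * T2 ≤ k * ((M + 2) * W + (c₁ + 1) * k * (M * Rm)) := by gcongr
      _ = _ := by rw [hq]; ring
  have f3 : k * Ex ≤ 2 * (K * B) + c₁ * M * q := by
    calc k * Ex ≤ k * (2 * B + c₁ * k ^ 2 * (M * Rm)) := by gcongr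
      _ = 2 * (k * B) + k * (c₁ * M * q) := by rw [hq]; ring
      _ ≤ 2 * (K * B) + 1 * (c₁ * M * q) := by gcongr
      _ = _ := by ring
  have hKB : 0 ≤ K * B := by positivity
  have hkW : 0 ≤ k * W := by positivity
  have hcM : 0 ≤ c₁ * M := by positivity
  have g1 := mul_nonneg hcM hKB
  have g2 := mul_nonneg hM hKB
  have g3 := mul_nonneg hcM hkW
  have g4 := mul_nonneg hM hkW
  have g5 := mul_nonneg hcM hg0
  have g6 := mul_nonneg hM hg0
  have g7 := mul_nonneg hcM hq0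
  have g8 := mul_nonneg hM hq0
  have hq' : k ^ 2 * (M * Rm) = M * q := by rw [hq]; ring
  rw [hq']
  have L1 : K * T1 + k * T2 + (M * q + g) + q ≤
      (2 * (c₁ * M) + 2 * M + 3) * (K * B + k * W + (q + g)) := by
    have e4 : (2 * (c₁ * M) + 2 * M + 3) * (K * B + k * W + (q + g)) =
        2 * ((c₁ * M) * (K * B)) + 2 * (M * (K * B)) + 3 * (K * B) +
        2 * ((c₁ * M) * (k * W)) + 2 * (M * (k * W)) + 3 * (k * W) +
        2 * ((c₁ * M) * q) + 2 * (M * q) + 3 * q +
        2 * ((c₁ * M) * g) + 2 * (M * g) + 3 * g := by ring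
    rw [e4]
    have e5 : (M + 2) * (k * W) = M * (k * W) + 2 * (k * W) := by ring
    have e6 : (c₁ + 1) * M * q = (c₁ * M) * q + M * q := by ring
    rw [e5, e6] at f2
    linarith
  have L2 : k * Ex ≤ (2 * (c₁ * M) + 2 * M + 3) * (K * B + k * W + (q + g)) := by
    have e4 : (2 * (c₁ * M) + 2 * M + 3) * (K * B + k * W + (q + g)) =
        2 * ((c₁ * M) * (K * B)) + 2 * (M * (K * B)) + 3 * (K * B) +
        2 * ((c₁ * M) * (k * W)) + 2 * (M * (k * W)) + 3 * (k * W) +
        2 * ((c₁ * M) * q) + 2 * (M * q) + 3 * q +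
        2 * ((c₁ * M) * g) + 2 * (M * g) + 3 * g := by ring
    rw [e4]
    linarith
  calc C₀ * ((K * T1 + k * T2 + (M * q + g)) + q) + C₄ * k * Ex
      = C₀ * (K * T1 + k * T2 + (M * q + g) + q) + C₄ * (k * Ex) := by ring
    _ ≤ C₀ * ((2 * (c₁ * M) + 2 * M + 3) * (K * B + k * W + (q + g))) +
        C₄ * ((2 * (c₁ * M) + 2 * M + 3) * (K * B + k * W + (q + g))) := by gcongr
    _ = _ := by ring

/-- the basic facts about the measure over the cylinder of the tangent plane -/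
lemma cell_facts (H : Adm T w ε κ h₁) (ha : a ∈ T) (hR : 0 < R) (hmR : m = m)
    (hC : CylStat m (planeOf T w a) G h ν P)
    (hh : ∀ᵐ y ∂ν, ‖co T (PsiInv T w h₁ y)‖ ≤ h₁)
    (hκ : ∀ᵐ y ∂ν, κ * (‖T.starProjection (PsiInv T w h₁ y) - a‖ +
      ‖co T (PsiInv T w h₁ y)‖) ≤ 1 / 16) :
    ∀ᵐ y ∂ν, y ∈ cylSet (planeOf T w a) (za T w a) (8 * R) →
      PsiInv T w h₁ y ∈ cylSet T a (16 * R) ∧
      tilt (planeOf T w a) (P y) ≤ 2 * eS T w (PsiInv T w h₁ y) (P y) +
        (2 * Module.finrank ℝ E * (2 * Module.finrank ℝ E + 1) * 64 ^ 2) * (κ ^ 2 * R ^ 2) := by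
  have hw := H.ref
  have hdimT : Module.finrank ℝ T = m := by rw [← hw.finrank_planeOf a, hC.dimT]
  filter_upwards [hC.proj, hh, hκ] with y hy hyh hyκ hyD
  obtain ⟨S, hS, hPy⟩ := hy
  have h1 : ‖T.starProjection (PsiInv T w h₁ y) - a‖ < 16 * R := by
    refine foot_lt hw ha hR H.hpos hyh hyκ ?_
    rw [H.Psi_PsiInv]
    rw [cylSet, mem_setOf_eq, mem_ball, dist_eq_norm] at hyD
    exact hyD
  refine ⟨by rw [cylSet, mem_setOf_eq, mem_ball, dist_eq_norm]; exact h1, ?_⟩
  rw [hPy]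
  exact tilt_le_eS hw ha (by rw [hS, hdimT]) h1.le

end

/-- **[CMP] one cell** -/
theorem cmp (E : Type*) [NormedAddCommGroup E] [InnerProductSpace ℝ E] [FiniteDimensional ℝ E]
    [MeasurableSpace E] [BorelSpace E] (m Q : ℕ) (hm : 1 ≤ m) : Cmp E m Q := by
  obtain ⟨C₀, hC₀, H₀⟩ := LOC.cmp E m Q
  obtain ⟨δ₄, C₄, hδ₄, hC₄, H₄⟩ := R2.ffl_top E m Q hm
  set n : ℝ := (Module.finrank ℝ E : ℝ) with hn
  have hn0 : 0 ≤ n := by positivity
  set c₁ : ℝ := 2 * n * (2 * n + 1) * 64 ^ 2 with hc₁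
  have hc₁0 : 0 ≤ c₁ := by positivity
  have hom : 0 ≤ om m := ENNReal.toReal_nonneg
  set M : ℝ := (Q * om m + 1) * 8 ^ m with hM
  have hM0 : 0 ≤ M := by positivity
  refine ⟨(C₀ + C₄) * (2 * (c₁ * M) + 2 * M + 3), min (min δ₄ 1) (1 / 16), by positivity,
    by positivity, ?_⟩
  intro T w ε κ h₁ a R U h ν P f H ha hR hU0 hεδ hκδ hmin hI hexc hall hU hf
  set δ := min (min δ₄ 1) (1 / 16) with hδ
  have hδ1 : δ ≤ 1 / 16 := min_le_right _ _
  have hδ2 : δ ≤ δ₄ := (min_le_left _ _).trans (min_le_left _ _)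
  have hδ3 : δ ≤ 1 := (min_le_left _ _).trans (min_le_right _ _)
  have hw := H.ref
  have hk := hw.knn
  have hf' := hf.tst hR
  have hC := hI.cyl
  haveI := hC.fin
  have hdimT : Module.finrank ℝ T = m := by rw [← hw.finrank_planeOf a, hC.dimT]
  -- a.e. information in the ambient coordinates
  have hae : ∀ {p : E → Prop}, (∀ᵐ Y ∂(fmeas T w h₁ ν), p Y) → ∀ᵐ y ∂ν, p (PsiInv T w h₁ y) :=
    fun hp => ae_of_ae_map H.aem.aemeasurable hp
  have hall' := hae hall
  have hU' := hae hU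
  have hh : ∀ᵐ y ∂ν, ‖co T (PsiInv T w h₁ y)‖ ≤ h₁ := by
    filter_upwards [hall'] with y hy using hy.2.le
  have hκ : ∀ᵐ y ∂ν, κ * (‖T.starProjection (PsiInv T w h₁ y) - a‖ +
      ‖co T (PsiInv T w h₁ y)‖) ≤ 1 / 16 := by
    filter_upwards [hall'] with y hy using hy.1.trans hδ1
  have hU2 : ∀ᵐ y ∂ν, ‖T.starProjection (PsiInv T w h₁ y) - a‖ ≤ 6 / 5 * R →
      ‖co T (PsiInv T w h₁ y)‖ ≤ U := by
    filter_upwards [hU'] with y hy h1
    refine hy ?_
    rw [mem_ball, dist_eq_norm]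
    linarith
  have hκR : κ * R ≤ 1 / 16 := by
    have : κ * R ≤ κ * (R + U) := by
      have : R ≤ R + U := by linarith
      gcongr
    linarith
  have hG : closedBall (LOC.za T w a) (2 * R) ⊆ ball (za T w a) (8 * R) := by
    intro x hx
    rw [mem_closedBall] at hx
    rw [mem_ball]
    have : LOC.za T w a = za T w a := rfl
    rw [← this]
    linarith
  have hmin' : ∀ x ∈ T, ‖x - a‖ ≤ R → lap w (PS T w x) x = 0 := by
    intro x hx hxR
    refine hmin x ?_
    rw [Submodule.starProjection_eq_self_iff.2 hx, mem_ball, dist_eq_norm]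
    linarith
  have h0 := H₀ T w ε κ h₁ a R U h _ ν P f H hf' ha hdimT hκR hC hG hmin' hU0 hh hU2 hκ
  -- replace `psi`
  have hpsi : Ffl m Q (planeOf T w a) ν P (psi T w a f) =
      Ffl m Q (planeOf T w a) ν P (LOC.psi T w a f) := ffl_congr fun ξ hξ => psi_eq hw f hξ
  rw [← hpsi] at h0
  refine h0.trans ?_
  -- abbreviations
  set S := planeOf T w a with hS
  set D8 : Set E := cylSet S (za T w a) (8 * R) with hD8
  set D2 : Set E := cylSet S (za T w a) (2 * R) with hD2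
  have hD28 : D2 ⊆ D8 := by
    intro y hy
    rw [hD2, cylSet, mem_setOf_eq, mem_ball] at hy
    rw [hD8, cylSet, mem_setOf_eq, mem_ball]
    linarith
  have mD8 : MeasurableSet D8 := cylSet_msb _ _ _
  have mD2 : MeasurableSet D2 := cylSet_msb _ _ _
  have mT16 : MeasurableSet (cylSet T a (16 * R)) := cylSet_msb _ _ _
  have hfacts := cell_facts (m := m) H ha hR rfl hC hh hκ
  -- masses
  have hmass8 : ν.real D8 ≤ M * R ^ m := by
    have h1 := (abs_le.1 hI.mass).2
    calc ν.real D8 ≤ Q * om m * (8 * R) ^ m + δ * (8 * R) ^ m := by linarith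
      _ ≤ Q * om m * (8 * R) ^ m + 1 * (8 * R) ^ m := by gcongr
      _ = M * R ^ m := by rw [hM, mul_pow]; ring
  have hmass2 : ν.real D2 ≤ M * R ^ m := (measureReal_mono hD28).trans hmass8
  -- measurability and integrability
  have cPI : Continuous (PsiInv T w h₁) := H.contDiff_PsiInv.continuous
  have mt : AEStronglyMeasurable (fun y => tilt S (P y)) ν := by
    have : (fun y => tilt S (P y)) = fun y => tr ((co S).comp (P y)) := rfl
    rw [this]
    exact LOC.aesm_tr_comp (B := fun _ => co S) continuous_const hC.meas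
  have mS : AEStronglyMeasurable (fun y => eS T w (PsiInv T w h₁ y) (P y)) ν := by
    have : (fun y => eS T w (PsiInv T w h₁ y) (P y)) =
        fun y => tr (P y) - tr ((PS T w (PsiInv T w h₁ y)).comp (P y)) := by
      funext y
      exact tilt_eq _ _
    rw [this]
    exact (continuous_tr.comp_aestronglyMeasurable hC.meas).sub
      (LOC.aesm_tr_comp (B := fun y => PS T w (PsiInv T w h₁ y))
      (hw.contDiff_PS.continuous.comp cPI) hC.meas)
  have bt : ∀ᵐ y ∂ν, 0 ≤ tilt S (P y) ∧ tilt S (P y) ≤ n := by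
    filter_upwards [hC.proj] with y hy
    obtain ⟨Q', hQ', hPy⟩ := hy
    rw [hPy]
    refine ⟨tilt_nonneg Q' S, (tilt_le Q' S).trans ?_⟩
    rw [hn]
    exact_mod_cast Submodule.finrank_le Q'
  have bS : ∀ᵐ y ∂ν, 0 ≤ eS T w (PsiInv T w h₁ y) (P y) ∧
      eS T w (PsiInv T w h₁ y) (P y) ≤ n := by
    filter_upwards [hC.proj] with y hy
    obtain ⟨Q', hQ', hPy⟩ := hy
    rw [hPy]
    refine ⟨tilt_nonneg Q' _, (tilt_le Q' _).trans ?_⟩
    rw [hn]
    exact_mod_cast Submodule.finrank_le Q'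
  have it : Integrable (fun y => tilt S (P y)) ν :=
    LOC.integrable_of_bdd mt (C := n) (by
      filter_upwards [bt] with y hy; rw [abs_of_nonneg hy.1]; exact hy.2)
  have iS : Integrable (fun y => eS T w (PsiInv T w h₁ y) (P y)) ν :=
    LOC.integrable_of_bdd mS (C := n) (by
      filter_upwards [bS] with y hy; rw [abs_of_nonneg hy.1]; exact hy.2)
  have cu : Continuous fun y => ‖co T (PsiInv T w h₁ y)‖ ^ 2 :=
    (((co T).continuous.comp cPI).norm).pow 2
  have iu : Integrable (fun y => ‖co T (PsiInv T w h₁ y)‖ ^ 2) ν :=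
    LOC.integrable_of_bdd cu.aestronglyMeasurable (C := h₁ ^ 2) (by
      filter_upwards [hh] with y hy
      rw [abs_of_nonneg (by positivity)]
      gcongr)
  have ist : Integrable (fun y => √(tilt S (P y))) ν :=
    LOC.integrable_of_bdd (Real.continuous_sqrt.comp_aestronglyMeasurable mt) (C := √n) (by
      filter_upwards [bt] with y hy
      rw [abs_of_nonneg (Real.sqrt_nonneg _)]
      exact Real.sqrt_le_sqrt hy.2)
  set Bx := excF T w (fmeas T w h₁ ν) (fP T w h₁ P) a (16 * R) with hBx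
  set Hx := hgt2 T (fmeas T w h₁ ν) a (16 * R) with hHx
  set T16 : Set E := PsiInv T w h₁ ⁻¹' cylSet T a (16 * R) with hT16
  have mT : MeasurableSet T16 := mT16.preimage cPI.measurable
  have eB : Bx = ∫ y, T16.indicator (fun y => eS T w (PsiInv T w h₁ y) (P y)) y ∂ν := by
    rw [hBx, excF, setIntegral_fmeas H ν mT16]
    simp only [fP, H.Psi_PsiInv]
    rfl
  have eH : Hx = ∫ y, T16.indicator (fun y => ‖co T (PsiInv T w h₁ y)‖ ^ 2) y ∂ν := by
    rw [hHx, hgt2, setIntegral_fmeas H ν mT16]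
  have hBx0 : 0 ≤ Bx := by
    rw [eB]
    refine integral_nonneg_of_ae ?_
    filter_upwards [bS] with y hy
    by_cases hyT : y ∈ T16
    · rw [indicator_of_mem hyT]; exact hy.1
    · rw [indicator_of_notMem hyT]; rfl
  have hHx0 : 0 ≤ Hx := by
    rw [eH]
    refine integral_nonneg fun y => indicator_nonneg (fun _ _ => by positivity) _
  -- excess
  have hexD : ∀ {D : Set E}, MeasurableSet D → D ⊆ D8 →
      ∫ y in D, tilt S (P y) ∂ν ≤ 2 * Bx + c₁ * (κ ^ 2 * R ^ 2) * (M * R ^ m) := by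
    intro D mD hD
    have h1 : ∫ y in D, tilt S (P y) ∂ν ≤ ∫ y, (2 * T16.indicator
        (fun y => eS T w (PsiInv T w h₁ y) (P y)) y +
        D.indicator (fun _ => c₁ * (κ ^ 2 * R ^ 2)) y) ∂ν := by
      rw [← integral_indicator mD]
      refine integral_mono_ae (it.indicator mD) (((iS.indicator mT).const_mul 2).add
        ((integrable_const _).indicator mD)) ?_
      filter_upwards [hfacts, bS] with y hy hyS
      by_cases hyD : y ∈ D
      · obtain ⟨h2, h3⟩ := hy (hD hyD)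
        have h4 : y ∈ T16 := h2
        rw [indicator_of_mem hyD, indicator_of_mem h4, indicator_of_mem hyD]
        exact h3
      · rw [indicator_of_notMem hyD, indicator_of_notMem hyD, add_zero]
        have : 0 ≤ T16.indicator (fun y => eS T w (PsiInv T w h₁ y) (P y)) y := by
          by_cases hyT : y ∈ T16
          · rw [indicator_of_mem hyT]; exact hyS.1
          · rw [indicator_of_notMem hyT]
        positivity
    rw [integral_add ((iS.indicator mT).const_mul 2) ((integrable_const _).indicator mD),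
      integral_const_mul, ← eB, integral_indicator mD, setIntegral_const, smul_eq_mul] at h1
    have h2 : ν.real D ≤ M * R ^ m := (measureReal_mono hD).trans hmass8
    calc ∫ y in D, tilt S (P y) ∂ν ≤ 2 * Bx + ν.real D * (c₁ * (κ ^ 2 * R ^ 2)) := h1
      _ ≤ 2 * Bx + (M * R ^ m) * (c₁ * (κ ^ 2 * R ^ 2)) := by gcongr
      _ = _ := by ring
  have hT1 := hexD mD2 hD28
  have hEx : exc S ν P (za T w a) (8 * R) ≤ 2 * Bx + c₁ * (κ ^ 2 * R ^ 2) * (M * R ^ m) :=
    hexD mD8 le_rfl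
  -- square roots
  have hT2 : ∫ y in D2, √(tilt S (P y)) ∂ν ≤
      √(M * R ^ m) * √(2 * Bx + c₁ * (κ ^ 2 * R ^ 2) * (M * R ^ m)) := by
    have h1 := integral_sqrt_le_sqrt (μ := ν.restrict D2) (it.integrableOn (s := D2))
      (ae_restrict_of_ae (by filter_upwards [bt] with y hy using hy.1))
    refine h1.trans ?_
    rw [measureReal_restrict_apply_univ, Real.sqrt_mul measureReal_nonneg]
    gcongr
  -- the height
  have hT3 : ∫ y in D2, ‖co T (PsiInv T w h₁ y)‖ ^ 2 ∂ν ≤ Hx := by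
    rw [eH, ← integral_indicator mD2]
    refine integral_mono_ae (iu.indicator mD2) (iu.indicator mT) ?_
    filter_upwards [hfacts] with y hy
    by_cases hyD : y ∈ D2
    · obtain ⟨h2, h3⟩ := hy (hD28 hyD)
      have h4 : y ∈ T16 := h2
      rw [indicator_of_mem hyD, indicator_of_mem h4]
    · rw [indicator_of_notMem hyD]
      exact indicator_nonneg (fun _ _ => by positivity) _
  -- the error integral
  have hX : ∫ y in D2, LOC.Er T w h₁ a κ R U P y ∂ν ≤
      κ * (R + U) * (∫ y in D2, tilt S (P y) ∂ν) + κ * R * (∫ y in D2, √(tilt S (P y)) ∂ν) +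
        κ ^ 2 * (R ^ 2 * (M * R ^ m) + Hx) := by
    have e1 : ∫ y in D2, LOC.Er T w h₁ a κ R U P y ∂ν =
        κ * (R + U) * (∫ y in D2, tilt S (P y) ∂ν) + κ * R * (∫ y in D2, √(tilt S (P y)) ∂ν) +
        κ ^ 2 * (ν.real D2 * R ^ 2 + ∫ y in D2, ‖co T (PsiInv T w h₁ y)‖ ^ 2 ∂ν) := by
      unfold LOC.Er
      have i1 : Integrable (fun y => κ * (R + U) * tilt S (P y)) (ν.restrict D2) :=
        (it.const_mul _).restrict
      have i2 : Integrable (fun y => κ * R * √(tilt S (P y))) (ν.restrict D2) :=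
        (ist.const_mul _).restrict
      have i3 : Integrable (fun y => R ^ 2 + ‖co T (PsiInv T w h₁ y)‖ ^ 2) (ν.restrict D2) :=
        ((integrable_const _).add iu).restrict
      have i12 : Integrable (fun y => κ * (R + U) * tilt S (P y) + κ * R * √(tilt S (P y)))
          (ν.restrict D2) := i1.add i2
      rw [integral_add i12 (i3.const_mul _), integral_add i1 i2, integral_const_mul,
        integral_const_mul, integral_const_mul, integral_add (integrable_const _) iu.restrict,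
        setIntegral_const, smul_eq_mul]
    rw [e1]
    have h1 : ν.real D2 * R ^ 2 ≤ R ^ 2 * (M * R ^ m) := by
      rw [mul_comm]
      gcongr
    gcongr
  -- the last term
  have hlast : |Ffl m Q S ν P (LOC.psi T w a (LOC.Gf T w a f))| ≤
      C₄ * (κ * R) * exc S ν P (za T w a) (8 * R) := by
    set φ : E → ℝ := (ball (za T w a) (6 * R)).indicator (LOC.psi T w a (LOC.Gf T w a f)) with hφ
    have h1 : Ffl m Q S ν P (LOC.psi T w a (LOC.Gf T w a f)) = Ffl m Q S ν P φ := by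
      refine ffl_congr fun ξ hξ => ?_
      rw [hφ]
      by_cases h : ξ ∈ ball (za T w a) (6 * R)
      · rw [indicator_of_mem h]
      · rw [indicator_of_notMem h]
        rw [mem_ball, dist_eq_norm, not_lt] at h
        refine LOC.psi_eq_zero (R := R) (f := f) H ha (fun x hx hxR => ?_) ?_
        · unfold LOC.Gf
          rw [hf'.fderiv_eq_zero (by rw [Submodule.starProjection_eq_self_iff.2 hx]; exact hxR)]
          simp
        · have h2 : PS T w a ξ = ξ := Submodule.starProjection_eq_self_iff.2 hξ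
          have h3 : LOC.za T w a = za T w a := rfl
          rw [h2, h3]
          linarith
    have h2 : Measurable φ :=
      (LOC.continuous_psi (LOC.continuous_Gf H hf')).measurable.indicator measurableSet_ball
    have h3 : ∀ y, |φ y| ≤ κ * R := by
      intro y
      rw [hφ]
      by_cases h : y ∈ ball (za T w a) (6 * R)
      · rw [indicator_of_mem h]; exact LOC.abs_psi_Gf_le H hf' ha y
      · rw [indicator_of_notMem h, abs_zero]; positivity
    have h4 : ∀ y, 3 / 4 * (8 * R) ≤ ‖y - za T w a‖ → φ y = 0 := by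
      intro y hy
      rw [hφ, indicator_of_notMem]
      rw [mem_ball, dist_eq_norm, not_lt]
      linarith
    rw [h1]
    refine H₄ S (za T w a) (8 * R) h ν P (R2.intCyl_mono_delta hI hδ2) ?_ φ (κ * R) h2 h3 h4
    refine hexc.trans ?_
    have h5 : R ^ m ≤ (8 * R) ^ m := by gcongr; linarith
    gcongr
  have hD2' : cylSet S (LOC.za T w a) (2 * R) = D2 := rfl
  have hfin := fin_num (R := R) (U := U) (κ := κ) hk hR hU0 (Rm := R ^ m) (by positivity) hBx0 hHx0
    hc₁0 hM0 hC₀.le hC₄.le (hκδ.trans hδ3) hT1 hT2 hEx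
  refine le_trans ?_ hfin
  rw [hD2']
  refine add_le_add ?_ hlast
  gcongr

end Vale.Agent.P214.LOCF
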