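import Vale.Agent.P214.FM.Field
import Vale.Agent.P214.TCH.Near
import Vale.Agent.P214.SUB.A
import Vale.Agent.P214.LOCF.Dat

/-!
# P214, block LOCF, [A]: restriction to the preimage of the adapted ball
-/

open Set Filter Topology MeasureTheory Metric
open scoped RealInnerProductSpace ContDiff

set_option linter.all false

namespace Vale.Agent.P214.LOCF

open FV FM Skel

variable {E : Type*} [NormedAddCommGroup E] [InnerProductSpace ℝ E] [FiniteDimensional ℝ E]
  [MeasurableSpace E] [BorelSpace E]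

section geo

variable {T : Submodule ℝ E} {w : E → E} {ε κ h₁ : ℝ} {z : E} {r R : ℝ}

/-- `XX` is Lipschitz in the base variable -/
lemma XX_lip (hw : Ref T w ε κ) (hε : ε ≤ 1 / 16) (a b : E) :
    ‖XX T w z a - XX T w z b‖ ≤ 17 / 16 * ‖T.starProjection a - T.starProjection b‖ := by
  have e : XX T w z a - XX T w z b = T.starProjection a - T.starProjection b := by
    unfold XX
    rw [ODE.bx_eq, ODE.bx_eq]
    abel
  rw [e]
  have := norm_nonneg (T.starProjection a - T.starProjection b)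
  linarith

lemma continuous_XX (hw : Ref T w ε κ) : Continuous (XX T w z) := (hw.contDiff_XX z).continuous

lemma isOpen_adB (hw : Ref T w ε κ) (R : ℝ) : IsOpen (adB T w z R) :=
  isOpen_lt (continuous_XX hw).norm continuous_const

lemma norm_XX_sub_le (hw : Ref T w ε κ) (hε : ε ≤ 1 / 16) (a b : E) {c : ℝ}
    (hc : ‖T.starProjection a - T.starProjection b‖ ≤ c) :
    ‖XX T w z a‖ ≤ ‖XX T w z b‖ + 17 / 16 * c := by
  calc ‖XX T w z a‖ = ‖XX T w z b + (XX T w z a - XX T w z b)‖ := by congr 1; abel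
    _ ≤ ‖XX T w z b‖ + ‖XX T w z a - XX T w z b‖ := norm_add_le _ _
    _ ≤ ‖XX T w z b‖ + 17 / 16 * ‖T.starProjection a - T.starProjection b‖ := by
        gcongr; exact XX_lip hw hε a b
    _ ≤ _ := by gcongr

lemma adB_sub_ball (hw : Ref T w ε κ) (hz : z ∈ T) {y : E} (hy : y ∈ adB T w z R) :
    T.starProjection y ∈ ball z R := by
  have h1 : ‖XX T w z y‖ < R := hy
  have h2 := hw.norm_bx_le_XX z y
  have hz' : T.starProjection z = z := Submodule.starProjection_eq_self_iff.2 hz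
  rw [ODE.bx_eq, hz'] at h2
  rw [mem_ball, dist_eq_norm]
  exact h2.trans_lt h1

end geo

variable {m Q : ℕ} {T : Submodule ℝ E} {w : E → E} {ε κ h₁ : ℝ} {z : E} {r h d Eb δ : ℝ}
  {ν : Measure E} {P : E → E →L[ℝ] E}

lemma isOpen_Om (H : Adm T w ε κ h₁) (R : ℝ) : IsOpen (Om T w h₁ z R) :=
  (isOpen_adB H.ref R).preimage H.contDiff_PsiInv.continuous

lemma fmeas_restrict (H : Adm T w ε κ h₁) (R : ℝ) :
    fmeas T w h₁ (ν.restrict (Om T w h₁ z R)) = (fmeas T w h₁ ν).restrict (adB T w z R) := by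
  unfold fmeas
  rw [Measure.restrict_map H.aem (isOpen_adB H.ref R).measurableSet]
  rfl

/-- points of the coarse cylinder -/
lemma ae_coarse (hC : Conf m Q T w ε κ h₁ z r h δ ν P) (hδ : 0 < δ) (hδ1 : δ ≤ 1 / 16) :
    ∀ᵐ y ∂ν, y ∈ cylSet T z (4 * r) → ‖co T (PsiInv T w h₁ y)‖ < 2 * (δ * r) ∧
      ‖T.starProjection y - T.starProjection (PsiInv T w h₁ y)‖ ≤ 1 / 64 * r := by
  have hr := hC.pos
  have hw := hC.adm.ref
  have hε := hC.slope
  have hε0 := hw.eps_nonneg
  filter_upwards [hC.slab] with y hy hyc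
  have h1 := hy hyc
  set Y := PsiInv T w h₁ y with hY
  have hYy : Psi T w h₁ Y = y := hC.adm.Psi_PsiInv y
  have h2 := hw.norm_height_le h₁ Y
  rw [hYy] at h2
  have h3 := hw.norm_star_Psi_sub_le' h₁ Y
  rw [hYy] at h3
  have h4 : ‖co T Y‖ ≤ δ * r + ε ^ 2 * ‖co T Y‖ := by
    calc ‖co T Y‖ = ‖(co T y - w y) + (co T Y - (co T y - w y))‖ := by congr 1; abel
      _ ≤ _ := (norm_add_le _ _).trans (add_le_add h1 h2)
  have h5 : ε ^ 2 ≤ 1 / 256 := by
    have : ε ≤ 1 / 16 := hε.trans hδ1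
    nlinarith
  have h0 := norm_nonneg (co T Y)
  have h6 : ‖co T Y‖ < 2 * (δ * r) := by
    have : 0 < δ * r := by positivity
    nlinarith
  refine ⟨h6, h3.trans ?_⟩
  have h7 : ε ≤ 1 / 16 := hε.trans hδ1
  calc ε * ‖co T Y‖ ≤ 1 / 16 * (2 * (1 / 16 * r)) := by
        gcongr
        exact h6.le.trans (by gcongr)
    _ ≤ 1 / 64 * r := by linarith

/-- points of `Om` -/
lemma ae_fine (hC : Conf m Q T w ε κ h₁ z r h δ ν P) (hF : Fine m T w h₁ z r d Eb ν P)
    (hδ : 0 < δ) (hδ1 : δ ≤ 1 / 16) (hd : 0 < d) (hEd : √Eb ≤ d) :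
    ∀ᵐ y ∂ν, y ∈ Om T w h₁ z ((1 + d) * r) → y ∈ cylSet T z (4 * r) ∧
      ‖co T (PsiInv T w h₁ y)‖ ≤ √Eb * r ∧ ‖co T (PsiInv T w h₁ y)‖ < h₁ ∧
      ‖T.starProjection y - T.starProjection (PsiInv T w h₁ y)‖ ≤ 1 / 16 * (d * r) := by
  have hr := hC.pos
  have hw := hC.adm.ref
  have hε := hC.slope
  have hε0 := hw.eps_nonneg
  have hd1 := hF.le
  have hs : ∀ᵐ y ∂ν, PsiInv T w h₁ y ∈ adB T w z ((1 + d) * r) →
      ‖co T (PsiInv T w h₁ y)‖ ^ 2 ≤ Eb * r ^ 2 :=
    ae_of_ae_map hC.adm.aem.aemeasurable hF.sup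
  filter_upwards [hs, ae_coarse hC hδ hδ1] with y h1 h2 hy
  set Y := PsiInv T w h₁ y with hY
  have hYy : Psi T w h₁ Y = y := hC.adm.Psi_PsiInv y
  have h3 : ‖co T Y‖ ^ 2 ≤ Eb * r ^ 2 := h1 hy
  have h4 : ‖co T Y‖ ≤ √Eb * r := by
    refine le_of_sq_le_sq ?_ (by positivity) |> fun h => h
    rw [mul_pow, Real.sq_sqrt hF.pos.le]
    exact h3
  have h5 := hw.norm_star_Psi_sub_le' h₁ Y
  rw [hYy] at h5
  have h6 : ‖T.starProjection y - T.starProjection Y‖ ≤ 1 / 16 * (d * r) := by
    refine h5.trans ?_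
    calc ε * ‖co T Y‖ ≤ 1 / 16 * (d * r) := by
          gcongr
          · exact hε.trans hδ1
          · exact h4.trans (by gcongr)
      _ = _ := rfl
  have h7 : T.starProjection Y ∈ ball z ((1 + d) * r) := adB_sub_ball hw hC.cyl.mem hy
  have h8 : y ∈ cylSet T z (4 * r) := by
    show T.starProjection y ∈ ball z (4 * r)
    rw [mem_ball, dist_eq_norm] at h7 ⊢
    calc ‖T.starProjection y - z‖ = ‖(T.starProjection y - T.starProjection Y) +
          (T.starProjection Y - z)‖ := by congr 1; abel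
      _ ≤ ‖T.starProjection y - T.starProjection Y‖ + ‖T.starProjection Y - z‖ := norm_add_le _ _
      _ < 4 * r := by nlinarith
  exact ⟨h8, h4, by first | exact h4.trans_lt hF.rad | exact (h2 h8).1.trans_le hC.rad, h6⟩

/-- the cut-off in the Fermi base variable -/
noncomputable def cutX (T : Submodule ℝ E) (w : E → E) (h₁ : ℝ) (z : E) (A B : ℝ) (y : E) : ℝ :=
  Real.smoothTransition ((B - ‖XX T w z (PsiInv T w h₁ y)‖ ^ 2) / (B - A))

lemma contDiff_cutX (H : Adm T w ε κ h₁) (A B : ℝ) : ContDiff ℝ ∞ (cutX T w h₁ z A B) := by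
  unfold cutX
  have h1 : ContDiff ℝ ∞ fun y => XX T w z (PsiInv T w h₁ y) :=
    (H.ref.contDiff_XX z).comp H.contDiff_PsiInv
  exact Real.smoothTransition.contDiff.comp
    ((contDiff_const.sub (h1.norm_sq ℝ)).div_const _)

lemma cutX_eq_one {A B : ℝ} (hAB : A < B) {y : E} (hy : ‖XX T w z (PsiInv T w h₁ y)‖ ^ 2 ≤ A) :
    cutX T w h₁ z A B y = 1 := by
  unfold cutX
  apply Real.smoothTransition.one_of_one_le
  rw [le_div_iff₀ (by linarith)]
  linarith

lemma cutX_eq_zero {A B : ℝ} (hAB : A < B) {y : E} (hy : B ≤ ‖XX T w z (PsiInv T w h₁ y)‖ ^ 2) :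
    cutX T w h₁ z A B y = 0 := by
  unfold cutX
  apply Real.smoothTransition.zero_of_nonpos
  exact div_nonpos_of_nonpos_of_nonneg (by linarith) (by linarith)

/-- stationarity of the restricted measure -/
lemma stat_restrict (hC : Conf m Q T w ε κ h₁ z r h δ ν P) (hF : Fine m T w h₁ z r d Eb ν P)
    (hδ : 0 < δ) (hδ1 : δ ≤ 1 / 16) (hd : 0 < d) (hEd : √Eb ≤ d) {X : E → E}
    (hX : ContDiff ℝ 1 X) (hc : BaseCpt T (adB T w z ((1 + d / 2) * r)) X) :
    ∫ y in Om T w h₁ z ((1 + d) * r), tr ((fderiv ℝ X y).comp (P y)) ∂ν = 0 := by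
  obtain ⟨K, hK, hKG, hX0⟩ := hc
  have hr := hC.pos
  have hw := hC.adm.ref
  have hε : ε ≤ 1 / 16 := hC.slope.trans hδ1
  have hd1 := hF.le
  have hdr : 0 < d * r := by positivity
  set A := ((1 + 3 * d / 4) * r) ^ 2 with hA
  set B := ((1 + 7 * d / 8) * r) ^ 2 with hB
  have hAB : A < B := by
    rw [hA, hB]
    gcongr ?_ ^ 2
    nlinarith
  set b := cutX T w h₁ z A B with hb
  have hbc : ContDiff ℝ 1 b := (contDiff_cutX hC.adm A B).of_le (WithTop.coe_le_coe.2 le_top)
  have hZc : ContDiff ℝ 1 fun y => b y • X y := hbc.smul hX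
  have hcont : Continuous fun y => ‖XX T w z (PsiInv T w h₁ y)‖ :=
    ((continuous_XX hw).comp hC.adm.contDiff_PsiInv.continuous).norm
  have hZ := hC.cyl.cyl.stat (fun y => b y • X y) hZc (by
    refine ⟨T.starProjection '' K, hK.image T.starProjection.continuous, ?_, fun y hy => ?_⟩
    · rintro _ ⟨x, hx, rfl⟩
      have h1 := adB_sub_ball hw hC.cyl.mem (hKG hx)
      rw [mem_ball] at h1 ⊢
      exact h1.trans (by nlinarith)
    · have h1 : T.starProjection y ∉ K := fun hyK => hy ⟨_, hyK, star_self _ _⟩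
      show b y • X y = 0
      rw [hX0 y h1, smul_zero])
  rw [← hZ, ← integral_indicator (isOpen_Om hC.adm _).measurableSet]
  refine integral_congr_ae ?_
  filter_upwards [ae_fine hC hF hδ hδ1 hd hEd] with y hy
  by_cases hyO : y ∈ Om T w h₁ z ((1 + d) * r)
  · rw [indicator_of_mem hyO]
    obtain ⟨-, -, -, h4⟩ := hy hyO
    by_cases hc1 : ‖XX T w z (PsiInv T w h₁ y)‖ < (1 + 3 * d / 4) * r
    · have h5 : (fun y => b y • X y) =ᶠ[𝓝 y] X := by
        have h6 : ∀ᶠ x in 𝓝 y, ‖XX T w z (PsiInv T w h₁ x)‖ < (1 + 3 * d / 4) * r :=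
          hcont.continuousAt.eventually_lt continuousAt_const hc1
        filter_upwards [h6] with x hx
        rw [hb, cutX_eq_one hAB (by rw [hA]; gcongr), one_smul]
      rw [h5.fderiv_eq]
    · rw [not_lt] at hc1
      have h5 : (1 + d / 2) * r < ‖XX T w z y‖ := by
        have h6 := norm_XX_sub_le hw hε (z := z) (PsiInv T w h₁ y) y (c := 1 / 16 * (d * r)) (by
          rw [norm_sub_rev]; exact h4)
        nlinarith
      have h6 : X =ᶠ[𝓝 y] fun _ => 0 := by
        have h7 : ∀ᶠ x in 𝓝 y, (1 + d / 2) * r < ‖XX T w z x‖ :=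
          continuousAt_const.eventually_lt (continuous_XX hw).norm.continuousAt h5
        filter_upwards [h7] with x hx
        apply hX0
        intro hxK
        have h8 : ‖XX T w z (T.starProjection x)‖ < (1 + d / 2) * r := hKG hxK
        have h9 : XX T w z x = XX T w z (T.starProjection x) := by
          have := XX_lip hw hε (z := z) x (T.starProjection x)
          rw [star_self, sub_self, norm_zero, mul_zero] at this
          exact sub_eq_zero.1 (norm_le_zero_iff.1 this)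
        rw [h9] at hx
        linarith
      have h7 : (fun y => b y • X y) =ᶠ[𝓝 y] fun _ => 0 := by
        filter_upwards [h6] with x hx
        rw [hx, smul_zero]
      rw [h6.fderiv_eq, h7.fderiv_eq]
  · rw [indicator_of_notMem hyO]
    have h1 : (1 + d) * r ≤ ‖XX T w z (PsiInv T w h₁ y)‖ := not_lt.1 hyO
    have h2 : (fun y => b y • X y) =ᶠ[𝓝 y] fun _ => 0 := by
      have h6 : ∀ᶠ x in 𝓝 y, (1 + 7 * d / 8) * r < ‖XX T w z (PsiInv T w h₁ x)‖ :=
        continuousAt_const.eventually_lt hcont.continuousAt (by nlinarith)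
      filter_upwards [h6] with x hx
      rw [hb, cutX_eq_zero hAB (by rw [hB]; gcongr), zero_smul]
    rw [h2.fderiv_eq]
    simp [FV.tr_zero]

/-- **[A]** the fine configuration of the restricted measure -/
theorem datOf (E : Type*) [NormedAddCommGroup E] [InnerProductSpace ℝ E] [FiniteDimensional ℝ E]
    [MeasurableSpace E] [BorelSpace E] (m Q : ℕ) (hm : 1 ≤ m) : DatOf E m Q := by
  have hom := TCH.om_pos m
  obtain ⟨δ₁, hδ₁, hnik⟩ := TCH.nik' (E := E) m Q hm (η := om m / 4) (by positivity) le_rfl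
  refine ⟨min (1 / 16) (min δ₁ (om m / 4)), by positivity, ?_⟩
  intro T w ε κ h₁ z r h d Eb δ ν P hδ hδ₀ hC hF hEb hd hEd
  have hδ1 : δ ≤ 1 / 16 := hδ₀.trans (min_le_left _ _)
  have hδ2 : δ ≤ δ₁ := hδ₀.trans ((min_le_right _ _).trans (min_le_left _ _))
  have hδ3 : δ ≤ om m / 4 := hδ₀.trans ((min_le_right _ _).trans (min_le_right _ _))
  have hr := hC.pos
  have hw := hC.adm.ref
  have hε : ε ≤ 1 / 16 := hC.slope.trans hδ1
  have hd1 := hF.le
  have hfin := hC.cyl.cyl.fin
  set O := Om T w h₁ z ((1 + d) * r) with hO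
  have hOo : IsOpen O := isOpen_Om hC.adm _
  have hfine := ae_fine hC hF hδ hδ1 hd hEd
  have hcoarse := ae_coarse hC hδ hδ1
  have hμ : fmeas T w h₁ (ν.restrict O) = (fmeas T w h₁ ν).restrict (adB T w z ((1 + d) * r)) :=
    fmeas_restrict hC.adm _
  have hcyl : CylStat m T (adB T w z ((1 + d / 2) * r)) h (ν.restrict O) P := by
    refine ⟨inferInstance, hC.cyl.cyl.meas.restrict, ae_restrict_of_ae hC.cyl.cyl.proj,
      hC.cyl.cyl.dimT, isOpen_adB hw _, ?_, fun X hX hc => ?_⟩
    · refine ae_restrict_of_ae ?_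
      filter_upwards [hC.cyl.cyl.slab] with y hy hyG
      apply hy
      have h1 := adB_sub_ball hw hC.cyl.mem hyG
      rw [star_self] at h1
      rw [mem_ball] at h1 ⊢
      exact h1.trans (by nlinarith)
    · exact stat_restrict hC hF hδ hδ1 hd hEd hX hc
  have hint : ∀ᵐ y ∂(ν.restrict O), ∃ q : ℕ, 1 ≤ q ∧ ∃ S : Submodule ℝ E,
      P y = S.starProjection ∧ IsApproxTangent m (ν.restrict O) y q S := by
    rw [ae_restrict_iff' hOo.measurableSet]
    filter_upwards [hC.cyl.int, hfine] with y h1 h2 hy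
    obtain ⟨q, hq, S, hS, hA⟩ := h1 (h2 hy).1
    exact ⟨q, hq, S, hS, SUB.tangent_local hOo.measurableSet (hOo.mem_nhds hy) hA⟩
  refine ⟨⟨hC.adm, hC.cyl.mem, hr, hd, hd1, hF.pos, hC.slope, hC.curv, hF.min, ?_, hcyl, hint,
    ?_, ?_, ?_⟩, ?_⟩
  · -- mass
    have h1 : (ν.restrict O).real univ ≤ ν.real (cylSet T z (4 * r)) := by
      rw [measureReal_restrict_apply MeasurableSet.univ, univ_inter]
      refine ENNReal.toReal_mono (measure_ne_top _ _) (measure_mono_ae ?_)
      filter_upwards [hfine] with y hy hyO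
      exact (hy hyO).1
    have h2 := (abs_le.1 hC.cyl.mass).2
    have h3 : δ * (4 * r) ^ m ≤ 1 * (4 * r) ^ m := by gcongr; linarith
    calc _ ≤ _ := h1
      _ ≤ Q * om m * (4 * r) ^ m + 1 * (4 * r) ^ m := by linarith
      _ = _ := by rw [mul_pow]; ring
  · -- all
    rw [hμ, ae_restrict_iff' (isOpen_adB hw _).measurableSet]
    have h1 : ∀ᵐ Y ∂(fmeas T w h₁ ν), Y ∈ adB T w z ((1 + d) * r) → ‖co T Y‖ ≤ √Eb * r ∧
        ‖co T Y‖ < h₁ := by
      have h2 := hC.adm.ae_fmeas hfine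
      filter_upwards [h2] with Y hY hYa
      rw [hC.adm.PsiInv_Psi] at hY
      have h3 : Psi T w h₁ Y ∈ O := by
        show PsiInv T w h₁ (Psi T w h₁ Y) ∈ adB T w z ((1 + d) * r)
        rw [hC.adm.PsiInv_Psi]; exact hYa
      obtain ⟨-, h4, h5, -⟩ := hY h3
      exact ⟨h4, h5⟩
    filter_upwards [h1] with Y hY hYa
    exact ⟨hYa, (hY hYa).1, (hY hYa).2⟩
  · -- excess
    rw [hμ]
    exact hF.exc
  · -- base
    intro a ha ρ hρ hsub
    have hXa := hw.norm_bx_le_XX z a
    have hz' : T.starProjection z = z := Submodule.starProjection_eq_self_iff.2 hC.cyl.mem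
    have ha' : T.starProjection a = a := Submodule.starProjection_eq_self_iff.2 ha
    rw [ODE.bx_eq, hz', ha'] at hXa
    have hρ0 : 0 < ρ := by linarith
    have hI := hnik T z (4 * r) h ν P (TCH.IntCyl.weaken hC.cyl (by linarith))
      (hC.exc.trans (by
        have : r ^ m ≤ (4 * r) ^ m := by gcongr; linarith
        calc δ * r ^ m ≤ δ₁ * (4 * r) ^ m := by gcongr)) a ρ ha (by linarith) (by nlinarith)
    have hsubG : ball a ρ ⊆ adB T w z ((1 + d / 2) * r) := by
      intro x hx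
      show ‖XX T w z x‖ < _
      rw [mem_ball, dist_eq_norm] at hx
      have h1 := norm_XX_sub_le hw hε (z := z) x a (c := ρ) (by
        rw [← map_sub]; exact (norm_star_le T _).trans hx.le)
      linarith
    refine ⟨CylStat.mono hcyl isOpen_ball hsubG, ha, hρ0, ?_, ?_⟩
    · filter_upwards [hint] with y hy _ using hy
    · have h1 : (ν.restrict O).real (cylSet T a ρ) = ν.real (cylSet T a ρ) := by
        rw [measureReal_restrict_apply (TCH.measurableSet_cylSet T a ρ)]
        refine measureReal_congr ?_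
        filter_upwards [hcoarse] with y hy
        have h2 : y ∈ cylSet T a ρ → y ∈ O := by
          intro hyc
          have h3 : y ∈ cylSet T z (4 * r) := by
            have h4 : T.starProjection y ∈ ball a ρ := hyc
            show T.starProjection y ∈ ball z (4 * r)
            rw [mem_ball, dist_eq_norm] at h4 ⊢
            calc ‖T.starProjection y - z‖ = ‖(T.starProjection y - a) + (a - z)‖ := by
                  congr 1; abel
              _ ≤ ‖T.starProjection y - a‖ + ‖a - z‖ := norm_add_le _ _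
              _ < 4 * r := by nlinarith
          obtain ⟨-, h5⟩ := hy h3
          have h6 : T.starProjection y ∈ ball a ρ := hyc
          show ‖XX T w z (PsiInv T w h₁ y)‖ < (1 + d) * r
          have h7 := norm_XX_sub_le hw hε (z := z) (PsiInv T w h₁ y) y (c := 1 / 64 * r) (by
            rw [norm_sub_rev]; exact h5)
          rw [mem_ball, dist_eq_norm] at h6
          have h8 := norm_XX_sub_le hw hε (z := z) y a (c := ρ) (by rw [ha']; exact h6.le)
          nlinarith
        show (y ∈ cylSet T a ρ ∩ O) = (y ∈ cylSet T a ρ)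
        exact propext ⟨fun h => h.1, fun h => ⟨h, h2 h⟩⟩
      rw [h1]
      exact hI.mass
  · -- test functions
    intro φ hφ
    have hbase : ∀ Y, φ (T.starProjection Y) = φ Y := hφ.test.base
    have key : ∀ f : E → ℝ, ∫ Y, φ (T.starProjection Y) * f Y
        ∂((fmeas T w h₁ ν).restrict (adB T w z ((1 + d) * r))) =
        ∫ Y, φ (T.starProjection Y) * f Y ∂(fmeas T w h₁ ν) := by
      intro f
      refine setIntegral_eq_integral_of_forall_compl_eq_zero fun Y hY => ?_
      have h1 : (1 + d) * r ≤ ‖XX T w z Y‖ := not_lt.1 hY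
      rw [hbase, hφ.supp Y (by nlinarith), zero_mul]
    rw [hμ]
    refine ⟨?_, key _⟩
    unfold FSig
    rw [key]

end Vale.Agent.P214.LOCF
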