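import Vale.Agent.P214.LOCF.CellInt
import Vale.Agent.P214.LOCF.DatOf
import Vale.Agent.P214.LOCF.AreaFl
import Vale.Agent.P214.LOCF.CmpProof

/-!
# P214, block LOCF: the curved rate lemma and the curved area lemma
-/

open Set Filter Topology MeasureTheory Metric
open scoped RealInnerProductSpace ContDiff

set_option linter.all false

namespace Vale.Agent.P214.LOCF

open FV FM Skel

/-- a small power is smaller than any power of the logarithm -/
lemma rpow_le_log {A c x : ℝ} (hA : 0 < A) (hc : 0 < c) (hx : 0 < x) :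
    Real.exp (-(c * x)) ≤ (A / c) ^ A * x ^ (-A) := by
  have h1 : (c * x / A) ^ A ≤ Real.exp (c * x) := by
    have h2 : c * x / A ≤ Real.exp (c * x / A) := by
      linarith [Real.add_one_le_exp (c * x / A)]
    calc (c * x / A) ^ A ≤ (Real.exp (c * x / A)) ^ A := by
          apply Real.rpow_le_rpow (by positivity) h2 hA.le
      _ = Real.exp (c * x) := by
          rw [← Real.exp_mul]; congr 1; field_simp
  have h3 : (c * x / A) ^ A = (A / c) ^ (-A) * x ^ A := by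
    rw [show c * x / A = (A / c)⁻¹ * x by field_simp, Real.mul_rpow (by positivity) hx.le,
      Real.inv_rpow (by positivity), Real.rpow_neg (by positivity)]
  rw [h3] at h1
  rw [Real.exp_neg, Real.rpow_neg hx.le]
  have h4 : 0 < (A / c) ^ (-A) * x ^ A := by positivity
  calc (Real.exp (c * x))⁻¹ ≤ ((A / c) ^ (-A) * x ^ A)⁻¹ := inv_anti₀ h4 h1
    _ = (A / c) ^ A * (x ^ A)⁻¹ := by
        rw [mul_inv, Real.rpow_neg (by positivity), inv_inv]

lemma log_data {Eb c A : ℝ} (hA : 0 < A) (hc : 0 < c) (hE : 0 < Eb) (hE2 : Eb ≤ 1 / 2) :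
    0 < Real.log Eb⁻¹ ∧ Eb ^ c ≤ (A / c) ^ A * (Real.log Eb⁻¹) ^ (-A) := by
  have hx : 0 < Real.log Eb⁻¹ := by
    apply Real.log_pos
    rw [one_lt_inv₀ hE]; linarith
  refine ⟨hx, ?_⟩
  have h1 : Eb ^ c = Real.exp (-(c * Real.log Eb⁻¹)) := by
    rw [Real.rpow_def_of_pos hE, Real.log_inv]; congr 1; ring
  rw [h1]
  exact rpow_le_log hA hc hx

/-- the flat rate with an upper bound of the excess -/
lemma rate_beta {CF A c Eb x Rm η : ℝ} (hCF : 0 < CF) (hA : 0 < A) (hc : 0 < c) (hE : 0 < Eb)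
    (hE2 : Eb ≤ 1 / 2) (hη1 : η ≤ 1) (hRm : 0 < Rm) (hx0 : 0 ≤ x)
    (hx : x ≤ η * Eb ^ c * Rm) :
    CF * (Real.log (x / Rm)⁻¹) ^ (-A) * x
      ≤ CF * c ^ (-A) * (Real.log Eb⁻¹) ^ (-A) * x := by
  rcases hx0.eq_or_lt with h0 | h0
  · rw [← h0]; simp
  obtain ⟨hL, -⟩ := log_data hA hc hE hE2
  have h1 : x / Rm ≤ Eb ^ c := by
    rw [div_le_iff₀ hRm]
    refine hx.trans ?_
    have : 0 < Eb ^ c := Real.rpow_pos_of_pos hE c
    calc η * Eb ^ c * Rm ≤ 1 * Eb ^ c * Rm := by gcongr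
      _ = _ := by rw [one_mul]
  have h2 : 0 < x / Rm := by positivity
  have h3 : c * Real.log Eb⁻¹ ≤ Real.log (x / Rm)⁻¹ := by
    rw [Real.log_inv, Real.log_inv]
    have h4 := Real.log_le_log h2 h1
    rw [Real.log_rpow hE] at h4
    linarith
  have h5 : (Real.log (x / Rm)⁻¹) ^ (-A) ≤ (c * Real.log Eb⁻¹) ^ (-A) := by
    have h6 : 0 < c * Real.log Eb⁻¹ := by positivity
    rw [Real.rpow_neg h6.le, Real.rpow_neg (h6.le.trans h3)]
    apply inv_anti₀ (by positivity)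
    exact Real.rpow_le_rpow (by positivity) h3 hA.le
  rw [Real.mul_rpow hc.le hL.le] at h5
  calc CF * (Real.log (x / Rm)⁻¹) ^ (-A) * x
      ≤ CF * (c ^ (-A) * (Real.log Eb⁻¹) ^ (-A)) * x := by gcongr
    _ = _ := by ring

section

variable (E : Type*) [NormedAddCommGroup E] [InnerProductSpace ℝ E] [FiniteDimensional ℝ E]
  [MeasurableSpace E] [BorelSpace E]

lemma d_cond {Eb c d : ℝ} (hE : 0 < Eb) (hE1 : Eb ≤ 1) (h : Eb ^ (min c (1 / 2)) ≤ d) :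
    0 < d ∧ Eb ^ c ≤ d ∧ √Eb ≤ d := by
  refine ⟨lt_of_lt_of_le (Real.rpow_pos_of_pos hE _) h, ?_, ?_⟩
  · exact (Real.rpow_le_rpow_of_exponent_ge hE hE1 (min_le_left _ _)).trans h
  · rw [Real.sqrt_eq_rpow]
    exact (Real.rpow_le_rpow_of_exponent_ge hE hE1 (min_le_right _ _)).trans h

/-- **The curved rate lemma** from the flat one. -/
theorem rateCurved_of {m Q : ℕ} (hA : Asm E m Q) (hD : DatOf E m Q) (hR : RateFlat E m Q) :
    RateCurved E m Q := by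
  intro A hA0
  obtain ⟨CF, εF, hCF, hεF, hflat⟩ := hR A hA0
  obtain ⟨η, hη, hη1, hηF⟩ : ∃ η : ℝ, 0 < η ∧ η ≤ 1 ∧ η ≤ εF :=
    ⟨min 1 εF, by positivity, min_le_left _ _, min_le_right _ _⟩
  obtain ⟨C, c, δA, hC, hc, hδA, hasm⟩ := hA η hη
  obtain ⟨δD, hδD, hdat⟩ := hD
  refine ⟨max C (C * (CF * c ^ (-A) + (A / c) ^ A)), min c (1 / 2), min (min δA δD) (1 / 2),
    lt_of_lt_of_le hC (le_max_left _ _), by positivity, by positivity, ?_⟩
  intro T w ε κ h₁ z r h d Eb ν P φ hConf hFine hEδ hEd hφ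
  obtain ⟨δ, hδ⟩ : ∃ δ : ℝ, δ = min (min δA δD) (1 / 2) := ⟨_, rfl⟩
  have hδ0 : 0 < δ := by rw [hδ]; positivity
  rw [← hδ] at hConf hEδ
  have hδA' : δ ≤ δA := by rw [hδ]; exact (min_le_left _ _).trans (min_le_left _ _)
  have hδD' : δ ≤ δD := by rw [hδ]; exact (min_le_left _ _).trans (min_le_right _ _)
  have hδ2 : δ ≤ 1 / 2 := by rw [hδ]; exact min_le_right _ _
  have hE := hFine.pos
  have hE2 : Eb ≤ 1 / 2 := hEδ.trans hδ2
  obtain ⟨hd0, hdc, hdsq⟩ := d_cond hE (by linarith) hEd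
  obtain ⟨hDat, hφeq⟩ := hdat T w ε κ h₁ z r h d Eb δ ν P hδ0 hδD' hConf hFine hEδ hd0 hdsq
  obtain ⟨e1, e2⟩ := hφeq φ hφ
  obtain ⟨hL, hlog⟩ := log_data hA0 hc hE hE2
  have hLA : 0 < (Real.log Eb⁻¹) ^ (-A) := Real.rpow_pos_of_pos hL _
  have hcA : 0 < c ^ (-A) := Real.rpow_pos_of_pos hc _
  have h1 := hasm T w ε κ h₁ z r d Eb h δ _ P φ hδA' (hEδ.trans hδA') hdc hDat hφ 1
    (CF * c ^ (-A) * (Real.log Eb⁻¹) ^ (-A)) (by norm_num) (by positivity) (by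
      intro a R h' f hI hexc hf
      rw [one_mul]
      have hR0 : 0 < R := by have := hI.pos; linarith
      have hRm : 0 < R ^ m := by positivity
      have hEc1 : Eb ^ c ≤ 1 := Real.rpow_le_one hE.le (by linarith) hc.le
      have hEc0 : 0 < Eb ^ c := Real.rpow_pos_of_pos hE _
      have h2 := hflat _ _ R h' _ P f (TCH.IntCyl.weaken hI hηF) (hexc.trans (by
        calc η * Eb ^ c * R ^ m ≤ εF * 1 * R ^ m := by gcongr
          _ = εF * R ^ m := by ring)) hf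
      refine h2.trans ?_
      exact rate_beta hCF hA0 hc hE hE2 hη1 hRm (TCH.exc_nonneg hI.cyl _ _) hexc)
  rw [one_mul, e1, e2] at h1
  refine h1.trans ?_
  have hI0 : 0 ≤ κ ^ 2 * ∫ Y, φ (T.starProjection Y) * ‖co T Y‖ ^ 2 ∂(fmeas T w h₁ ν) := by
    refine mul_nonneg (sq_nonneg _) (integral_nonneg fun Y => ?_)
    exact mul_nonneg (hφ.nonneg _) (sq_nonneg _)
  have hr := hConf.pos
  have hX : 0 ≤ Eb * r ^ m := by positivity
  have h3 : C * (CF * c ^ (-A) * (Real.log Eb⁻¹) ^ (-A) + Eb ^ c) * Eb * r ^ m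
      ≤ max C (C * (CF * c ^ (-A) + (A / c) ^ A)) * (Real.log Eb⁻¹) ^ (-A) * Eb * r ^ m := by
    calc _ ≤ C * (CF * c ^ (-A) * (Real.log Eb⁻¹) ^ (-A)
          + (A / c) ^ A * (Real.log Eb⁻¹) ^ (-A)) * Eb * r ^ m := by gcongr
      _ = (C * (CF * c ^ (-A) + (A / c) ^ A)) * (Real.log Eb⁻¹) ^ (-A) * Eb * r ^ m := by ring
      _ ≤ _ := by
          gcongr
          exact le_max_right _ _
  have h4 : C * κ ^ 2 * ∫ Y, φ (T.starProjection Y) * ‖co T Y‖ ^ 2 ∂(fmeas T w h₁ ν)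
      ≤ max C (C * (CF * c ^ (-A) + (A / c) ^ A)) * κ ^ 2 *
        ∫ Y, φ (T.starProjection Y) * ‖co T Y‖ ^ 2 ∂(fmeas T w h₁ ν) := by
    rw [mul_assoc, mul_assoc]
    exact mul_le_mul_of_nonneg_right (le_max_left _ _) hI0
  linarith

/-- **The curved area lemma** from the flat one. -/
theorem areaCurved_of {m Q : ℕ} (hA : Asm E m Q) (hD : DatOf E m Q) (hF : AreaFlat E m Q) :
    AreaCurved E m Q := by
  obtain ⟨CF, εF, hCF, hεF, hflat⟩ := hF
  obtain ⟨η, hη, hη1, hηF⟩ : ∃ η : ℝ, 0 < η ∧ η ≤ 1 ∧ η ≤ εF :=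
    ⟨min 1 εF, by positivity, min_le_left _ _, min_le_right _ _⟩
  obtain ⟨C, c, δA, hC, hc, hδA, hasm⟩ := hA η hη
  obtain ⟨δD, hδD, hdat⟩ := hD
  refine ⟨C * (CF + 1), min c (1 / 2), min (min δA δD) (1 / 2), by positivity, by positivity,
    by positivity, ?_⟩
  intro T w ε κ h₁ z r h d Eb ν P φ hConf hFine hEδ hEd hφ
  obtain ⟨δ, hδ⟩ : ∃ δ : ℝ, δ = min (min δA δD) (1 / 2) := ⟨_, rfl⟩
  have hδ0 : 0 < δ := by rw [hδ]; positivity
  rw [← hδ] at hConf hEδ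
  have hδA' : δ ≤ δA := by rw [hδ]; exact (min_le_left _ _).trans (min_le_left _ _)
  have hδD' : δ ≤ δD := by rw [hδ]; exact (min_le_left _ _).trans (min_le_right _ _)
  have hδ2 : δ ≤ 1 / 2 := by rw [hδ]; exact min_le_right _ _
  have hE := hFine.pos
  have hE2 : Eb ≤ 1 / 2 := hEδ.trans hδ2
  obtain ⟨hd0, hdc, hdsq⟩ := d_cond hE (by linarith) hEd
  obtain ⟨hDat, hφeq⟩ := hdat T w ε κ h₁ z r h d Eb δ ν P hδ0 hδD' hConf hFine hEδ hd0 hdsq
  obtain ⟨e1, e2⟩ := hφeq φ hφ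
  have hEc1 : Eb ^ c ≤ 1 := Real.rpow_le_one hE.le (by linarith) hc.le
  have hEc0 : 0 < Eb ^ c := Real.rpow_pos_of_pos hE _
  have hr := hConf.pos
  have key : ∀ s : ℝ, |s| = 1 → s * FSig m Q T w (fmeas T w h₁ ν) (fP T w h₁ P) φ
      ≤ C * (CF + 1) * Eb * r ^ m + C * (CF + 1) * κ ^ 2 *
        ∫ Y, φ (T.starProjection Y) * ‖co T Y‖ ^ 2 ∂(fmeas T w h₁ ν) := by
    intro s hs
    have h1 := hasm T w ε κ h₁ z r d Eb h δ _ P φ hδA' (hEδ.trans hδA') hdc hDat hφ s CF hs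
      hCF.le (by
        intro a R h' f hI hexc hf
        have hR0 : 0 < R := by have := hI.pos; linarith
        have h2 := hflat _ _ R h' _ P f (TCH.IntCyl.weaken hI hηF) (hexc.trans (by
          calc η * Eb ^ c * R ^ m ≤ εF * 1 * R ^ m := by gcongr
            _ = εF * R ^ m := by ring)) hf
        refine le_trans ?_ h2
        refine (le_abs_self _).trans ?_
        rw [abs_mul, hs, one_mul])
    rw [e1, e2] at h1
    refine h1.trans ?_
    have hI0 : 0 ≤ κ ^ 2 * ∫ Y, φ (T.starProjection Y) * ‖co T Y‖ ^ 2 ∂(fmeas T w h₁ ν) := by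
      refine mul_nonneg (sq_nonneg _) (integral_nonneg fun Y => ?_)
      exact mul_nonneg (hφ.nonneg _) (sq_nonneg _)
    have h3 : C * (CF + Eb ^ c) * Eb * r ^ m ≤ C * (CF + 1) * Eb * r ^ m := by gcongr
    have h4 : C * κ ^ 2 * ∫ Y, φ (T.starProjection Y) * ‖co T Y‖ ^ 2 ∂(fmeas T w h₁ ν)
        ≤ C * (CF + 1) * κ ^ 2 *
          ∫ Y, φ (T.starProjection Y) * ‖co T Y‖ ^ 2 ∂(fmeas T w h₁ ν) := by
      rw [mul_assoc, mul_assoc]
      refine mul_le_mul_of_nonneg_right ?_ hI0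
      nlinarith
    linarith
  rw [abs_le']
  have k1 := key 1 (by norm_num)
  have k2 := key (-1) (by norm_num)
  rw [one_mul] at k1
  rw [neg_one_mul] at k2
  exact ⟨k1, k2⟩

end

end Vale.Agent.P214.LOCF
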