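import Vale.Agent.P214.LOCF.Geo

/-!
# P214, block LOCF: stationarity in a cylinder over another plane, from an inclusion
-/

open Set Filter Topology MeasureTheory Metric
open scoped RealInnerProductSpace ContDiff

set_option linter.all false

namespace Vale.Agent.P214.LOCF

open FV FM Skel TCH

variable {E : Type*} [NormedAddCommGroup E] [InnerProductSpace ℝ E] [FiniteDimensional ℝ E]
  [MeasurableSpace E] [BorelSpace E]
variable {m : ℕ} {T T₁ : Submodule ℝ E} {h : ℝ} {ν : Measure E} {P : E → E →L[ℝ] E} {z z₁ : E}
  {R R₁ R' : ℝ}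

/-- stationarity in the cylinder over a ball of another plane `T₁`, if `ν`-almost all of this
cylinder lies in the cylinder over a smaller ball of `T`. -/
theorem cylStat_of_incl (hC : CylStat m T (ball z R) h ν P) (hT1 : Module.finrank ℝ T₁ = m)
    (hR' : R' < R) {h' : ℝ}
    (hincl : ∀ᵐ y ∂ν, T₁.starProjection y ∈ ball z₁ R₁ → ‖T.starProjection y - z‖ ≤ R')
    (hslab : ∀ᵐ y ∂ν, T₁.starProjection y ∈ ball z₁ R₁ → ‖y - T₁.starProjection y‖ ≤ h') :
    CylStat m T₁ (ball z₁ R₁) h' ν P := by
  refine ⟨hC.fin, hC.meas, hC.proj, hT1, isOpen_ball, hslab, ?_⟩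
  rintro X hX ⟨K, hK, hKG, hX0⟩
  rcases le_or_gt R 0 with hR0 | hR0
  · -- the cylinder is null
    have h1 : ∀ᵐ y ∂ν, T₁.starProjection y ∉ K := by
      filter_upwards [hincl] with y hy hyK
      have := hy (hKG hyK)
      linarith [norm_nonneg (T.starProjection y - z)]
    rw [integral_eq_zero_of_ae]
    filter_upwards [h1] with y hy
    have hopen : IsOpen {w : E | T₁.starProjection w ∉ K} :=
      hK.isClosed.isOpen_compl.preimage T₁.starProjection.continuous
    have h4 : X =ᶠ[𝓝 y] fun _ => (0 : E) := by
      filter_upwards [hopen.mem_nhds hy] with w hw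
      exact hX0 w hw
    rw [h4.fderiv_eq]
    simp [tr_zero]
  · set rI : ℝ := max (R' + (R - R') / 3) (R / 3) with hrI
    set rO : ℝ := max (R' + 2 * (R - R') / 3) (2 * R / 3) with hrO
    have hrI0 : 0 < rI := lt_of_lt_of_le (by positivity) (le_max_right _ _)
    have hIO : rI < rO := max_lt_max (by linarith) (by linarith)
    have hOR : rO < R := max_lt (by linarith) (by linarith)
    have haI : R' < rI := lt_of_lt_of_le (by linarith) (le_max_left _ _)
    let b : ContDiffBump z := ⟨rI, rO, hrI0, hIO⟩
    set χ : E → ℝ := fun y => b (T.starProjection y) with hχ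
    have hχc : ContDiff ℝ 1 χ := (b.contDiff (n := 1)).comp T.starProjection.contDiff
    have hχ1 : ∀ y, ‖T.starProjection y - z‖ < rI → χ y = 1 := by
      intro y hy
      exact b.one_of_mem_closedBall (by rw [mem_closedBall, dist_eq_norm]; exact hy.le)
    have hχ0 : ∀ y, rO ≤ ‖T.starProjection y - z‖ → χ y = 0 := by
      intro y hy
      exact b.zero_of_le_dist (by rw [dist_eq_norm]; exact hy)
    have hY := hC.stat (fun y => χ y • X y) (hχc.smul hX)
      ⟨closedBall z rO, isCompact_closedBall z rO, closedBall_subset_ball hOR, fun y hy => by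
        rw [mem_closedBall, dist_eq_norm, not_le] at hy
        simp only
        rw [hχ0 y hy.le, zero_smul]⟩
    rw [← hY]
    refine integral_congr_ae ?_
    have hcp : Continuous fun y : E => ‖T.starProjection y - z‖ :=
      (T.starProjection.continuous.sub continuous_const).norm
    filter_upwards [hincl] with y hy
    by_cases hyK : T₁.starProjection y ∈ K
    · have h1 : ‖T.starProjection y - z‖ < rI := (hy (hKG hyK)).trans_lt haI
      have h2 : (fun y => χ y • X y) =ᶠ[𝓝 y] X := by
        filter_upwards [(isOpen_lt hcp continuous_const).mem_nhds h1] with w hw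
        rw [hχ1 w hw, one_smul]
      rw [h2.fderiv_eq]
    · have hopen : IsOpen {w : E | T₁.starProjection w ∉ K} :=
        hK.isClosed.isOpen_compl.preimage T₁.starProjection.continuous
      have h4 : X =ᶠ[𝓝 y] fun _ => (0 : E) := by
        filter_upwards [hopen.mem_nhds hyK] with w hw
        exact hX0 w hw
      have h5 : (fun y => χ y • X y) =ᶠ[𝓝 y] fun _ => (0 : E) := by
        filter_upwards [h4] with w hw
        rw [hw, smul_zero]
      rw [h4.fderiv_eq, h5.fderiv_eq]

end Vale.Agent.P214.LOCF
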