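import Vale.Agent.P214.LOC.WhitCor
import Mathlib.MeasureTheory.Covering.Vitali
import Mathlib.MeasureTheory.Measure.Lebesgue.EqHaar

/-!
# P214, block LOCF: the radius function of the stopping rule and the sum over the cells

`μ` is a finite measure on the base.  `stop μ n q = sup {t ∈ (0, 1] : t ^ n ≤ μ (ball q t)}`,
`rad μ n R₀ x = max R₀ (sup_q (stop q - dist x q) / 8)`.
-/

open MeasureTheory Set Metric Module Filter
open scoped ENNReal Topology

set_option linter.all false

namespace Vale.Agent.P214.LOCF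

open Vale.Agent.P214.LOC

section rad

variable {F : Type*} [NormedAddCommGroup F] [NormedSpace ℝ F] [FiniteDimensional ℝ F]
  [MeasurableSpace F] [BorelSpace F]

/-- the stopping radii at `q` -/
def stopSet (μ : Measure F) (n : ℕ) (q : F) : Set ℝ :=
  {t | 0 < t ∧ t ≤ 1 ∧ t ^ n ≤ μ.real (ball q t)}

/-- the candidates for the radius at `x` -/
def radSet (μ : Measure F) (n : ℕ) (x : F) : Set ℝ :=
  {u | ∃ q, ∃ t ∈ stopSet μ n q, u = (t - dist x q) / 8}

/-- the radius function -/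
noncomputable def rad (μ : Measure F) (n : ℕ) (R₀ : ℝ) (x : F) : ℝ :=
  max R₀ (sSup (insert 0 (radSet μ n x)))

variable {μ : Measure F} {n : ℕ} {R₀ : ℝ}

lemma radSet_le {x : F} {u : ℝ} (hu : u ∈ radSet μ n x) : u ≤ 1 / 8 := by
  obtain ⟨q, t, ht, rfl⟩ := hu
  have h1 : t ≤ 1 := ht.2.1
  have h2 : 0 ≤ dist x q := dist_nonneg
  linarith

lemma bddAbove_radSet (x : F) : BddAbove (insert 0 (radSet μ n x)) := by
  refine ⟨1 / 8, ?_⟩
  rintro u (rfl | hu)
  · norm_num
  · exact radSet_le hu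

lemma le_rad {x q : F} {t : ℝ} (ht : t ∈ stopSet μ n q) : (t - dist x q) / 8 ≤ rad μ n R₀ x :=
  (le_csSup (bddAbove_radSet x) (mem_insert_of_mem _ ⟨q, t, ht, rfl⟩)).trans (le_max_right _ _)

lemma floor_le_rad (x : F) : R₀ ≤ rad μ n R₀ x := le_max_left _ _

lemma rad_nonneg (x : F) : 0 ≤ rad μ n R₀ x :=
  (le_csSup (bddAbove_radSet x) (mem_insert _ _)).trans (le_max_right _ _)

/-- bound of the radius function -/
lemma rad_le [IsFiniteMeasure μ] (hn : n ≠ 0) {E₀ : ℝ} (hE : μ.real univ ≤ E₀) {b : ℝ}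
    (hb0 : 0 ≤ b) (hb : E₀ ≤ b ^ n) (x : F) : rad μ n R₀ x ≤ max R₀ (b / 8) := by
  refine max_le_max le_rfl (csSup_le (insert_nonempty _ _) ?_)
  rintro u (rfl | ⟨q, t, ht, rfl⟩)
  · positivity
  · have h1 : t ^ n ≤ b ^ n := by
      refine ht.2.2.trans ?_
      exact (measureReal_mono (subset_univ _)).trans (hE.trans hb)
    have h2 : t ≤ b := le_of_pow_le_pow_left₀ hn hb0 h1
    have h3 : 0 ≤ dist x q := dist_nonneg
    linarith

lemma rad_le_one (hR₀ : R₀ ≤ 1 / 8) (x : F) : rad μ n R₀ x ≤ 1 / 8 := by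
  refine max_le hR₀ (csSup_le (insert_nonempty _ _) ?_)
  rintro u (rfl | hu)
  · norm_num
  · exact radSet_le hu

/-- the radius function is `1/8`-Lipschitz -/
theorem lipRad_rad : LipRad (rad μ n R₀) := by
  have key : ∀ x y : F, rad μ n R₀ x ≤ rad μ n R₀ y + dist x y / 8 := by
    intro x y
    have h0 : 0 ≤ dist x y / 8 := by positivity
    have h00 : R₀ ≤ rad μ n R₀ y := floor_le_rad y
    refine max_le (by linarith) (csSup_le (insert_nonempty _ _) ?_)
    rintro u (rfl | ⟨q, t, ht, rfl⟩)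
    · have := rad_nonneg (μ := μ) (n := n) (R₀ := R₀) y
      linarith
    · have h1 := le_rad (R₀ := R₀) (x := y) ht
      have h2 : dist y q ≤ dist x y + dist x q := by
        rw [dist_comm x y]; exact dist_triangle _ _ _
      linarith
  intro x y
  rw [abs_le]
  have h1 := key x y
  have h2 := key y x
  rw [dist_comm] at h2
  constructor <;> linarith

/-- above eight times the radius the measure is small -/
theorem real_ball_lt {x : F} {s : ℝ} (hs : 8 * rad μ n R₀ x < s) (hs1 : s ≤ 1) :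
    μ.real (ball x s) < s ^ n := by
  by_contra hcon
  push Not at hcon
  have h0 : 0 < s := by
    have := rad_nonneg (μ := μ) (n := n) (R₀ := R₀) x
    linarith
  have h1 := le_rad (R₀ := R₀) (x := x) (q := x) (show s ∈ stopSet μ n x from ⟨h0, hs1, hcon⟩)
  rw [dist_self, sub_zero] at h1
  linarith

/-- a point whose radius is larger than the floor is close to a stopping ball -/
lemma exists_stop (hR₀ : 0 < R₀) {p : F} (hp : R₀ < rad μ n R₀ p) :
    ∃ q t, 0 < t ∧ t ≤ 1 ∧ t ^ n ≤ μ.real (ball q t) ∧ dist p q < t ∧ 4 * rad μ n R₀ p < t := by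
  have h1 : rad μ n R₀ p = sSup (insert 0 (radSet μ n p)) := by
    unfold rad at hp ⊢
    rcases max_cases R₀ (sSup (insert 0 (radSet μ n p))) with h | h
    · rw [h.1] at hp; exact absurd hp (lt_irrefl _)
    · exact h.1
  have h2 : rad μ n R₀ p / 2 < sSup (insert 0 (radSet μ n p)) := by
    rw [← h1]; linarith
  obtain ⟨u, hu, hlt⟩ := exists_lt_of_lt_csSup (insert_nonempty _ _) h2
  rcases hu with rfl | ⟨q, t, ht, rfl⟩
  · linarith
  · have h3 : 0 ≤ dist p q := dist_nonneg
    have h4 : 0 ≤ rad μ n R₀ p := rad_nonneg p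
    exact ⟨q, t, ht.1, ht.2.1, ht.2.2, by linarith, by linarith⟩

end rad

section count

/-- disjoint balls: volume counting in the right dimension -/
lemma sum_pow_le_of_disjoint {V : Type*} [NormedAddCommGroup V] [NormedSpace ℝ V]
    [FiniteDimensional ℝ V] (P : Finset V) (r : V → ℝ) (hr : ∀ p ∈ P, 0 ≤ r p)
    (hsep : ∀ c ∈ P, ∀ d ∈ P, c ≠ d → r c + r d ≤ dist c d) (x : V) {S : ℝ} (hS : 0 ≤ S)
    (hball : ∀ p ∈ P, dist p x + r p ≤ S) :
    ∑ p ∈ P, r p ^ finrank ℝ V ≤ S ^ finrank ℝ V := by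
  classical
  rcases Nat.eq_zero_or_pos (finrank ℝ V) with h0 | hpos
  · -- zero-dimensional space
    have hsub : Subsingleton V := finrank_zero_iff.1 h0
    rw [h0]
    simp only [pow_zero, Finset.sum_const, nsmul_eq_mul, mul_one]
    have : P.card ≤ 1 := Finset.card_le_one.2 fun a _ b _ => Subsingleton.elim a b
    exact_mod_cast this
  letI : MeasurableSpace V := borel V
  haveI : BorelSpace V := ⟨rfl⟩
  have hnt : Nontrivial V := Module.nontrivial_of_finrank_pos hpos
  let μ : Measure V := Measure.addHaar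
  have h1 : ∑ p ∈ P, μ (ball p (r p)) ≤ μ (ball x S) := by
    rw [← measure_biUnion_finset]
    · refine measure_mono (iUnion₂_subset fun p hp => ?_)
      refine ball_subset_ball' ?_
      linarith [hball p hp]
    · intro c hc d hd hcd
      exact ball_disjoint_ball (hsep c hc d hd hcd)
    · exact fun p _ => measurableSet_ball
  have h2 : ∀ p : V, ∀ s : ℝ, 0 ≤ s → μ (ball p s) = ENNReal.ofReal (s ^ finrank ℝ V) * μ (ball 0 1) :=
    fun p s hs => Measure.addHaar_ball μ p hs
  rw [h2 x S hS, Finset.sum_congr rfl fun p hp => h2 p (r p) (hr p hp), ← Finset.sum_mul,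
    ← ENNReal.ofReal_sum_of_nonneg fun p hp => pow_nonneg (hr p hp) _] at h1
  have hpos1 : μ (ball (0 : V) 1) ≠ 0 := (measure_ball_pos μ 0 one_pos).ne'
  have hfin : μ (ball (0 : V) 1) ≠ ∞ := measure_ball_lt_top.ne
  have h3 := (ENNReal.mul_le_mul_iff_left hpos1 hfin).1 h1
  exact (ENNReal.ofReal_le_ofReal_iff (pow_nonneg hS _)).1 h3

variable {E : Type*} [NormedAddCommGroup E] [InnerProductSpace ℝ E] [FiniteDimensional ℝ E]

/-- the same for points of a submodule -/
lemma sum_pow_le_of_disjoint_sub {T : Submodule ℝ E} {m : ℕ} (hT : finrank ℝ T = m)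
    (P : Finset E) (hPT : ∀ p ∈ P, p ∈ T) (r : E → ℝ) (hr : ∀ p ∈ P, 0 ≤ r p)
    (hsep : ∀ c ∈ P, ∀ d ∈ P, c ≠ d → r c + r d ≤ dist c d) (x : E) {S : ℝ} (hS : 0 ≤ S)
    (hball : ∀ p ∈ P, dist p x + r p ≤ S) : ∑ p ∈ P, r p ^ m ≤ S ^ m := by
  classical
  set P' : Finset T := P.attach.image fun p => (⟨p.1, hPT p.1 p.2⟩ : T) with hP'
  have h1 : ∑ p ∈ P, r p ^ m = ∑ p ∈ P', r (p : E) ^ m := by
    rw [hP', Finset.sum_image]
    · rw [← Finset.sum_attach]
    · intro a _ b _ hab
      exact Subtype.ext (congrArg (fun z : T => (z : E)) hab)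
  have hmem : ∀ p ∈ P', (p : E) ∈ P := by
    intro p hp
    obtain ⟨q, -, rfl⟩ := Finset.mem_image.1 hp
    exact q.2
  rw [h1, ← hT]
  refine sum_pow_le_of_disjoint P' (fun p => r (p : E)) (fun p hp => hr _ (hmem p hp)) ?_
    (T.orthogonalProjection x) hS ?_
  · intro c hc d hd hcd
    have := hsep c (hmem c hc) d (hmem d hd) fun h => hcd (Subtype.ext h)
    exact this
  · intro p hp
    have h2 : dist p (T.orthogonalProjection x) ≤ dist (p : E) x := by
      have h3 : T.orthogonalProjection (p : E) = p := by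
        exact Submodule.orthogonalProjection_mem_subspace_eq_self p
      conv_lhs => rw [← h3]
      rw [dist_eq_norm, ← map_sub, dist_eq_norm]
      exact (T.orthogonalProjection.le_opNorm _).trans
        (by
          have := T.orthogonalProjection_norm_le
          nlinarith [norm_nonneg ((p : E) - x)])
    linarith [hball _ (hmem p hp)]

end count

section sum

variable {E : Type*} [NormedAddCommGroup E] [InnerProductSpace ℝ E] [FiniteDimensional ℝ E]
  [MeasurableSpace E] [BorelSpace E]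

/-- **The sum over the active cells.** -/
theorem sum_active_le {T : Submodule ℝ E} {m : ℕ} (hT : finrank ℝ T = m) {n : ℕ} (hmn : m ≤ n)
    (hn : n ≠ 0) (μ : Measure E) [IsFiniteMeasure μ] {R₀ : ℝ} (hR₀ : 0 < R₀) {b : ℝ}
    (hb0 : 0 ≤ b) (hb : μ.real univ ≤ b ^ n) (P : Finset E) (hPT : ∀ p ∈ P, p ∈ T)
    (hsep : ∀ c ∈ P, ∀ d ∈ P, c ≠ d → (rad μ n R₀ c + rad μ n R₀ d) / 8 ≤ dist c d)
    (a : E → ℝ) (ha : ∀ p ∈ P, 0 ≤ a p) (f : E → ℝ) (hf : Integrable f μ) (hf0 : ∀ x, 0 ≤ f x)
    (haf : ∀ p ∈ P, ∀ x, dist x p ≤ 6 * b → a p ≤ f x) :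
    ∑ p ∈ P.filter (fun p => R₀ < rad μ n R₀ p), a p * rad μ n R₀ p ^ n
      ≤ 48 ^ m * ∫ x, f x ∂μ := by
  classical
  set R := rad μ n R₀ with hR
  set A := P.filter (fun p => R₀ < R p) with hA
  have hRpos : ∀ p, 0 < R p := fun p => hR₀.trans_le (floor_le_rad p)
  have hst : ∀ p : E, ∃ q : E, ∃ t : ℝ, p ∈ A → (0 < t ∧ t ≤ 1 ∧ t ^ n ≤ μ.real (ball q t) ∧
      dist p q < t ∧ 4 * R p < t) := by
    intro p
    by_cases hp : p ∈ A
    · obtain ⟨q, t, h⟩ := exists_stop hR₀ (Finset.mem_filter.1 hp).2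
      exact ⟨q, t, fun _ => h⟩
    · exact ⟨0, 0, fun h => absurd h hp⟩
  choose q t hqt using hst
  -- Vitali
  obtain ⟨u, huA, hdis, hcov⟩ := Vitali.exists_disjoint_subfamily_covering_enlargement
    (fun p : E => ball (q p) (t p)) (A : Set E) t 2 (by norm_num)
    (fun p hp => (hqt p hp).1.le) 1 (fun p hp => (hqt p hp).2.1)
    (fun p hp => nonempty_ball.2 (hqt p hp).1)
  have hufin : u.Finite := A.finite_toSet.subset huA
  let U : Finset E := hufin.toFinset
  have hU : ∀ c, c ∈ U ↔ c ∈ u := fun c => hufin.mem_toFinset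
  have hcov' : ∀ p : E, ∃ c : E, p ∈ A → (c ∈ U ∧ (ball (q p) (t p) ∩ ball (q c) (t c)).Nonempty ∧
      t p ≤ 2 * t c) := by
    intro p
    by_cases hp : p ∈ A
    · obtain ⟨c, hc, h1, h2⟩ := hcov p hp
      exact ⟨c, fun _ => ⟨(hU c).2 hc, h1, h2⟩⟩
    · exact ⟨p, fun h => absurd h hp⟩
  choose g hg using hcov'
  -- bound of `t`
  have htb : ∀ c ∈ U, t c ≤ b := by
    intro c hc
    have h1 := hqt c (huA ((hU c).1 hc))
    have h2 : t c ^ n ≤ b ^ n :=
      h1.2.2.1.trans ((measureReal_mono (subset_univ _)).trans hb)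
    exact le_of_pow_le_pow_left₀ hn hb0 h2
  -- one group
  have hgroup : ∀ c ∈ U, ∑ p ∈ A.filter (fun p => g p = c), a p * R p ^ n
      ≤ 48 ^ m * ∫ x in ball (q c) (t c), f x ∂μ := by
    intro c hc
    have hc1 := hqt c (huA ((hU c).1 hc))
    have htc : 0 < t c := hc1.1
    -- geometry of the group
    have hgeo : ∀ p ∈ A.filter (fun p => g p = c), dist p (q c) ≤ 5 * t c ∧ R p ≤ t c / 2 := by
      intro p hp
      obtain ⟨hpA, hpc⟩ := Finset.mem_filter.1 hp
      obtain ⟨h1, ⟨z, hz1, hz2⟩, h3⟩ := hg p hpA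
      rw [hpc] at hz2 h3
      have h4 := hqt p hpA
      rw [mem_ball] at hz1 hz2
      have h5 : dist p (q c) ≤ dist p (q p) + dist (q p) z + dist z (q c) :=
        dist_triangle4 _ _ _ _
      rw [dist_comm (q p) z] at h5
      constructor
      · linarith [h4.2.2.2.1]
      · linarith [h4.2.2.2.2]
    -- volume counting
    have hvol : ∑ p ∈ A.filter (fun p => g p = c), (R p / 8) ^ m ≤ (6 * t c) ^ m := by
      refine sum_pow_le_of_disjoint_sub hT _ (fun p hp => ?_) (fun p => R p / 8) (fun p _ => ?_)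
        (fun x hx y hy hxy => ?_) (q c) (by linarith) (fun p hp => ?_)
      · exact hPT p (Finset.mem_filter.1 (Finset.mem_filter.1 hp).1).1
      · have := hRpos p
        positivity
      · have h1 := hsep x (Finset.mem_filter.1 (Finset.mem_filter.1 hx).1).1 y
          (Finset.mem_filter.1 (Finset.mem_filter.1 hy).1).1 hxy
        show R x / 8 + R y / 8 ≤ dist x y
        linarith
      · obtain ⟨h1, h2⟩ := hgeo p hp
        show dist p (q c) + R p / 8 ≤ 6 * t c
        linarith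
    have hvol2 : ∑ p ∈ A.filter (fun p => g p = c), R p ^ m ≤ (48 * t c) ^ m := by
      have h1 : ∑ p ∈ A.filter (fun p => g p = c), R p ^ m
          = 8 ^ m * ∑ p ∈ A.filter (fun p => g p = c), (R p / 8) ^ m := by
        rw [Finset.mul_sum]
        refine Finset.sum_congr rfl fun p _ => ?_
        rw [← mul_pow]
        congr 1
        ring
      rw [h1]
      calc 8 ^ m * ∑ p ∈ A.filter (fun p => g p = c), (R p / 8) ^ m
          ≤ 8 ^ m * (6 * t c) ^ m := mul_le_mul_of_nonneg_left hvol (by positivity)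
        _ = (48 * t c) ^ m := by rw [← mul_pow]; congr 1; ring
    have hvol3 : ∑ p ∈ A.filter (fun p => g p = c), R p ^ n ≤ 48 ^ m * t c ^ n := by
      have h1 : ∀ p ∈ A.filter (fun p => g p = c), R p ^ n ≤ t c ^ (n - m) * R p ^ m := by
        intro p hp
        obtain ⟨-, h2⟩ := hgeo p hp
        have h3 : R p ^ n = R p ^ (n - m) * R p ^ m := by
          rw [← pow_add]; congr 1; omega
        rw [h3]
        refine mul_le_mul_of_nonneg_right ?_ (pow_nonneg (hRpos p).le _)
        exact pow_le_pow_left₀ (hRpos p).le (by linarith) _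
      calc ∑ p ∈ A.filter (fun p => g p = c), R p ^ n
          ≤ ∑ p ∈ A.filter (fun p => g p = c), t c ^ (n - m) * R p ^ m := Finset.sum_le_sum h1
        _ = t c ^ (n - m) * ∑ p ∈ A.filter (fun p => g p = c), R p ^ m := by
            rw [Finset.mul_sum]
        _ ≤ t c ^ (n - m) * (48 * t c) ^ m :=
            mul_le_mul_of_nonneg_left hvol2 (by positivity)
        _ = 48 ^ m * (t c ^ (n - m) * t c ^ m) := by rw [mul_pow]; ring
        _ = 48 ^ m * t c ^ n := by rw [← pow_add]; congr 2; omega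
    -- the values
    by_cases hne : (A.filter (fun p => g p = c)).Nonempty
    · -- lower bound of `f` on the ball
      set Amax : ℝ := (A.filter (fun p => g p = c)).sup' hne a with hAmax
      have hAf : ∀ x ∈ ball (q c) (t c), Amax ≤ f x := by
        intro x hx
        refine Finset.sup'_le _ _ fun p hp => ?_
        refine haf p (Finset.mem_filter.1 (Finset.mem_filter.1 hp).1).1 x ?_
        obtain ⟨h1, -⟩ := hgeo p hp
        rw [mem_ball] at hx
        have h2 := dist_triangle x (q c) p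
        rw [dist_comm (q c) p] at h2
        have h3 := htb c hc
        linarith
      have hA0 : 0 ≤ Amax := by
        obtain ⟨p, hp⟩ := hne
        exact (ha p (Finset.mem_filter.1 (Finset.mem_filter.1 hp).1).1).trans
          (Finset.le_sup' a hp)
      calc ∑ p ∈ A.filter (fun p => g p = c), a p * R p ^ n
          ≤ ∑ p ∈ A.filter (fun p => g p = c), Amax * R p ^ n := by
            refine Finset.sum_le_sum fun p hp => ?_
            exact mul_le_mul_of_nonneg_right (Finset.le_sup' a hp) (pow_nonneg (hRpos p).le _)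
        _ = Amax * ∑ p ∈ A.filter (fun p => g p = c), R p ^ n := by rw [Finset.mul_sum]
        _ ≤ Amax * (48 ^ m * t c ^ n) := mul_le_mul_of_nonneg_left hvol3 hA0
        _ ≤ Amax * (48 ^ m * μ.real (ball (q c) (t c))) := by
            refine mul_le_mul_of_nonneg_left ?_ hA0
            exact mul_le_mul_of_nonneg_left hc1.2.2.1 (by positivity)
        _ = 48 ^ m * (Amax * μ.real (ball (q c) (t c))) := by ring
        _ = 48 ^ m * ∫ x in ball (q c) (t c), Amax ∂μ := by
            rw [setIntegral_const, smul_eq_mul, mul_comm Amax]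
        _ ≤ 48 ^ m * ∫ x in ball (q c) (t c), f x ∂μ := by
            refine mul_le_mul_of_nonneg_left ?_ (by positivity)
            refine setIntegral_mono_on (integrable_const _).integrableOn hf.integrableOn
              measurableSet_ball hAf
    · rw [Finset.not_nonempty_iff_eq_empty.1 hne, Finset.sum_empty]
      exact mul_nonneg (by positivity) (integral_nonneg fun x => hf0 x)
  -- summation over the groups
  have hsplit : ∑ p ∈ A, a p * R p ^ n
      = ∑ c ∈ U, ∑ p ∈ A.filter (fun p => g p = c), a p * R p ^ n :=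
    (Finset.sum_fiberwise_of_maps_to (fun p hp => (hg p hp).1) _).symm
  rw [hsplit]
  calc ∑ c ∈ U, ∑ p ∈ A.filter (fun p => g p = c), a p * R p ^ n
      ≤ ∑ c ∈ U, 48 ^ m * ∫ x in ball (q c) (t c), f x ∂μ := Finset.sum_le_sum hgroup
    _ = 48 ^ m * ∑ c ∈ U, ∫ x in ball (q c) (t c), f x ∂μ := by rw [Finset.mul_sum]
    _ = 48 ^ m * ∫ x in ⋃ c ∈ U, ball (q c) (t c), f x ∂μ := by
        rw [integral_biUnion_finset U (fun c _ => measurableSet_ball) ?_
          (fun c _ => hf.integrableOn)]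
        intro c hc d hd hcd
        exact hdis ((hU c).1 hc) ((hU d).1 hd) hcd
    _ ≤ 48 ^ m * ∫ x, f x ∂μ := by
        refine mul_le_mul_of_nonneg_left ?_ (by positivity)
        exact setIntegral_le_integral hf (Eventually.of_forall fun x => hf0 x)

/-- **The sum over the floor cells.** -/
theorem sum_floor_le {T : Submodule ℝ E} {m : ℕ} (hT : finrank ℝ T = m) {n : ℕ} (hmn : m ≤ n)
    (μ : Measure E) {R₀ : ℝ} (hR₀ : 0 < R₀) (P : Finset E) (hPT : ∀ p ∈ P, p ∈ T)
    (hsep : ∀ c ∈ P, ∀ d ∈ P, c ≠ d → (rad μ n R₀ c + rad μ n R₀ d) / 8 ≤ dist c d)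
    {z : E} {D : ℝ} (hD : 0 ≤ D) (hPD : ∀ p ∈ P, dist p z ≤ D) (a : E → ℝ) {a₀ : ℝ}
    (ha0 : 0 ≤ a₀) (ha : ∀ p ∈ P, a p ≤ a₀) :
    ∑ p ∈ P.filter (fun p => ¬ R₀ < rad μ n R₀ p), a p * rad μ n R₀ p ^ n
      ≤ a₀ * ((8 * D + R₀) ^ m * R₀ ^ (n - m)) := by
  classical
  set R := rad μ n R₀ with hR
  set A := P.filter (fun p => ¬ R₀ < R p) with hA
  have hReq : ∀ p ∈ A, R p = R₀ := fun p hp =>
    le_antisymm (not_lt.1 (Finset.mem_filter.1 hp).2) (floor_le_rad p)
  have h1 : ∑ p ∈ A, (R₀ / 8) ^ m ≤ (D + R₀ / 8) ^ m := by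
    refine sum_pow_le_of_disjoint_sub hT A (fun p hp => hPT p (Finset.mem_filter.1 hp).1)
      (fun _ => R₀ / 8) (fun _ _ => by positivity) (fun c hc d hd hcd => ?_) z (by positivity)
      (fun p hp => ?_)
    · have h2 := hsep c (Finset.mem_filter.1 hc).1 d (Finset.mem_filter.1 hd).1 hcd
      have h3 := hReq c hc
      have h4 := hReq d hd
      show R₀ / 8 + R₀ / 8 ≤ dist c d
      rw [h3, h4] at h2
      linarith
    · show dist p z + R₀ / 8 ≤ D + R₀ / 8
      linarith [hPD p (Finset.mem_filter.1 hp).1]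
  have h2 : ∑ p ∈ A, R₀ ^ m ≤ (8 * D + R₀) ^ m := by
    calc ∑ p ∈ A, R₀ ^ m = 8 ^ m * ∑ p ∈ A, (R₀ / 8) ^ m := by
          rw [Finset.mul_sum]
          refine Finset.sum_congr rfl fun p _ => ?_
          rw [← mul_pow]; congr 1; ring
      _ ≤ 8 ^ m * (D + R₀ / 8) ^ m := mul_le_mul_of_nonneg_left h1 (by positivity)
      _ = (8 * D + R₀) ^ m := by rw [← mul_pow]; congr 1; ring
  calc ∑ p ∈ A, a p * R p ^ n ≤ ∑ p ∈ A, a₀ * (R₀ ^ (n - m) * R₀ ^ m) := by
        refine Finset.sum_le_sum fun p hp => ?_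
        rw [hReq p hp, ← pow_add, show n - m + m = n by omega]
        exact mul_le_mul_of_nonneg_right (ha p (Finset.mem_filter.1 hp).1) (by positivity)
    _ = a₀ * (R₀ ^ (n - m) * ∑ p ∈ A, R₀ ^ m) := by
        rw [← Finset.mul_sum, ← Finset.mul_sum]
    _ ≤ a₀ * (R₀ ^ (n - m) * (8 * D + R₀) ^ m) := by gcongr
    _ = _ := by ring

end sum

end Vale.Agent.P214.LOCF
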